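import Vale.Agent.P236Z.Tate.Sk
import Mathlib.Algebra.MvPolynomial.Division
import Mathlib.LinearAlgebra.Matrix.NonsingularInverse

/-!
# P236, block TATE: regular sequences are quasi-regular; change of parameters
-/

namespace Vale.Agent.P236Z.Tate

open IsLocalRing MvPolynomial

namespace Qr

variable {R : Type} [CommRing R] {N : ℕ} (s : Fin N → R)

/-- homogeneous of degree `n` in the first `k` variables -/
def Hs (k n : ℕ) (P : MvPolynomial (Fin N) R) : Prop :=
  ∀ μ, coeff μ P ≠ 0 → μ.degree = n ∧ ∀ i : Fin N, k ≤ i.val → μ i = 0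

/-- the ideal of the first `k` elements -/
def II (k : ℕ) : Ideal R := Ideal.span (s '' {i | i.val < k})

variable {s}

theorem Hs.zero (k n : ℕ) : Hs k n (0 : MvPolynomial (Fin N) R) := fun _ h => absurd rfl h

theorem Hs.add {k n : ℕ} {P Q : MvPolynomial (Fin N) R} (hP : Hs k n P) (hQ : Hs k n Q) :
    Hs k n (P + Q) := fun μ h => by
  rw [coeff_add] at h
  by_cases h1 : coeff μ P = 0
  · exact hQ μ (by rwa [h1, zero_add] at h)
  · exact hP μ h1

theorem Hs.C_mul {k n : ℕ} {P : MvPolynomial (Fin N) R} (hP : Hs k n P) (c : R) :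
    Hs k n (C c * P) := fun μ h => hP μ fun h0 => h (by rw [coeff_C_mul, h0, mul_zero])

theorem Hs.sub {k n : ℕ} {P Q : MvPolynomial (Fin N) R} (hP : Hs k n P) (hQ : Hs k n Q) :
    Hs k n (P - Q) := by
  have := hP.add (hQ.C_mul (-1))
  rwa [map_neg, map_one, neg_one_mul, ← sub_eq_add_neg] at this

theorem Hs.mul_X {k n : ℕ} {P : MvPolynomial (Fin N) R} (hP : Hs k n P) {i : Fin N}
    (hi : i.val < k) : Hs k (n + 1) (P * X i) := fun μ h => by
  rw [coeff_mul_X'] at h
  split_ifs at h with hm
  · obtain ⟨h1, h2⟩ := hP _ h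
    have e : μ = μ - Finsupp.single i 1 + Finsupp.single i 1 :=
      (tsub_add_cancel_of_le (Finsupp.single_le_iff.2 (Nat.one_le_iff_ne_zero.2
        (Finsupp.mem_support_iff.1 hm)))).symm
    refine ⟨by rw [e, map_add, h1, Finsupp.degree_single], fun j hj => ?_⟩
    rw [e, Finsupp.add_apply, h2 j hj, Finsupp.single_eq_of_ne (by rintro rfl; omega),
      add_zero]
  · exact absurd rfl h

theorem Hs.one (k : ℕ) : Hs k 0 (1 : MvPolynomial (Fin N) R) := fun μ h => by
  rw [coeff_one] at h
  split_ifs at h with hm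
  · subst hm; simp
  · exact absurd rfl h

theorem prod_mem_pow (I : Ideal R) {σ : Type} (v : σ → R) (μ : σ →₀ ℕ)
    (h : ∀ i, μ i ≠ 0 → v i ∈ I) : (μ.prod fun i k => v i ^ k) ∈ I ^ μ.degree := by
  rw [Finsupp.degree_apply, ← Finset.prod_pow_eq_pow_sum, Finsupp.prod]
  exact Ideal.prod_mem_prod fun i hi =>
    Ideal.pow_mem_pow (h i (Finsupp.mem_support_iff.1 hi)) _

theorem eval_mem {k n : ℕ} {P : MvPolynomial (Fin N) R} (hP : Hs k n P) (K : Ideal R)
    (hK : ∀ μ, coeff μ P ∈ K) : eval s P ∈ K * II s k ^ n := by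
  rw [P.as_sum, map_sum]
  refine Ideal.sum_mem _ fun μ hμ => ?_
  obtain ⟨h1, h2⟩ := hP μ (mem_support_iff.1 hμ)
  rw [eval_monomial, ← h1]
  refine Ideal.mul_mem_mul (hK μ) (prod_mem_pow _ _ _ fun i hi => ?_)
  exact Ideal.subset_span ⟨i, by by_contra hc; exact hi (h2 i (not_lt.1 hc)), rfl⟩

theorem exists_of_mem_pow {k n : ℕ} {z : R} (hz : z ∈ II s k ^ n) :
    ∃ P, Hs k n P ∧ eval s P = z := by
  induction n generalizing z with
  | zero => exact ⟨C z * 1, (Hs.one k).C_mul z, by simp⟩
  | succ n ih =>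
    rw [pow_succ] at hz
    refine Submodule.mul_induction_on hz (fun a ha b hb => ?_) ?_
    · obtain ⟨P, hP, rfl⟩ := ih ha
      induction hb using Submodule.span_induction with
      | mem b hb =>
        obtain ⟨i, hi, rfl⟩ := hb
        exact ⟨P * X i, hP.mul_X hi, by simp⟩
      | zero => exact ⟨0, Hs.zero _ _, by simp⟩
      | add x y _ _ hx hy =>
        obtain ⟨Q, hQ, e⟩ := hx
        obtain ⟨Q', hQ', e'⟩ := hy
        exact ⟨Q + Q', hQ.add hQ', by rw [map_add, e, e', mul_add]⟩
      | smul c x _ hx =>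
        obtain ⟨Q, hQ, e⟩ := hx
        exact ⟨C c * Q, hQ.C_mul c, by rw [map_mul, eval_C, e, smul_eq_mul]; ring⟩
    · rintro x y ⟨Q, hQ, rfl⟩ ⟨Q', hQ', rfl⟩
      exact ⟨Q + Q', hQ.add hQ', map_add _ _ _⟩

theorem exists_of_mem_mul {k n : ℕ} (K : Ideal R) {z : R} (hz : z ∈ K * II s k ^ n) :
    ∃ P, Hs k n P ∧ (∀ μ, coeff μ P ∈ K) ∧ eval s P = z := by
  refine Submodule.mul_induction_on hz (fun a ha b hb => ?_) ?_
  · obtain ⟨P, hP, rfl⟩ := exists_of_mem_pow hb
    exact ⟨C a * P, hP.C_mul a, fun μ => by rw [coeff_C_mul]; exact K.mul_mem_right _ ha, by simp⟩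
  · rintro x y ⟨Q, hQ, hK, rfl⟩ ⟨Q', hQ', hK', rfl⟩
    exact ⟨Q + Q', hQ.add hQ', fun μ => by rw [coeff_add]; exact K.add_mem (hK μ) (hK' μ),
      map_add _ _ _⟩

variable (s) in
/-- quasi-regularity of the first `k` elements -/
def QQ (k : ℕ) : Prop :=
  ∀ n P, Hs k n P → eval s P ∈ II s k ^ (n + 1) → ∀ μ, coeff μ P ∈ II s k

theorem qq_of_zero {k n : ℕ} (h : ∀ P, Hs k n P → eval s P = 0 → ∀ μ, coeff μ P ∈ II s k)
    (P : MvPolynomial (Fin N) R) (hP : Hs k n P) (hz : eval s P ∈ II s k ^ (n + 1)) (μ) :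
    coeff μ P ∈ II s k := by
  rw [pow_succ'] at hz
  obtain ⟨G, hG, hK, e⟩ := exists_of_mem_mul _ hz
  have := h (P - G) (hP.sub hG) (by rw [map_sub, e, sub_self]) μ
  rw [coeff_sub] at this
  simpa using Ideal.add_mem _ this (hK μ)

theorem QQ.colon {k : ℕ} (h : QQ s k) {x : R} (hx : ∀ y, x * y ∈ II s k → y ∈ II s k) (n : ℕ)
    (y : R) (hy : x * y ∈ II s k ^ n) : y ∈ II s k ^ n := by
  induction n with
  | zero => simp
  | succ n ih =>
    obtain ⟨F, hF, rfl⟩ := exists_of_mem_pow (ih (Ideal.pow_le_pow_right (Nat.le_succ n) hy))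
    rw [pow_succ']
    refine eval_mem hF _ fun μ => hx _ ?_
    have := h n (C x * F) (hF.C_mul x) (by simpa using hy) μ
    rwa [coeff_C_mul] at this

theorem II_mono (k : ℕ) : II s k ≤ II s (k + 1) :=
  Ideal.span_mono (Set.image_mono fun i (hi : i.val < k) => Nat.lt_succ_of_lt hi)

theorem QQ.succ {i : Fin N} (h : QQ s i) (hx : ∀ y, s i * y ∈ II s i → y ∈ II s i) :
    QQ s (i + 1) := by
  have hi : s i ∈ II s (i + 1) := Ideal.subset_span ⟨i, Nat.lt_succ_self _, rfl⟩
  intro n
  induction n using Nat.strong_induction_on with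
  | _ n ih =>
    refine qq_of_zero fun P hP h0 μ => ?_
    have hG : Hs i n (P.modMonomial (Finsupp.single i 1)) := fun μ hμ => by
      by_cases hle : Finsupp.single i 1 ≤ μ
      · exact absurd (coeff_modMonomial_of_le P hle) hμ
      · rw [coeff_modMonomial_of_not_le P hle] at hμ
        refine ⟨(hP μ hμ).1, fun j hj => ?_⟩
        rcases hj.eq_or_lt with hj | hj
        · rw [Finsupp.single_le_iff] at hle
          rw [← Fin.ext hj]
          omega
        · exact (hP μ hμ).2 j hj
    have e := congrArg (eval s) (divMonomial_add_modMonomial_single P i)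
    rw [h0, map_add, map_mul, eval_X] at e
    have h1 : eval s (P.divMonomial (Finsupp.single i 1)) ∈ II s i ^ n := by
      refine h.colon hx n _ ?_
      rw [eq_neg_of_add_eq_zero_left e]
      have := eval_mem (s := s) hG ⊤ fun _ => trivial
      rw [Ideal.top_mul] at this
      exact neg_mem this
    by_cases hle : Finsupp.single i 1 ≤ μ
    · obtain ⟨ν, rfl⟩ := exists_add_of_le hle
      by_cases hc : coeff (Finsupp.single i 1 + ν) P = 0
      · rw [hc]; exact zero_mem _
      · have hn := (hP _ hc).1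
        rw [map_add, Finsupp.degree_single] at hn
        rw [← coeff_divMonomial]
        refine ih ν.degree (by omega) _ (fun ν' hν => ?_) ?_ ν
        · rw [coeff_divMonomial] at hν
          obtain ⟨h2, h3⟩ := hP _ hν
          rw [map_add, Finsupp.degree_single] at h2
          refine ⟨by omega, fun j hj => ?_⟩
          have := h3 j hj
          rw [Finsupp.add_apply] at this
          omega
        · rw [show ν.degree + 1 = n by omega]
          exact Ideal.pow_right_mono (II_mono _) n h1
    · obtain ⟨H, hH, e2⟩ := exists_of_mem_pow h1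
      have := h n _ (hG.add (hH.C_mul (s i))) (by
        rw [map_add, map_mul, eval_C, e2, add_comm (eval s _), e]; exact zero_mem _) μ
      rw [coeff_add, coeff_C_mul, coeff_modMonomial_of_not_le P hle] at this
      have h4 := Ideal.sub_mem _ (II_mono _ this) (Ideal.mul_mem_right (coeff μ H) _ hi)
      rwa [add_sub_cancel_right] at h4

theorem qq_zero : QQ s 0 := fun n P hP h μ => by
  by_cases hc : coeff μ P = 0
  · rw [hc]; exact zero_mem _
  · have h0 : ∀ ν, coeff ν P ≠ 0 → ν = 0 := fun ν hν =>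
      Finsupp.ext fun i => (hP ν hν).2 i (Nat.zero_le _)
    obtain rfl := h0 μ hc
    have e : P = C (coeff 0 P) := by
      ext ν
      rw [coeff_C]
      split_ifs with hν
      · rw [hν]
      · by_contra hc'
        exact hν (h0 ν hc').symm
    rw [e, eval_C] at h
    exact Ideal.pow_le_self (Nat.succ_ne_zero n) h

theorem II_top : II s N = Ideal.span (Set.range s) := by
  rw [II, show {i : Fin N | i.val < N} = Set.univ from Set.eq_univ_of_forall fun i => i.2,
    Set.image_univ]

theorem hs_iff {n : ℕ} {P : MvPolynomial (Fin N) R} : Hs N n P ↔ P.IsHomogeneous n := by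
  constructor
  · intro h μ hμ
    have := (h μ hμ).1
    rwa [Finsupp.degree_eq_weight_one] at this
  · intro h μ hμ
    refine ⟨?_, fun i hi => absurd i.2 (not_lt.2 hi)⟩
    by_contra hc
    exact hμ (h.coeff_eq_zero hc)

/-- the linear substitution given by a matrix -/
noncomputable def sub {B : Type} [CommRing B] (A : Matrix (Fin N) (Fin N) B) :
    MvPolynomial (Fin N) B →ₐ[B] MvPolynomial (Fin N) B :=
  aeval fun i => ∑ j, C (A i j) * X j

theorem sub_sub {B : Type} [CommRing B] (A A' : Matrix (Fin N) (Fin N) B) (h : A * A' = 1)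
    (P : MvPolynomial (Fin N) B) : sub A' (sub A P) = P := by
  have : (sub A').comp (sub A) = AlgHom.id B _ := by
    refine algHom_ext fun i => ?_
    simp only [sub, AlgHom.comp_apply, aeval_X, map_sum, map_mul, aeval_C, algebraMap_eq,
      AlgHom.id_apply, Finset.mul_sum]
    rw [Finset.sum_comm]
    have e : ∀ l, ∑ j, C (A i j) * (C (A' j l) * X l) =
        (C ((A * A') i l) * X l : MvPolynomial (Fin N) B) := fun l => by
      rw [Matrix.mul_apply, map_sum, Finset.sum_mul]
      exact Finset.sum_congr rfl fun j _ => by rw [map_mul, mul_assoc]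
    simp only [e, h, Matrix.one_apply]
    rw [Finset.sum_eq_single i (fun l _ hl => by rw [if_neg hl.symm, map_zero, zero_mul])
      (fun hi => absurd (Finset.mem_univ i) hi), if_pos rfl, map_one, one_mul]
  exact DFunLike.congr_fun this P

theorem map_sub' {B : Type} [CommRing B] (f : R →+* B) (A : Matrix (Fin N) (Fin N) R)
    (P : MvPolynomial (Fin N) R) : map f (sub A P) = sub (A.map f) (map f P) := by
  induction P using MvPolynomial.induction_on with
  | C c => simp [sub]
  | add P Q hP hQ => simp only [map_add, hP, hQ]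
  | mul_X P i hP => simp only [map_mul, hP]; simp [sub]

end Qr

open Qr

theorem qrs : QRS := by
  intro R _ _ N s hs hr
  have key : ∀ k ≤ N, QQ s k := by
    intro k hk
    induction k with
    | zero => exact qq_zero
    | succ k ih =>
      refine QQ.succ (i := ⟨k, hk⟩) (ih (by omega)) fun y hy => ?_
      have h1 := hr.regular_mod_prev k (by simpa using hk)
      have e : (Ideal.ofList ((List.ofFn s).take k) • ⊤ : Submodule R R) = II s k := by
        rw [smul_eq_mul, Ideal.mul_top, Ideal.ofList, II]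
        congr 1
        ext z
        simp only [Set.mem_ofPred_eq, List.mem_iff_getElem, List.getElem_take, List.getElem_ofFn,
          List.length_take, List.length_ofFn, Set.mem_image]
        constructor
        · rintro ⟨i, hi, rfl⟩
          exact ⟨⟨i, by omega⟩, by simp only; omega, rfl⟩
        · rintro ⟨i, hi, rfl⟩
          exact ⟨i, by have := i.2; omega, rfl⟩
      rw [e, List.getElem_ofFn] at h1
      exact mem_of_isSMulRegular_quotient_of_smul_mem h1 hy
  refine ⟨hs, fun n P hP hz μ => ?_⟩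
  have := key N le_rfl n P (hs_iff.2 hP) (by rwa [II_top, hs]) μ
  rwa [II_top, hs] at this

theorem qrc : QRC := by
  intro R _ _ N s s' h hs'
  refine ⟨hs', fun n P hP hz μ => ?_⟩
  have hA : ∀ i, ∃ a : Fin N → R, ∑ j, a j * s j = s' i := fun i =>
    (Ideal.mem_span_range_iff_exists_fun).1 (by
      rw [h.1, ← hs']; exact Ideal.subset_span ⟨i, rfl⟩)
  have hB : ∀ j, ∃ b : Fin N → R, ∑ i, b i * s' i = s j := fun j =>
    (Ideal.mem_span_range_iff_exists_fun).1 (by
      rw [hs', ← h.1]; exact Ideal.subset_span ⟨j, rfl⟩)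
  choose A hA using hA
  choose B hB using hB
  have hBA : (Matrix.of B).map (residue R) * (Matrix.of A).map (residue R) = 1 := by
    rw [← Matrix.map_mul]
    ext j l
    have h1 := h.2 1 (∑ l, C ((Matrix.of B * Matrix.of A) j l) * X l - X j)
      ((IsHomogeneous.sum _ _ _ fun l _ => (isHomogeneous_X _ l).C_mul _).sub
        (isHomogeneous_X _ j)) (by
        have : ∑ l, (Matrix.of B * Matrix.of A) j l * s l = s j := by
          simp only [Matrix.mul_apply, Matrix.of_apply, Finset.sum_mul]
          rw [Finset.sum_comm, ← hB j]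
          refine Finset.sum_congr rfl fun i _ => ?_
          rw [← hA i, Finset.mul_sum]
          exact Finset.sum_congr rfl fun l _ => mul_assoc _ _ _
        simp only [map_sub, map_sum, map_mul, eval_C, eval_X, this, sub_self]
        exact zero_mem _) (Finsupp.single l 1)
    rw [coeff_sub, coeff_sum] at h1
    simp only [coeff_C_mul, coeff_X, Finsupp.single_left_inj one_ne_zero, mul_ite, mul_one,
      mul_zero, Finset.sum_ite_eq', Finset.mem_univ, if_true] at h1
    rw [← residue_eq_zero_iff, map_sub, sub_eq_zero] at h1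
    rw [Matrix.map_apply, h1, Matrix.one_apply]
    split_ifs <;> simp
  have hAB := mul_eq_one_comm.1 hBA
  have h2 : map (residue R) (Qr.sub (Matrix.of A) P) = 0 := by
    ext ν
    rw [coeff_map, coeff_zero, residue_eq_zero_iff]
    refine h.2 n _ ?_ ?_ ν
    · have := hP.aeval (fun i => ∑ j, C (Matrix.of A i j) * X j) (n := 1)
        fun i => IsHomogeneous.sum _ _ _ fun l _ => (isHomogeneous_X _ l).C_mul _
      rwa [one_mul] at this
    · have : eval s (Qr.sub (Matrix.of A) P) = eval s' P := by
        clear hP hz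
        induction P using MvPolynomial.induction_on with
        | C c => simp [Qr.sub]
        | add P Q hP hQ => simp only [map_add, hP, hQ]
        | mul_X P i hP => simp only [map_mul, hP]; simp [Qr.sub, hA]
      rwa [this]
  rw [Qr.map_sub'] at h2
  have h3 := sub_sub _ _ hAB (map (residue R) P)
  rw [h2, map_zero] at h3
  rw [← residue_eq_zero_iff, ← coeff_map, ← h3, coeff_zero]

end Vale.Agent.P236Z.Tate
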