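import Vale.Agent.P251.F.Height

/-!
# P236, block TATE: Tate cohomology of `C₃ ⊆ C₉` on the Lubin-Tate ring of height six (definitions)

The graded ring is `R[u, u⁻¹]`; an element `r` of `R` in degree `d` stands for `r u ^ d` (homotopy
degree `-2 d`), and the automorphism `g` acts by `g u = t u`.
-/

namespace Vale.Agent.P236Z.Tate

open Vale.Agent.P251.F Vale.Agent.P217 IsLocalRing MvPolynomial

/-- an automorphism `g` of `R` and the unit `t = g u / u` -/
structure Tw (R : Type) [CommRing R] where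
  g : R ≃+* R
  t : Rˣ

namespace Tw

variable {R : Type} [CommRing R] (A : Tw R)

/-- the action in degree `d` -/
def act (d : ℤ) (r : R) : R := A.g r * ((A.t ^ d : Rˣ) : R)

/-- the third power -/
def cube : Tw R where
  g := A.g.trans (A.g.trans A.g)
  t := A.t * Units.map (A.g : R →* R) A.t * Units.map (A.g : R →* R) (Units.map (A.g : R →* R) A.t)

/-- `g - 1` -/
def T (d : ℤ) (r : R) : R := A.act d r - r

/-- `1 + g + g²` -/
def tr (d : ℤ) (r : R) : R := r + A.act d r + A.act d (A.act d r)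

/-- the norm, from degree `d` to degree `3 d` -/
def nm (d : ℤ) (r : R) : R := r * A.act d r * A.act d (A.act d r)

/-- the cup product of two classes of odd cohomological degree -/
def star (d e : ℤ) (x y : R) : R := A.act d x * A.act e (A.act e y) - x * y

/-- `g` has order three -/
def Ord3 : Prop := ∀ d r, A.act d (A.act d (A.act d r)) = r

/-- the ideal of the fixed points in characteristic three -/
def J : Ideal R := Ideal.span ({3, (A.t : R) - 1} ∪ Set.range fun r => A.g r - r)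

end Tw

section Rings

variable {R : Type} [CommRing R] [IsLocalRing R]

/-- the associated graded ring of the maximal ideal is the polynomial ring on the `s i` -/
def QR {N : ℕ} (s : Fin N → R) : Prop :=
  Ideal.span (Set.range s) = maximalIdeal R ∧ ∀ (n : ℕ) (P : MvPolynomial (Fin N) R),
    P.IsHomogeneous n → eval s P ∈ maximalIdeal R ^ (n + 1) → ∀ μ, P.coeff μ ∈ maximalIdeal R

variable (R) in
/-- a complete regular local ring of dimension six with perfect residue field of characteristic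
three -/
structure Base : Prop where
  noeth : IsNoetherianRing R
  cpl : IsAdicComplete (maximalIdeal R) R
  three : (3 : R) ∈ maximalIdeal R
  perf : ∀ r : R, ∃ s, r - s ^ 3 ∈ maximalIdeal R
  qr : ∃ s : Fin 6 → R, QR s

omit [IsLocalRing R] in
/-- the weight filtration -/
def Fil {N : ℕ} (ev : Fin (N + 1) → R) (ω : Fin (N + 1) → ℤ × ℤ) (n : ℤ) : Ideal R :=
  Ideal.span {z | ∃ μ : Fin (N + 1) →₀ ℕ, n ≤ (Finsupp.weight ω μ).1 ∧
    z = μ.prod fun i k => ev i ^ k}

/-- a unit `ev 0` of weight `0` and degree `1`, and parameters of positive weight -/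
structure Adm {N : ℕ} (ev : Fin (N + 1) → R) (ω : Fin (N + 1) → ℤ × ℤ) : Prop where
  unit : IsUnit (ev 0)
  w0 : ω 0 = (0, 1)
  pos : ∀ i : Fin N, 0 < (ω i.succ).1
  deg : ∀ i : Fin N, 0 ≤ (ω i.succ).2 ∧ (ω i.succ).2 ≤ 1
  qr : QR fun i : Fin N => ev i.succ

/-- `P` is the leading form, of weight `n` and degree `D`, of `z` -/
def LF {N : ℕ} (ev : Fin (N + 1) → R) (ω : Fin (N + 1) → ℤ × ℤ) (n D : ℤ) (z : R)
    (P : MvPolynomial (Fin (N + 1)) (ResidueField R)) : Prop :=
  ∃ Q : MvPolynomial (Fin (N + 1)) R, IsWeightedHomogeneous ω Q (n, D) ∧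
    MvPolynomial.map (residue R) Q = P ∧ z - eval ev Q ∈ Fil ev ω (n + 1)

/-- weights and degrees of `x₀, p, a₀, x₁, a₁, x₂, a₂` -/
def om : Fin 7 → ℤ × ℤ := ![(0, 1), (2, 0), (1, 1), (3, 1), (4, 1), (6, 1), (7, 1)]

omit [IsLocalRing R] in
/-- the values of `x₀, p, a₀, x₁, a₁, x₂, a₂` -/
def evx (H : Tw R) (x : Fin 3 → R) : Fin 7 → R :=
  ![x 0, 3, H.T 1 (x 0), x 1, H.T 1 (x 1), x 2, H.T 1 (x 2)]

/-- coordinates in which `H` is linear up to terms of higher weight -/
structure Par (H : Tw R) (x : Fin 3 → R) : Prop where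
  ord : H.Ord3
  res : ∀ r, H.g r - r ∈ maximalIdeal R
  unit : IsUnit (x 0)
  gen : Ideal.span {3, x 1, x 2, H.T 1 (x 0), H.T 1 (x 1), H.T 1 (x 2)} = maximalIdeal R
  tr0 : H.tr 1 (x 0) ∈ Ideal.span {x 1, x 2, H.T 1 (x 1), H.T 1 (x 2)}
  tr1 : H.tr 1 (x 1) ∈ Ideal.span {x 2, H.T 1 (x 2)}
  tr2 : H.tr 1 (x 2) = 0

omit [IsLocalRing R] in
/-- the generators of the even cohomology in degree two -/
def st (H : Tw R) (x : Fin 3 → R) : Fin 3 → R :=
  ![H.star 1 1 (x 1) (x 2), H.star 1 1 (x 0) (x 2), H.star 1 1 (x 0) (x 1)]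

omit [IsLocalRing R] in
/-- the generator of the odd cohomology in degree three -/
def top (H : Tw R) (x : Fin 3 → R) : R := x 0 * H.star 1 1 (x 1) (x 2)

omit [IsLocalRing R] in
/-- In degree `d` the even Tate cohomology is free over `R / J` (acting by norms from degree `e`) on
the `g0 i`, the odd Tate cohomology on the `g1 i`. -/
structure Coh (H : Tw R) (d : ℤ) {ι κ : Type} [Fintype ι] [Fintype κ] (e : ℤ) (g0 : ι → R) (e' : ℤ)
    (g1 : κ → R) : Prop where
  gen0 : ∀ z, H.T d z = 0 → ∃ (r : ι → R) (f : R), z = ∑ i, H.nm e (r i) * g0 i + H.tr d f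
  ind0 : ∀ (r : ι → R), (∃ f, ∑ i, H.nm e (r i) * g0 i = H.tr d f) ↔ ∀ i, r i ∈ H.J
  gen1 : ∀ z, H.tr d z = 0 → ∃ (r : κ → R) (f : R), z = ∑ i, H.nm e' (r i) * g1 i + H.T d f
  ind1 : ∀ (r : κ → R), (∃ f, ∑ i, H.nm e' (r i) * g1 i = H.T d f) ↔ ∀ i, r i ∈ H.J

omit [IsLocalRing R] in
/-- the Tate cohomology in all degrees -/
def CohAll (H : Tw R) (x : Fin 3 → R) : Prop :=
  ∀ e : ℤ, Coh H (3 * e) e (fun _ : Unit => 1) (e - 1) (fun _ : Unit => top H x) ∧
    Coh H (3 * e + 1) e (fun i : Empty => i.elim) e x ∧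
    Coh H (3 * e + 2) e (st H x) e (fun i : Empty => i.elim)

/-- the coefficient of `x ^ n` in the strict form of the series `f`, of degree `1 - n` -/
noncomputable def sc (f : InvSeries R) (n : ℕ) : R :=
  ((f.isUnit.unit⁻¹ : Rˣ) : R) * PowerSeries.coeff n f.val

/-- the series of `g ^ 3` -/
noncomputable def ser3 (γ : R ≃+* R) (f : InvSeries R) : InvSeries R :=
  InvSeries.map (γ : R →+* R) (InvSeries.map (γ : R →+* R) f) * InvSeries.map (γ : R →+* R) f * f

/-- the twisting data of an isomorphism `f : F → γ F` -/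
noncomputable def twOf (γ : R ≃+* R) (f : InvSeries R) : Tw R := ⟨γ, f.isUnit.unit⁻¹⟩

/-- A universal deformation `F` of a law of height six, with an automorphism of order nine. -/
structure LT (F : Law R) (γ : R ≃+* R) (f : InvSeries R) : Prop where
  act : f • F = F.map (γ : R →+* R)
  gen : IF 3 F.toFG 6 = maximalIdeal R
  a11 : MvPowerSeries.coeff (Finsupp.single 0 1 + Finsupp.single 1 1) F.ps = 0
  res : ∀ r, γ r - r ∈ maximalIdeal R
  strict : PowerSeries.coeff 1 f.val - 1 ∈ maximalIdeal R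
  unit : IsUnit (PowerSeries.coeff 3 f.val)
  ord : ∀ r, (γ ^ 9) r = r
  ordf : ser3 (γ.trans (γ.trans γ)) (ser3 γ f) = 1

/-- `w, (γ - 1) w, (γ - 1)² w` -/
def xw (A : Tw R) (w : R) : Fin 3 → R := ![w, A.T 1 w, A.T 1 (A.T 1 w)]

/-- The output of the block. -/
structure Out (γ : R ≃+* R) (f : InvSeries R) (w : R) : Prop where
  par : Par (twOf γ f).cube (xw (twOf γ f) w)
  tr : ∀ j, (twOf γ f).cube.tr 1 (xw (twOf γ f) w j) = 0
  coh : CohAll (twOf γ f).cube (xw (twOf γ f) w)
  /-- the ideal of the fixed points -/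
  J : (twOf γ f).cube.J = Ideal.span {3, (twOf γ f).cube.T 1 (xw (twOf γ f) w 0),
    (twOf γ f).cube.T 1 (xw (twOf γ f) w 1), (twOf γ f).cube.T 1 (xw (twOf γ f) w 2)}
  s3 : sc (ser3 γ f) 3 = (twOf γ f).tr (-2) (sc f 3)
  s3tr : (twOf γ f).cube.tr (-2) (sc (ser3 γ f) 3) = 0
  /-- `s₃` is a unit times `x₂`, `s₉` is a unit times `x₁`, up to smaller terms -/
  s3x : ∃ c, IsUnit c ∧ sc (ser3 γ f) 3 - c * xw (twOf γ f) w 2 ∈
    (twOf γ f).cube.J ⊔ maximalIdeal R ^ 2
  s39 : (twOf γ f).cube.J ⊔ Ideal.span {sc (ser3 γ f) 3, sc (ser3 γ f) 9} = maximalIdeal R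
  s27 : IsUnit (sc (ser3 γ f) 27)
  /-- the quotient group acts without cohomology on `R / J` in the degrees prime to three -/
  acyc : ∀ d : ℤ, ¬ 3 ∣ d →
    (∀ r, (twOf γ f).tr d r ∈ (twOf γ f).cube.J → ∃ q, r - (twOf γ f).T d q ∈ (twOf γ f).cube.J) ∧
    (∀ r, (twOf γ f).T d r ∈ (twOf γ f).cube.J → ∃ q, r - (twOf γ f).tr d q ∈ (twOf γ f).cube.J)

end Rings

/-- **TATE** -/
def TATE : Prop :=
  ∀ (R : Type) [CommRing R] [IsLocalRing R], Base R → ∀ (F : Law R) (γ : R ≃+* R)
    (f : InvSeries R), LT F γ f → ∃ w, Out γ f w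

/-! ### the graded model -/

/-- a ring of characteristic three with a derivation `D`, `D³ + p D = 0` -/
structure DR (A : Type) [CommRing A] where
  p : A
  D : Derivation ℤ A A
  three : (3 : A) = 0
  Dp : D p = 0
  cube : ∀ a, D (D (D a)) + p * D a = 0

/-- `D² + p` -/
def DR.N {A : Type} [CommRing A] (S : DR A) (a : A) : A := S.D (S.D a) + S.p * a

/-- `S'` is the extension of `S` to `A[x, a]` with `D x = a`, `D a = - p x` -/
structure Ext {A : Type} [CommRing A] (S : DR A) (S' : DR (MvPolynomial (Fin 2) A)) : Prop where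
  p : S'.p = C S.p
  c : ∀ a, S'.D (C a) = C (S.D a)
  x : S'.D (X 0) = X 1
  a : S'.D (X 1) = - (C S.p * X 0)

/-- polynomials in `x ^ 3` -/
noncomputable def cu {A : Type} [CommRing A] : Polynomial A →+* MvPolynomial (Fin 2) A :=
  Polynomial.eval₂RingHom C (X 0 ^ 3)

section Model

variable (k : Type) [Field k]

/-- the derivation of the graded model -/
noncomputable def dd : Derivation k (MvPolynomial (Fin 7) k) (MvPolynomial (Fin 7) k) :=
  mkDerivation k ![X 2, 0, - (X 1 * X 0), X 4, - (X 1 * X 3), X 6, - (X 1 * X 5)]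

/-- the norm operator of the graded model -/
noncomputable def nn (P : MvPolynomial (Fin 7) k) : MvPolynomial (Fin 7) k :=
  dd k (dd k P) + X 1 * P

/-- `x₀, x₁, x₂` -/
noncomputable def xx : Fin 3 → MvPolynomial (Fin 7) k := ![X 0, X 3, X 5]

/-- polynomials in `x₀, x₁, x₂` -/
noncomputable def px : MvPolynomial (Fin 3) k →ₐ[k] MvPolynomial (Fin 7) k := aeval (xx k)

/-- the leading forms of the products `st` -/
noncomputable def sg : Fin 3 → MvPolynomial (Fin 7) k :=
  ![X 4 * X 5 - X 3 * X 6, X 2 * X 5 - X 0 * X 6, X 2 * X 3 - X 0 * X 4]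

end Model

end Vale.Agent.P236Z.Tate
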