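import Vale.Agent.P236Z.Tate.Sk

/-!
# P236, block TATE: identities for twisted actions
-/

namespace Vale.Agent.P236Z.Tate

namespace Tw

variable {R : Type} [CommRing R] (A : Tw R)

theorem act_zero' (r : R) : A.act 0 r = A.g r := by simp [act]

theorem act_one' (r : R) : A.act 1 r = A.g r * A.t := by simp [act]

@[simp] theorem act_zero (d : ℤ) : A.act d 0 = 0 := by simp [act]

theorem act_add (d : ℤ) (a b : R) : A.act d (a + b) = A.act d a + A.act d b := by
  simp [act, add_mul]

theorem act_neg (d : ℤ) (a : R) : A.act d (-a) = -A.act d a := by simp [act]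

theorem act_sub (d : ℤ) (a b : R) : A.act d (a - b) = A.act d a - A.act d b := by
  simp [act, sub_mul]

theorem act_sum {ι : Type*} (d : ℤ) (s : Finset ι) (a : ι → R) :
    A.act d (∑ i ∈ s, a i) = ∑ i ∈ s, A.act d (a i) := by
  simp [act, Finset.sum_mul]

theorem act_mul (d e : ℤ) (a b : R) : A.act (d + e) (a * b) = A.act d a * A.act e b := by
  simp only [act, map_mul, zpow_add, Units.val_mul]; ring

theorem act_mul' {d e n : ℤ} (h : n = d + e) (a b : R) :
    A.act n (a * b) = A.act d a * A.act e b := h ▸ A.act_mul d e a b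

theorem act_natCast_mul (d : ℤ) (n : ℕ) (a : R) : A.act d (n * a) = n * A.act d a := by
  simp [act, mul_assoc]

theorem act_intCast_mul (d : ℤ) (n : ℤ) (a : R) : A.act d (n * a) = n * A.act d a := by
  simp [act, mul_assoc]

theorem act_ofNat_mul (d : ℤ) (n : ℕ) [n.AtLeastTwo] (a : R) :
    A.act d (OfNat.ofNat n * a) = OfNat.ofNat n * A.act d a := by
  simp only [act, map_mul, map_ofNat, mul_assoc]

theorem act_two_mul (d : ℤ) (a : R) : A.act d (2 * a) = 2 * A.act d a := A.act_ofNat_mul d 2 a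

theorem act_three_mul (d : ℤ) (a : R) : A.act d (3 * a) = 3 * A.act d a := A.act_ofNat_mul d 3 a

theorem act_pow (d : ℤ) (a : R) (n : ℕ) : A.act (n * d) (a ^ n) = A.act d a ^ n := by
  induction n with
  | zero => simp [act]
  | succ n ih => rw [pow_succ, pow_succ, ← ih, ← act_mul]; congr 1; push_cast; ring

theorem act_deg (d e : ℤ) (a : R) : A.act (d + e) a = A.act d a * ((A.t ^ e : Rˣ) : R) := by
  simp only [act, zpow_add, Units.val_mul]; ring

theorem isUnit_act (d : ℤ) {a : R} (h : IsUnit a) : IsUnit (A.act d a) :=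
  (h.map A.g).mul (Units.isUnit _)

theorem act_eq (d : ℤ) (a : R) : A.act d a = a + A.T d a := by simp [T]

theorem cube_g (r : R) : A.cube.g r = A.g (A.g (A.g r)) := rfl

theorem cube_act (d : ℤ) (r : R) : A.cube.act d r = A.act d (A.act d (A.act d r)) := by
  have h : ∀ u : Rˣ, A.g ((u ^ d : Rˣ) : R) = ((Units.map (A.g : R →* R) u ^ d : Rˣ) : R) :=
    fun u => by rw [← map_zpow]; rfl
  simp only [act, cube_g, map_mul, h]
  simp only [cube, mul_zpow, Units.val_mul]
  ring

@[simp] theorem T_zero (d : ℤ) : A.T d 0 = 0 := by simp [T]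

theorem T_add (d : ℤ) (a b : R) : A.T d (a + b) = A.T d a + A.T d b := by
  simp only [T, act_add]; ring

theorem T_neg (d : ℤ) (a : R) : A.T d (-a) = -A.T d a := by simp only [T, act_neg]; ring

theorem T_sub (d : ℤ) (a b : R) : A.T d (a - b) = A.T d a - A.T d b := by
  simp only [T, act_sub]; ring

theorem T_sum {ι : Type*} (d : ℤ) (s : Finset ι) (a : ι → R) :
    A.T d (∑ i ∈ s, a i) = ∑ i ∈ s, A.T d (a i) := by
  simp [T, act_sum, Finset.sum_sub_distrib]

theorem T_three_mul (d : ℤ) (a : R) : A.T d (3 * a) = 3 * A.T d a := by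
  simp only [T, act_three_mul]; ring

theorem T_mul (d e : ℤ) (a b : R) :
    A.T (d + e) (a * b) = A.T d a * A.act e b + a * A.T e b := by
  simp only [T, act_mul]; ring

theorem T_eq_zero {d : ℤ} {a : R} : A.T d a = 0 ↔ A.act d a = a := sub_eq_zero

theorem T_mul_inv (d e : ℤ) (a : R) {b : R} (hb : A.T e b = 0) :
    A.T (d + e) (a * b) = A.T d a * b := by
  rw [T_mul, hb, A.T_eq_zero.1 hb, mul_zero, add_zero]

theorem act_T (d : ℤ) (a : R) : A.act d (A.T d a) = A.T d (A.act d a) := by
  simp only [T, act_sub]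

@[simp] theorem tr_zero (d : ℤ) : A.tr d 0 = 0 := by simp [tr]

theorem tr_add (d : ℤ) (a b : R) : A.tr d (a + b) = A.tr d a + A.tr d b := by
  simp only [tr, act_add]; ring

theorem tr_neg (d : ℤ) (a : R) : A.tr d (-a) = -A.tr d a := by simp only [tr, act_neg]; ring

theorem tr_sub (d : ℤ) (a b : R) : A.tr d (a - b) = A.tr d a - A.tr d b := by
  simp only [tr, act_sub]; ring

theorem tr_sum {ι : Type*} (d : ℤ) (s : Finset ι) (a : ι → R) :
    A.tr d (∑ i ∈ s, a i) = ∑ i ∈ s, A.tr d (a i) := by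
  simp [tr, act_sum, Finset.sum_add_distrib]

theorem tr_eq (d : ℤ) (a : R) : A.tr d a = A.T d (A.T d a) + 3 * A.act d a := by
  simp only [tr, T, act_sub]; ring

theorem tr_mul_inv (d e : ℤ) (a : R) {b : R} (hb : A.T e b = 0) :
    A.tr (d + e) (a * b) = A.tr d a * b := by
  simp only [tr, act_mul, A.T_eq_zero.1 hb]; ring

theorem inv_mul_tr (d e : ℤ) {a : R} (ha : A.T d a = 0) (b : R) :
    A.tr (d + e) (a * b) = a * A.tr e b := by
  simp only [tr, act_mul, A.T_eq_zero.1 ha]; ring

theorem tr_of_inv {d : ℤ} {a : R} (ha : A.T d a = 0) : A.tr d a = 3 * a := by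
  simp only [tr, A.T_eq_zero.1 ha]; ring

theorem cube_T (d : ℤ) (a : R) :
    A.cube.T d a = A.T d (A.T d (A.T d a)) + 3 * A.act d (A.T d a) := by
  rw [← tr_eq]
  simp only [T, tr, cube_act, act_sub]; ring

theorem cube_T' (d : ℤ) (a : R) : A.cube.T d a = A.tr d (A.T d a) := by
  rw [cube_T, tr_eq]

/-- `A` commutes with its third power -/
theorem cube_act_act (d : ℤ) (a : R) : A.cube.act d (A.act d a) = A.act d (A.cube.act d a) := by
  simp only [cube_act]

theorem cube_tr_act (d : ℤ) (a : R) : A.cube.tr d (A.act d a) = A.act d (A.cube.tr d a) := by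
  simp only [tr, cube_act, act_add]

theorem cube_T_act (d : ℤ) (a : R) : A.cube.T d (A.act d a) = A.act d (A.cube.T d a) := by
  simp only [T, cube_act, act_sub]

theorem cube_tr_T (d : ℤ) (a : R) : A.cube.tr d (A.T d a) = A.T d (A.cube.tr d a) := by
  rw [T, tr_sub, cube_tr_act, T]

theorem act_mul3 (d : ℤ) (a b c : R) :
    A.act (3 * d) (a * b * c) = A.act d a * A.act d b * A.act d c := by
  rw [show 3 * d = d + d + d by ring, act_mul, act_mul]

theorem cube_nm_act (d : ℤ) (a : R) :
    A.cube.nm d (A.act d a) = A.act (3 * d) (A.cube.nm d a) := by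
  simp only [nm, act_mul3, cube_act]

theorem cube_star_act (d e : ℤ) (x y : R) :
    A.cube.star d e (A.act d x) (A.act e y) = A.act (d + e) (A.cube.star d e x y) := by
  simp only [star, act_sub, act_mul, cube_act]

@[simp] theorem nm_zero (d : ℤ) : A.nm d 0 = 0 := by simp [nm]

theorem nm_mul (d e : ℤ) (a b : R) : A.nm (d + e) (a * b) = A.nm d a * A.nm e b := by
  simp only [nm, act_mul]; ring

theorem nm_neg (d : ℤ) (a : R) : A.nm d (-a) = -A.nm d a := by
  simp only [nm, act_neg]; ring

theorem nm_zero_one : A.nm 0 1 = 1 := by simp [nm, act]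

theorem nm_pow (d : ℤ) (a : R) (n : ℕ) : A.nm (n * d) (a ^ n) = A.nm d a ^ n := by
  simp only [nm, act_pow, mul_pow]

theorem isUnit_nm (d : ℤ) {a : R} (h : IsUnit a) : IsUnit (A.nm d a) :=
  (h.mul (A.isUnit_act d h)).mul (A.isUnit_act d (A.isUnit_act d h))

theorem three_mem_J : (3 : R) ∈ A.J := Ideal.subset_span (Or.inl (Or.inl rfl))

theorem t_mem_J : (A.t : R) - 1 ∈ A.J := Ideal.subset_span (Or.inl (Or.inr rfl))

theorem g_mem_J (r : R) : A.g r - r ∈ A.J := Ideal.subset_span (Or.inr ⟨r, rfl⟩)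

theorem zpow_sub_one_mem {I : Ideal R} {u : Rˣ} (h : (u : R) - 1 ∈ I) (d : ℤ) :
    ((u ^ d : Rˣ) : R) - 1 ∈ I := by
  rw [← Ideal.Quotient.eq, map_one] at h ⊢
  have h1 : Units.map (Ideal.Quotient.mk I : R →* R ⧸ I) u = 1 := Units.ext h
  have h2 := congrArg Units.val (map_zpow (Units.map (Ideal.Quotient.mk I : R →* R ⧸ I)) u d)
  rw [h1, one_zpow] at h2
  exact h2

theorem T_mem_J (d : ℤ) (r : R) : A.T d r ∈ A.J := by
  have h : A.T d r = A.g r * (((A.t ^ d : Rˣ) : R) - 1) + (A.g r - r) := by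
    simp only [T, act]; ring
  rw [h]
  exact add_mem (Ideal.mul_mem_left _ _ (zpow_sub_one_mem A.t_mem_J d)) (A.g_mem_J r)

theorem tr_mem_J (d : ℤ) (r : R) : A.tr d r ∈ A.J := by
  rw [tr_eq]
  exact add_mem (A.T_mem_J d _) (Ideal.mul_mem_right _ _ A.three_mem_J)

/-- the cross term of the norm -/
def cross (d : ℤ) (a b : R) : R :=
  a * A.act d a * A.act d (A.act d b) + a * A.act d b * A.act d (A.act d b)

section Ord

variable {A} (h : A.Ord3)
include h

theorem Ord3.T_tr (d : ℤ) (a : R) : A.T d (A.tr d a) = 0 := by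
  simp only [T, tr, act_add, h d]; ring

theorem Ord3.tr_T (d : ℤ) (a : R) : A.tr d (A.T d a) = 0 := by
  simp only [T, tr, act_sub, h d]; ring

theorem Ord3.tr_act (d : ℤ) (a : R) : A.tr d (A.act d a) = A.tr d a := by
  simp only [tr, h d]; ring

theorem Ord3.T_nm (d : ℤ) (a : R) : A.T (3 * d) (A.nm d a) = 0 := by
  simp only [T, nm, act_mul3, h d]; ring

theorem Ord3.nm_act (d : ℤ) (a : R) : A.nm d (A.act d a) = A.nm d a := by
  simp only [nm, h d]; ring

theorem Ord3.nm_add (d : ℤ) (a b : R) :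
    A.nm d (a + b) = A.nm d a + A.nm d b + A.tr (3 * d) (A.cross d a b) := by
  simp only [nm, tr, cross, act_add, act_mul3, h d]; ring

theorem Ord3.nm_T (d : ℤ) (a : R) :
    A.nm d (A.T d a) = A.tr (3 * d) (A.cross d (A.act d a) (-a)) := by
  rw [T, sub_eq_add_neg, h.nm_add, nm_neg, h.nm_act]; ring

/-- a trace times an element of trace zero -/
theorem Ord3.tr_mul_of_tr (d e : ℤ) (c : R) {x : R} (hx : A.tr e x = 0) :
    A.tr d c * x = A.T (d + e) (c * A.act e (A.act e x) + c * A.act e x +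
      A.act d c * A.act e (A.act e x)) := by
  have h1 : A.act e (A.act e x) = -x - A.act e x := by
    rw [tr] at hx; linear_combination hx
  simp only [T, tr, act_add, act_mul, h e]
  rw [h1]; ring

omit h in
theorem three_mul_of_tr {e : ℤ} {x : R} (hx : A.tr e x = 0) :
    3 * x = A.T e (-(2 * x) - A.act e x) := by
  rw [tr] at hx
  simp only [T, act_sub, act_neg, act_two_mul]
  linear_combination hx

theorem Ord3.nm_mem_J (e : ℤ) {j : R} (hj : j ∈ A.J) : ∃ f, A.nm e j = A.tr (3 * e) f := by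
  have key : ∀ (d : ℤ) (c r : R), ∃ f, A.nm e (c * A.T d r) = A.tr (3 * e) f := fun d c r => by
    refine ⟨A.nm (e - d) c * A.cross d (A.act d r) (-r), ?_⟩
    rw [show 3 * e = 3 * (e - d) + 3 * d by ring, A.inv_mul_tr _ _ (h.T_nm _ _), ← h.nm_T,
      ← nm_mul, sub_add_cancel]
  have main : ∀ c, ∃ f, A.nm e (c * j) = A.tr (3 * e) f := by
    refine Submodule.span_induction (p := fun j _ => ∀ c, ∃ f, A.nm e (c * j) = A.tr (3 * e) f)
      ?_ ?_ ?_ ?_ hj
    · rintro x ((rfl | rfl) | ⟨r, rfl⟩) c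
      · refine ⟨9 * A.nm e c, ?_⟩
        have h1 : A.T (3 * e) (9 * A.nm e c) = 0 := by
          rw [T, act_ofNat_mul, A.T_eq_zero.1 (h.T_nm e c), sub_self]
        rw [A.tr_of_inv h1, mul_comm c]
        simp only [nm, act_three_mul]; ring
      · have := key 1 c 1
        rwa [T, act_one', map_one, one_mul] at this
      · have := key 0 c r
        rwa [T, act_zero'] at this
    · intro c; exact ⟨0, by simp⟩
    · intro x y _ _ hx hy c
      obtain ⟨f, hf⟩ := hx c
      obtain ⟨g, hg⟩ := hy c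
      exact ⟨f + g + A.cross e (c * x) (c * y), by
        rw [mul_add, h.nm_add, hf, hg, tr_add, tr_add]⟩
    · intro a x _ hx c
      rw [smul_eq_mul, ← mul_assoc]
      exact hx _
  simpa using main 1

theorem Ord3.T_star (d e : ℤ) {x y : R} (hx : A.tr d x = 0) (hy : A.tr e y = 0) :
    A.T (d + e) (A.star d e x y) = 0 := by
  have h1 : A.act d (A.act d x) = -x - A.act d x := by
    rw [tr] at hx; linear_combination hx
  have h2 : A.act e (A.act e y) = -y - A.act e y := by
    rw [tr] at hy; linear_combination hy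
  simp only [T, star, act_sub, act_mul, h e]
  rw [h1, h2]; ring

theorem Ord3.star_self (d : ℤ) {x : R} (hx : A.tr d x = 0) :
    A.star d d x x = A.tr (d + d) (x * A.act d x) := by
  have h1 : A.act d (A.act d x) = -x - A.act d x := by
    rw [tr] at hx; linear_combination hx
  simp only [tr, star, act_mul, h d]
  rw [h1]; ring

theorem Ord3.star_comm (d e : ℤ) {x y : R} (hx : A.tr d x = 0) (hy : A.tr e y = 0) :
    A.star d e x y + A.star e d y x = A.tr (d + e) (x * A.act e y + A.act d x * y) := by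
  have h1 : A.act d (A.act d x) = -x - A.act d x := by
    rw [tr] at hx; linear_combination hx
  have h2 : A.act e (A.act e y) = -y - A.act e y := by
    rw [tr] at hy; linear_combination hy
  simp only [tr, star, act_add, act_mul, h d, h e]
  rw [h1, h2]; ring

end Ord

theorem star_add_left (d e : ℤ) (x x' y : R) :
    A.star d e (x + x') y = A.star d e x y + A.star d e x' y := by
  simp only [star, act_add]; ring

theorem star_add_right (d e : ℤ) (x y y' : R) :
    A.star d e x (y + y') = A.star d e x y + A.star d e x y' := by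
  simp only [star, act_add]; ring

theorem star_mul_inv (c d e : ℤ) {a : R} (ha : A.T c a = 0) (x y : R) :
    A.star (c + d) e (a * x) y = a * A.star d e x y := by
  simp only [star, act_mul, A.T_eq_zero.1 ha]; ring

theorem star_inv_mul (c d e : ℤ) {a : R} (ha : A.T c a = 0) (x y : R) :
    A.star d (c + e) x (a * y) = a * A.star d e x y := by
  simp only [star, act_mul, A.T_eq_zero.1 ha]; ring

end Tw

end Vale.Agent.P236Z.Tate
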