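import Vale.Agent.P236Z.Tate.Sk2
import Vale.Agent.P236Z.Tate.Alg

/-!
# P236, block TATE: the assembly of the rows
-/

namespace Vale.Agent.P236Z.Tate

open Vale.Agent.P251.F Vale.Agent.P217 IsLocalRing MvPolynomial

/-- the rows -/
structure In : Prop where
  lfb : LFB
  lft : LFT
  grh : GRH
  sg : SG
  si : SI
  apx : APX
  jeq : JEQ
  nf : NF
  trs : TRS
  ht : HT
  fix : FIX
  lin : LIN2
  qac : QAC

namespace Al

variable {R : Type} [CommRing R] [IsLocalRing R]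

theorem charP (hB : Base R) : CharP (ResidueField R) 3 := by
  have : Fact (Nat.Prime 3) := ⟨by norm_num⟩
  refine (CharP.charP_iff_prime_eq_zero (by norm_num)).2 ?_
  have := (residue_eq_zero_iff (3 : R)).2 hB.three
  rwa [map_ofNat] at this

theorem perfect (hB : Base R) [CharP (ResidueField R) 3] : PerfectRing (ResidueField R) 3 := by
  have : Fact (Nat.Prime 3) := ⟨by norm_num⟩
  refine PerfectRing.ofSurjective _ 3 fun a => ?_
  obtain ⟨r, rfl⟩ := residue_surjective a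
  obtain ⟨s, hs⟩ := hB.perf r
  refine ⟨residue R s, ?_⟩
  have := (residue_eq_zero_iff _).2 hs
  rw [map_sub, map_pow, sub_eq_zero] at this
  rw [frobenius_def, this]

theorem five {F : Law R} (h : IF 3 F.toFG 6 = maximalIdeal R) :
    ∃ u : Fin 5 → R, Ideal.span {3} ⊔ Ideal.span (Set.range u) = maximalIdeal R := by
  refine ⟨fun i => vF 3 F.toFG (i + 1), le_antisymm (sup_le ?_ ?_) ?_⟩
  · rw [← h, Ideal.span_singleton_le_iff_mem]
    have := vF_mem 3 F.toFG (i := 0) (h := 6) (by norm_num)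
    rwa [vF_zero, Nat.cast_ofNat] at this
  · rw [← h, Ideal.span_le]
    rintro _ ⟨i, rfl⟩
    exact vF_mem 3 F.toFG (by omega)
  · rw [← h, IF_le_iff]
    intro i hi
    rcases i with _ | i
    · rw [vF_zero, Nat.cast_ofNat]
      exact Ideal.mem_sup_left (Ideal.mem_span_singleton_self _)
    · exact Ideal.mem_sup_right (Ideal.subset_span ⟨⟨i, by omega⟩, rfl⟩)

section LFs

variable {H : Tw R} {x : Fin 3 → R} (L : LFApi (evx H x) om)
include L

theorem three_mem : (3 : R) ∈ Fil (evx H x) om 2 := L.mem _ _ _ _ (L.var 1)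

theorem lf_star {n m : ℤ} {y z : R} {P P' Q Q' : MvPolynomial (Fin 7) (ResidueField R)}
    (hy : LF (evx H x) om n 1 y P) (hy' : LF (evx H x) om (n + 1) 1 (H.T 1 y) P')
    (hz : LF (evx H x) om m 1 z Q) (hz' : LF (evx H x) om (m + 1) 1 (H.T 1 z) Q')
    (h : H.tr 1 z = 0) :
    LF (evx H x) om (n + m + 1) 2 (H.star 1 1 y z) (P' * Q - P * Q') := by
  have h1 := L.lmul _ _ _ _ _ _ _ _ hy' hz
  have h2 := L.neg _ _ _ _ (L.lmul _ _ _ _ _ _ _ _ hy hz')
  rw [show n + 1 + m = n + m + 1 by ring] at h1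
  rw [show n + (m + 1) = n + m + 1 by ring] at h2
  have h3 := L.add _ _ _ _ _ _ h1 h2
  rw [← sub_eq_add_neg, ← sub_eq_add_neg, one_add_one_eq_two] at h3
  refine L.congr _ _ _ _ _ h3 ?_
  have e1 : H.act 1 (H.act 1 z) = -z - H.act 1 z := by
    rw [Tw.tr] at h; linear_combination h
  have e : H.T 1 y * z - y * H.T 1 z - H.star 1 1 y z =
      3 * (y * z) + 3 * (H.T 1 y * z) + H.T 1 y * H.T 1 z := by
    simp only [Tw.star, Tw.T, e1]; ring
  rw [e]
  have m1 := L.mem _ _ _ _ hy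
  have m2 := L.mem _ _ _ _ hy'
  have m3 := L.mem _ _ _ _ hz
  have m4 := L.mem _ _ _ _ hz'
  refine add_mem (add_mem ?_ ?_) ?_
  · exact L.mono _ _ (by omega) (L.mul _ _ (Ideal.mul_mem_mul (three_mem L)
      (L.mul _ _ (Ideal.mul_mem_mul m1 m3))))
  · exact L.mono _ _ (by omega) (L.mul _ _ (Ideal.mul_mem_mul (three_mem L)
      (L.mul _ _ (Ideal.mul_mem_mul m2 m3))))
  · exact L.mono _ _ (by omega) (L.mul _ _ (Ideal.mul_mem_mul m2 m4))

theorem lf_x (i : Fin 3) : LF (evx H x) om ((![0, 3, 6] : Fin 3 → ℤ) i) 1 (x i)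
    (xx (ResidueField R) i) := by
  fin_cases i
  · exact L.var 0
  · exact L.var 3
  · exact L.var 5

theorem lf_st (h : ∀ j, H.tr 1 (x j) = 0) (i : Fin 3) :
    LF (evx H x) om ((![10, 7, 4] : Fin 3 → ℤ) i) 2 (st H x i) (sg (ResidueField R) i) := by
  fin_cases i
  · exact lf_star L (L.var 3) (L.var 4) (L.var 5) (L.var 6) (h 2)
  · exact lf_star L (L.var 0) (L.var 2) (L.var 5) (L.var 6) (h 2)
  · exact lf_star L (L.var 0) (L.var 2) (L.var 3) (L.var 4) (h 1)

theorem lf_top (h : ∀ j, H.tr 1 (x j) = 0) :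
    LF (evx H x) om 10 3 (top H x) (X 0 * sg (ResidueField R) 0) :=
  L.lmul _ _ _ _ _ _ _ _ (L.var 0) (lf_st L h 0)

theorem lf_one : LF (evx H x) om 0 0 1 1 := by
  simpa using L.const 1

end LFs

variable (I : In) (hB : Base R)
include I hB

theorem step1 {H : Tw R} {x : Fin 3 → R} (hP : Par H x) (e : ℤ) :
    StepG H (Fil (evx H x) om) (3 * e + 1) e (fun i : Empty => i.elim) e x := by
  have := charP hB
  have := perfect hB
  have hA := I.lft R hB H x hP
  have L := I.lfb R _ _ _ hA.adm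
  have := I.sg R H x hP L hA Empty (Fin 3) 1 0 0 (fun i => i.elim) x (fun i => i.elim)
    (xx _) (fun _ => 0) ![0, 3, 6] (fun i => i.elim)
    (fun i => ⟨by fin_cases i <;> simp, lf_x L i⟩)
    (fun e => by simpa only [add_zero] using (I.grh (ResidueField R) e).2.1) e
  simpa only [add_zero] using this

theorem exw {H : Tw R} {x : Fin 3 → R} (hP : Par H x) : ∃ w, IsUnit w ∧ H.tr 1 w = 0 := by
  have hA := I.lft R hB H x hP
  have L := I.lfb R _ _ _ hA.adm
  have hz : H.tr 1 (x 0) ∈ Fil (evx H x) om 3 := by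
    refine (Ideal.span_le.2 ?_) hP.tr0
    rintro _ (rfl | rfl | rfl | rfl)
    · exact L.mem _ _ _ _ (L.var 3)
    · exact L.mono 3 6 (by norm_num) (L.mem _ _ _ _ (L.var 5))
    · exact L.mono 3 4 (by norm_num) (L.mem _ _ _ _ (L.var 4))
    · exact L.mono 3 7 (by norm_num) (L.mem _ _ _ _ (L.var 6))
  obtain ⟨f, hf, e⟩ := (I.apx R hB.cpl H _ hP.ord hA.flt 1).1 (Fin 3) 0 0 x (step1 I hB hP 0) 3 _ hz
    (hP.ord.T_tr _ _)
  refine ⟨x 0 - f, ?_, by rw [H.tr_sub, e, sub_self]⟩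
  have hf' : f ∈ maximalIdeal R := by rw [← L.one]; exact hf
  by_contra hn
  have : x 0 - f ∈ maximalIdeal R := hn
  exact (by simpa using add_mem this hf' : x 0 ∈ maximalIdeal R) hP.unit

theorem cohAll {H : Tw R} {x : Fin 3 → R} (hP : Par H x) (h : ∀ j, H.tr 1 (x j) = 0) :
    CohAll H x := by
  have := charP hB
  have := perfect hB
  have hA := I.lft R hB H x hP
  have L := I.lfb R _ _ _ hA.adm
  have hJ := I.jeq R hB H x hP h
  have hst : ∀ i, H.T 2 (st H x i) = 0 := fun i => by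
    fin_cases i
    · exact hP.ord.T_star 1 1 (h 1) (h 2)
    · exact hP.ord.T_star 1 1 (h 0) (h 2)
    · exact hP.ord.T_star 1 1 (h 0) (h 1)
  intro e
  refine ⟨?_, ?_, ?_⟩
  · have G : ∀ e : ℤ, GCoh (ResidueField R) (3 * e + 0) (e + 0) (fun _ : Unit => 1) (fun _ => 0)
        (e + -1) (fun _ : Unit => X 0 * sg (ResidueField R) 0) (fun _ => 10) := fun e => by
      simpa only [add_zero, sub_eq_add_neg] using (I.grh (ResidueField R) e).1
    have ht : LF (evx H x) om 10 (0 - 3 * -1) (top H x) (X 0 * sg (ResidueField R) 0) := lf_top L h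
    have h1 := I.sg R H x hP L hA Unit Unit 0 0 (-1) (fun _ => 1) (fun _ => top H x) _ _ _ _
      (fun _ => ⟨by norm_num, lf_one L⟩) (fun _ => ⟨le_rfl, ht⟩) G e
    have h2 := I.si R hB.noeth H x hP hJ L hA Unit Unit 0 0 (-1) (fun _ => 1) (fun _ => top H x)
      _ _ _ _ (fun _ => lf_one L) (fun _ => ht) G e
    simp only [add_zero, ← sub_eq_add_neg] at h1 h2
    refine (I.apx R hB.cpl H _ hP.ord hA.flt _).2 _ _ _ _ _ _ (fun _ => ?_) (fun _ => ?_) h1 h2
    · rw [sub_self]; simp [Tw.T, Tw.act]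
    · rw [show 3 * e - 3 * (e - 1) = 1 + 2 by ring, top]
      have := H.tr_mul_inv 1 2 (x 0) (hst 0)
      rw [h 0, zero_mul] at this
      exact this
  · have G : ∀ e : ℤ, GCoh (ResidueField R) (3 * e + 1) (e + 0) (fun i : Empty => i.elim)
        (fun _ => 0) (e + 0) (xx _) ![0, 3, 6] := fun e => by
      simpa only [add_zero] using (I.grh (ResidueField R) e).2.1
    have h2 := I.si R hB.noeth H x hP hJ L hA Empty (Fin 3) 1 0 0 (fun i => i.elim) x
      _ _ _ _ (fun i => i.elim) (fun i => lf_x L i) G e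
    simp only [add_zero] at h2
    refine (I.apx R hB.cpl H _ hP.ord hA.flt _).2 _ _ _ _ _ _ (fun i => i.elim) (fun i => ?_)
      (step1 I hB hP e) h2
    rw [add_sub_cancel_left]; exact h i
  · have G : ∀ e : ℤ, GCoh (ResidueField R) (3 * e + 2) (e + 0) (sg _) ![10, 7, 4] (e + 0)
        (fun i : Empty => i.elim) (fun _ => 0) := fun e => by
      simpa only [add_zero] using (I.grh (ResidueField R) e).2.2
    have h1 := I.sg R H x hP L hA (Fin 3) Empty 2 0 0 (st H x) (fun i => i.elim) _ _ _ _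
      (fun i => ⟨by fin_cases i <;> simp, lf_st L h i⟩) (fun i => i.elim) G e
    have h2 := I.si R hB.noeth H x hP hJ L hA (Fin 3) Empty 2 0 0 (st H x) (fun i => i.elim)
      _ _ _ _ (fun i => lf_st L h i) (fun i => i.elim) G e
    simp only [add_zero] at h1 h2
    refine (I.apx R hB.cpl H _ hP.ord hA.flt _).2 _ _ _ _ _ _ (fun i => ?_) (fun i => i.elim) h1 h2
    rw [add_sub_cancel_left]; exact hst i

omit I hB [IsLocalRing R] in
theorem isUnit_sc {f : InvSeries R} {n : ℕ} (h : IsUnit (PowerSeries.coeff n f.val)) :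
    IsUnit (sc f n) := (Units.isUnit _).mul h

omit I hB in
theorem cube_res {A : Tw R} (h : ∀ r, A.g r - r ∈ maximalIdeal R) (r : R) :
    A.cube.g r - r ∈ maximalIdeal R := by
  have := add_mem (add_mem (h (A.g (A.g r))) (h (A.g r))) (h r)
  rw [Tw.cube_g]
  simpa using this

theorem par1 {F : Law R} {γ : R ≃+* R} {f : InvSeries R} (h : LT F γ f) (hN : Nrm F) :
    ∃ x, Par (twOf γ f).cube x := by
  obtain ⟨ho, h3, t3, ht⟩ := I.trs R hB.three F γ f h
  obtain ⟨t9, t27⟩ := ht hN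
  obtain ⟨m3, m9, u27⟩ := I.ht R F γ f h
  obtain ⟨hJ, hJ'⟩ := I.fix R hB.noeth F γ f h m3 m9 u27
  set H := (twOf γ f).cube with hH
  set s3 := sc (ser3 γ f) 3
  set s9 := sc (ser3 γ f) 9
  set s27 := sc (ser3 γ f) 27
  have hu : ∀ d, IsUnit (H.nm d 1) := fun d => H.isUnit_nm d isUnit_one
  have a1 : H.act (-8) s9 * H.nm 3 1 = s9 * H.nm 3 1 + H.T 1 (s9 * H.nm 3 1) := by
    rw [← H.act_eq, H.act_mul' (show (1 : ℤ) = -8 + 3 * 3 by norm_num),
      H.T_eq_zero.1 (ho.T_nm 3 1)]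
  have a2 : H.act (-2) s3 * H.nm 1 1 = s3 * H.nm 1 1 + H.T 1 (s3 * H.nm 1 1) := by
    rw [← H.act_eq, H.act_mul' (show (1 : ℤ) = -2 + 3 * 1 by norm_num),
      H.T_eq_zero.1 (ho.T_nm 1 1)]
  have key : ∀ {K : Ideal R} {a : R} (d : ℤ), a * H.nm d 1 ∈ K → a ∈ K := fun d hK =>
    (Ideal.mul_unit_mem_iff_mem _ (hu d)).1 hK
  refine ⟨![s27 * H.nm 9 1, s9 * H.nm 3 1, s3 * H.nm 1 1], ho, cube_res h.res,
    u27.mul (hu 9), ?_, ?_, ?_, ?_⟩
  · have := ((I.lin R hB (five h.gen) (twOf γ f) ho hJ).2 (sc f 3) s9 (isUnit_sc h.unit)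
      (by rw [← h3]; exact hJ')).1 _ _ _ (u27.mul (hu 9)) (hu 3) (hu 1)
    rw [← h3] at this
    exact this
  · change H.tr 1 (s27 * H.nm 9 1) ∈ Ideal.span {s9 * H.nm 3 1, s3 * H.nm 1 1,
      H.T 1 (s9 * H.nm 3 1), H.T 1 (s3 * H.nm 1 1)}
    have := H.tr_mul_inv (-26) (3 * 9) s27 (ho.T_nm 9 1)
    rw [show (-26 : ℤ) + 3 * 9 = 1 by norm_num] at this
    rw [this]
    refine Ideal.mul_mem_right _ _ ((Ideal.span_le.2 ?_) t27)
    rintro _ (rfl | rfl | rfl | rfl)
    · exact key 1 (Ideal.subset_span (by simp))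
    · refine key 1 ?_
      rw [a2]
      exact add_mem (Ideal.subset_span (by simp)) (Ideal.subset_span (by simp))
    · exact key 3 (Ideal.subset_span (by simp))
    · refine key 3 ?_
      rw [a1]
      exact add_mem (Ideal.subset_span (by simp)) (Ideal.subset_span (by simp))
  · change H.tr 1 (s9 * H.nm 3 1) ∈ Ideal.span {s3 * H.nm 1 1, H.T 1 (s3 * H.nm 1 1)}
    have := H.tr_mul_inv (-8) (3 * 3) s9 (ho.T_nm 3 1)
    rw [show (-8 : ℤ) + 3 * 3 = 1 by norm_num] at this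
    rw [this]
    refine Ideal.mul_mem_right _ _ ((Ideal.span_le.2 ?_) t9)
    rintro _ (rfl | rfl)
    · exact key 1 (Ideal.subset_span (by simp))
    · refine key 1 ?_
      rw [a2]
      exact add_mem (Ideal.subset_span (by simp)) (Ideal.subset_span (by simp))
  · change H.tr 1 (s3 * H.nm 1 1) = 0
    have := H.tr_mul_inv (-2) (3 * 1) s3 (ho.T_nm 1 1)
    rw [show (-2 : ℤ) + 3 * 1 = 1 by norm_num] at this
    rw [this, t3, zero_mul]

end Al

open Al in
theorem tate_of (I : In) : TATE := by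
  intro R _ _ hB F γ f h
  obtain ⟨F', f', h', hN, e⟩ := I.nf R hB.three F γ f h
  obtain ⟨x, hx⟩ := par1 I hB h' hN
  rw [e] at hx
  obtain ⟨w, hw, htr⟩ := exw I hB hx
  obtain ⟨ho, h3, t3, -⟩ := I.trs R hB.three F γ f h
  obtain ⟨m3, m9, u27⟩ := I.ht R F γ f h
  obtain ⟨hJ, hJ'⟩ := I.fix R hB.noeth F γ f h m3 m9 u27
  have hl := I.lin R hB (five h.gen) (twOf γ f) ho hJ
  have ht : ∀ j, (twOf γ f).cube.tr 1 (xw (twOf γ f) w j) = 0 := fun j => by
    fin_cases j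
    · exact htr
    · change (twOf γ f).cube.tr 1 ((twOf γ f).T 1 w) = 0
      rw [Tw.cube_tr_T, htr, Tw.T_zero]
    · change (twOf γ f).cube.tr 1 ((twOf γ f).T 1 ((twOf γ f).T 1 w)) = 0
      rw [Tw.cube_tr_T, Tw.cube_tr_T, htr, Tw.T_zero, Tw.T_zero]
  have hP : Par (twOf γ f).cube (xw (twOf γ f) w) :=
    ⟨ho, hx.res, hw, hl.1 w hw, by rw [ht 0]; exact zero_mem _, by rw [ht 1]; exact zero_mem _,
      ht 2⟩
  have hE := I.jeq R hB _ _ hP ht
  refine ⟨w, hP, ht, cohAll I hB hP ht, hE, h3, t3, ?_, hJ', u27, I.qac R hB _ w h.res hP hE⟩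
  rw [h3]
  exact (hl.2 (sc f 3) _ (isUnit_sc h.unit) (by rw [← h3]; exact hJ')).2 w hw

end Vale.Agent.P236Z.Tate
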