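import Vale.Agent.P236Z.Tate.Alg

/-!
# P236, block TATE: successive approximation
-/

set_option linter.all false

namespace Vale.Agent.P236Z.Tate

open IsLocalRing Filter

namespace Apx

variable {R : Type} [CommRing R] [IsLocalRing R] {H : Tw R} {Fl : ℤ → Ideal R}

theorem iter (hc : IsAdicComplete (maximalIdeal R) R) (hF : Flt H Fl) {ι : Type}
    (Ψ : (ι → R) → R) (hΨ : ∀ m x y, (∀ i, x i - y i ∈ Fl m) → Ψ x - Ψ y ∈ Fl m) (β : ℤ → ℤ)
    (h1 : Monotone β) (h2 : ∀ n, β n ≤ n) (h3 : ∀ m, ∃ n, m ≤ β n)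
    (st : ∀ n x, Ψ x ∈ Fl n → ∃ y, (∀ i, y i - x i ∈ Fl (β n)) ∧ Ψ y ∈ Fl (n + 1))
    (n : ℤ) (x : ι → R) (h : Ψ x ∈ Fl n) : ∃ y, (∀ i, y i - x i ∈ Fl (β n)) ∧ Ψ y = 0 := by
  choose! nx k1 k2 using st
  let a : ℕ → ι → R := fun k => Nat.rec x (fun k y => nx (n + k) y) k
  have a1 : ∀ k : ℕ, Ψ (a k) ∈ Fl (n + k) := fun k => by
    induction k with
    | zero => simpa [a] using h
    | succ k ih => rw [Nat.cast_succ, ← add_assoc]; exact k2 _ _ ih
  have a2 : ∀ i (k l : ℕ), k ≤ l → a l i - a k i ∈ Fl (β (n + k)) := fun i k l hl => by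
    induction l, hl using Nat.le_induction with
    | base => simp
    | succ l hl ih =>
      have := add_mem (hF.mono _ _ (h1 (by omega : n + k ≤ n + l)) (k1 _ _ (a1 l) i)) ih
      rwa [sub_add_sub_cancel] at this
  obtain ⟨φ, φ1, φ2⟩ := extraction_forall_of_eventually
    (P := fun m k : ℕ => Fl (β (n + k)) ≤ maximalIdeal R ^ m) fun m => by
      obtain ⟨j, hj⟩ := hF.le_pow m
      obtain ⟨l, hl⟩ := h3 j
      exact eventually_atTop.2 ⟨(l - n).toNat, fun k hk =>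
        (hF.mono _ _ (hl.trans (h1 (by omega)))).trans hj⟩
  have sm : ∀ (m : ℕ) (u v : R), u ≡ v [SMOD (maximalIdeal R ^ m • ⊤ : Submodule R R)] ↔
      u - v ∈ maximalIdeal R ^ m := fun m u v => by rw [SModEq.sub_mem, smul_eq_mul, Ideal.mul_top]
  choose y hy using fun i => IsPrecomplete.prec' (I := maximalIdeal R) (fun m => a (φ m) i)
    fun {m l} hl => ((sm _ _ _).2 (φ2 m (a2 i _ _ (φ1.monotone hl)))).symm
  have a3 : ∀ (k : ℕ) i, y i - a k i ∈ Fl (β (n + k)) := fun k i => by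
    set l := max k (β (n + k)).toNat
    have := add_mem (hF.mono _ _ (by omega : β (n + k) ≤ l)
      (hF.pow_le l ((sm _ _ _).1 (hy i l).symm)))
      (a2 i k _ ((le_max_left _ _).trans (φ1.id_le l)))
    rwa [sub_add_sub_cancel] at this
  refine ⟨y, by simpa [a] using a3 0, IsHausdorff.haus' (I := maximalIdeal R) _ fun m => (sm _ _ _).2 ?_⟩
  simpa using φ2 m (add_mem (hΨ _ _ _ (a3 (φ m))) (hF.mono _ _ (h2 _) (a1 (φ m))))

theorem act_mem (hF : Flt H Fl) (d : ℤ) {n : ℤ} {z : R} (h : z ∈ Fl n) : H.act d z ∈ Fl n := by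
  rw [H.act_eq]
  exact add_mem h (hF.mono _ _ (by omega) (hF.T d n z h))

/-- the test operator `a`, the boundary operator `b` and the generators `g` -/
structure Op (H : Tw R) (Fl : ℤ → Ideal R) (a b : R →+ R) {ι : Type} (e : ℤ) (g : ι → R) :
    Prop where
  ab : ∀ q, a (b q) = 0
  ag : ∀ i r, a (H.nm e r * g i) = 0
  bm : ∀ m z, z ∈ Fl m → b z ∈ Fl m
  tr : ∀ i m c, c ∈ Fl m → ∃ c' ∈ Fl m, H.tr (3 * e) c * g i = b c'

variable {a b : R →+ R} {ι : Type} [Fintype ι] {e : ℤ} {g : ι → R}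

theorem phi_add (ho : H.Ord3) (hF : Flt H Fl) (h : Op H Fl a b e g) {m : ℤ} (r : ι → R)
    {s : ι → R} (hs : ∀ i, s i ∈ Fl m) : ∃ c ∈ Fl m, ∑ i, H.nm e (r i + s i) * g i =
      ∑ i, H.nm e (r i) * g i + ∑ i, H.nm e (s i) * g i + b c := by
  choose c c1 c2 using fun i => h.tr i m (H.cross e (r i) (s i)) (add_mem
    (Ideal.mul_mem_left _ _ (act_mem hF e (act_mem hF e (hs i))))
    (Ideal.mul_mem_left _ _ (act_mem hF e (act_mem hF e (hs i)))))
  refine ⟨∑ i, c i, sum_mem fun i _ => c1 i, ?_⟩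
  simp only [map_sum, ← c2, ho.nm_add, add_mul, Finset.sum_add_distrib]

theorem phi_J (ho : H.Ord3) (hF : Flt H Fl) (h : Op H Fl a b e g) {r : ι → R}
    (hr : ∀ i, r i ∈ H.J) : ∃ f, ∑ i, H.nm e (r i) * g i = b f := by
  choose f hf using fun i => ho.nm_mem_J e (hr i)
  choose c _ c2 using fun i => h.tr i 0 (f i) (hF.top 0 le_rfl ▸ Submodule.mem_top)
  exact ⟨∑ i, c i, by simp only [map_sum, ← c2, hf]⟩

theorem gen (hc : IsAdicComplete (maximalIdeal R) R) (ho : H.Ord3) (hF : Flt H Fl)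
    (h : Op H Fl a b e g) (st : ∀ n z, z ∈ Fl n → a z = 0 → ∃ (q : R) (r : ι → R),
      q ∈ Fl (n - 2) ∧ (∀ i, r i ∈ Fl ((n - 10) / 3)) ∧
      z - b q - ∑ i, H.nm e (r i) * g i ∈ Fl (n + 1)) (z : R) (hz : a z = 0) :
    ∃ (r : ι → R) (f : R), z = ∑ i, H.nm e (r i) * g i + b f := by
  obtain ⟨y, -, hy⟩ := iter hc hF
    (fun x : Option ι → R => z - (∑ i, H.nm e (x (some i)) * g i + b (x none)))
    (fun m x y hxy => by
      obtain ⟨c, c1, c2⟩ := phi_add ho hF h (fun i => y (some i)) fun i => hxy (some i)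
      have k : ∑ i, H.nm e (x (some i) - y (some i)) * g i ∈ Fl m := sum_mem fun i _ =>
        Ideal.mul_mem_right _ _ (Ideal.mul_mem_right _ _ (Ideal.mul_mem_right _ _ (hxy _)))
      have := neg_mem (add_mem (add_mem k (h.bm _ _ c1)) (h.bm _ _ (hxy none)))
      simp only [add_sub_cancel] at c2
      rw [map_sub] at this
      refine Eq.mp (congrArg (· ∈ Fl m) ?_) this
      linear_combination c2)
    (fun n => min (n - 2) ((n - 10) / 3)) (fun n m _ => by simp only; omega) (fun n => by omega)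
    (fun m => ⟨max (m + 2) (3 * m + 10), by omega⟩)
    (fun n x hx => by
      obtain ⟨q, r, k1, k2, k3⟩ := st n _ hx (by simp [map_sum, hz, h.ab, h.ag])
      obtain ⟨c, c1, c2⟩ := phi_add ho hF h (fun i => x (some i)) k2
      refine ⟨fun i => x i + i.elim (q - c) r, ?_, Eq.mp (congrArg (· ∈ Fl (n + 1)) ?_) k3⟩
      · rintro (_ | i) <;> rw [add_sub_cancel_left]
        · exact sub_mem (hF.mono _ _ (min_le_left _ _) k1) (hF.mono _ _ (min_le_right _ _) c1)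
        · exact hF.mono _ _ (min_le_right _ _) (k2 i)
      · simp only [Option.elim, map_add, map_sub]
        linear_combination c2)
    0 0 (hF.top 0 le_rfl ▸ Submodule.mem_top)
  exact ⟨_, _, sub_eq_zero.1 hy⟩

theorem ind (ho : H.Ord3) (hF : Flt H Fl) (h : Op H Fl a b e g) (s : ℤ)
    (st : ∀ n z, z ∈ Fl n → b z ∈ Fl (n + (s + 1)) → ∃ z' ∈ Fl (n + 1), b z' = b z)
    (si : ∀ r : ι → R, (∃ i, r i ∉ H.J) → ∃ (r' : ι → R) (n : ℤ), (∀ i, r i - r' i ∈ H.J) ∧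
      ∑ i, H.nm e (r' i) * g i ∈ Fl n ∧
      ∀ q ∈ Fl (n - s), ∑ i, H.nm e (r' i) * g i - b q ∉ Fl (n + 1)) (r : ι → R) :
    (∃ f, ∑ i, H.nm e (r i) * g i = b f) ↔ ∀ i, r i ∈ H.J := by
  refine ⟨fun ⟨f, hf⟩ => by_contra fun k => ?_, phi_J ho hF h⟩
  obtain ⟨r', n, k1, k2, k3⟩ := si r (not_forall.1 k)
  obtain ⟨c, -, c2⟩ := phi_add ho hF h (m := 0) r' (s := fun i => r i - r' i)
    fun i => hF.top 0 le_rfl ▸ Submodule.mem_top
  obtain ⟨f', hf'⟩ := phi_J ho hF h k1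
  have key : ∀ m, min 0 (n - s) ≤ m → m ≤ n - s →
      ∃ q ∈ Fl m, b q = ∑ i, H.nm e (r' i) * g i := fun m hm => by
    induction m, hm using Int.le_induction with
    | base =>
      refine fun _ => ⟨f - f' - c, hF.top _ (min_le_left _ _) ▸ Submodule.mem_top, ?_⟩
      simp only [add_sub_cancel] at c2
      rw [map_sub, map_sub]
      linear_combination c2 - hf + hf'
    | succ m _ ih =>
      intro hm
      obtain ⟨q, q1, q2⟩ := ih (by omega)
      obtain ⟨q', q3, q4⟩ := st m q q1 (hF.mono _ _ (by omega) (q2 ▸ k2))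
      exact ⟨q', q3, q4.trans q2⟩
  obtain ⟨q, q1, q2⟩ := key _ (min_le_right _ _) le_rfl
  exact k3 q q1 (by simp [q2])

/-- `T` as a homomorphism -/
def Th (H : Tw R) (d : ℤ) : R →+ R := AddMonoidHom.mk' (H.T d) (H.T_add d)

/-- `tr` as a homomorphism -/
def trh (H : Tw R) (d : ℤ) : R →+ R := AddMonoidHom.mk' (H.tr d) (H.tr_add d)

theorem op0 (ho : H.Ord3) (hF : Flt H Fl) {d : ℤ} (hg : ∀ i, H.T (d - 3 * e) (g i) = 0) :
    Op H Fl (Th H d) (trh H d) e g where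
  ab := ho.T_tr d
  ag i r := by
    have := H.T_mul_inv (3 * e) _ (H.nm e r) (hg i)
    rwa [add_sub_cancel, ho.T_nm, zero_mul] at this
  bm m z hz := hF.mono _ _ (by omega) (hF.tr d m z hz)
  tr i m c hc := ⟨c * g i, Ideal.mul_mem_right _ _ hc, by
    rw [← H.tr_mul_inv (3 * e) _ c (hg i), add_sub_cancel]; rfl⟩

theorem op1 (ho : H.Ord3) (hF : Flt H Fl) {d : ℤ} (hg : ∀ i, H.tr (d - 3 * e) (g i) = 0) :
    Op H Fl (trh H d) (Th H d) e g where
  ab := ho.tr_T d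
  ag i r := by
    have := H.inv_mul_tr (3 * e) (d - 3 * e) (ho.T_nm e r) (g i)
    rwa [add_sub_cancel, hg, mul_zero] at this
  bm m z hz := hF.mono _ _ (by omega) (hF.T d m z hz)
  tr i m c hc := ⟨_, add_mem (add_mem (Ideal.mul_mem_right _ _ hc) (Ideal.mul_mem_right _ _ hc))
    (Ideal.mul_mem_right _ _ (act_mem hF _ hc)), by
      rw [ho.tr_mul_of_tr (3 * e) _ c (hg i), add_sub_cancel]; rfl⟩

end Apx

open Apx

theorem apx : APX := by
  intro R _ _ hc H Fl ho hF d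
  refine ⟨fun κ _ e e' g1 hs n z hz h0 => ?_, fun ι κ _ _ e e' g0 g1 h0 h1 hG hI => ?_⟩
  · obtain ⟨y, h1, h2⟩ := iter hc hF (fun x : Unit → R => z - H.tr d (x ()))
      (fun m x y h => by
        rw [sub_sub_sub_cancel_left, ← H.tr_sub, ← neg_sub, H.tr_neg]
        exact neg_mem (hF.mono _ _ (by omega) (hF.tr d m _ (h ()))))
      (fun n => n - 2) (fun n m _ => by simp only; omega) (fun n => by omega)
      (fun m => ⟨m + 2, by omega⟩)
      (fun n x hx => by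
        obtain ⟨q, r, k1, -, k3⟩ := hs.sg0 n _ hx (by simp [H.T_sub, h0, ho.T_tr])
        exact ⟨fun _ => x () + q, fun _ => by simpa using k1, by simpa [H.tr_add, sub_sub] using k3⟩)
      n 0 (by simpa using hz)
    exact ⟨y (), by simpa using h1 (), sub_eq_zero.1 h2⟩
  · have o0 := op0 ho hF h0
    have o1 := op1 ho hF h1
    refine ⟨gen hc ho hF o0 fun n z hz k => hG.sg0 n z hz
      ((show H.T d z = 0 from k) ▸ zero_mem _),
      ind ho hF o0 2 (fun n z hz k => ?_) hI.si0,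
      gen hc ho hF o1 fun n z hz k => ?_, ind ho hF o1 1 (fun n z hz k => ?_) hI.si1⟩
    · obtain ⟨q, r, -, -, k3⟩ := hG.sg1 n z hz k
      exact ⟨_, k3, by simp [map_sum, o1.ag, show trh H d (H.T d q) = 0 from o1.ab q]⟩
    · obtain ⟨q, r, k1, k2⟩ := hG.sg1 n z hz ((show H.tr d z = 0 from k) ▸ zero_mem _)
      exact ⟨q, r, hF.mono _ _ (by omega) k1, k2⟩
    · obtain ⟨q, r, -, -, k3⟩ := hG.sg0 n z hz k
      exact ⟨_, k3, by simp [map_sum, o0.ag, show Th H d (H.tr d q) = 0 from o0.ab q]⟩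

end Vale.Agent.P236Z.Tate
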