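import Vale.Agent.P236Z.Tate.Dic

/-!
# P236, block TATE: the bridge to the forcing block
-/

namespace Vale.Agent.P236Z.Tate

open Vale.Agent.P251.F Vale.Agent.P217 IsLocalRing

namespace Br

section
variable {R₀ : Type} [CommRing R₀] (A : Tw R₀)

theorem act_nu (y : R₀) : A.act (-2 * 1) (y * A.cube.nm (-1) 1) =
    A.cube.nm 0 (A.act (-1) 1) * (A.act 1 y * A.cube.nm (-1) 1) := by
  rw [A.act_mul' (show (-2 * 1 : ℤ) = 1 + 3 * -1 by norm_num), ← A.cube_nm_act]
  have := A.cube.nm_mul 0 (-1) (A.act (-1) 1) 1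
  rw [zero_add, mul_one] at this
  rw [this]; ring

theorem T_x2 {w : R₀} (h : A.cube.tr 1 (A.T 1 w) = 0) :
    ∃ y, A.T 1 (A.T 1 (A.T 1 w)) = A.cube.T 1 y := by
  have h1 : A.cube.tr 1 (A.act 1 (A.T 1 w)) = 0 := by rw [A.cube_tr_act, h, A.act_zero]
  refine ⟨w - (-(2 * A.act 1 (A.T 1 w)) - A.cube.act 1 (A.act 1 (A.T 1 w))), ?_⟩
  rw [Tw.T_sub, ← A.cube.three_mul_of_tr h1, A.cube_T]; ring

end

variable {R : Type} [CommRing R] {R₀ : Type} [CommRing R₀]

theorem gen_one (h : R ≃+* R) (x c : Fin 3 → R) : Force.gen h x 1 c =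
    SS.nm h (c 0) * x 0 + SS.nm h (c 1) * x 1 + SS.nm h (c 2) * x 2 := by
  simp [Force.gen]

theorem pow_nine (g : R ≃+* R) (a : R) : (g ^ 9) a = g (g (g (g (g (g (g (g (g a)))))))) := by
  simp [pow_succ]

end Br

open Br in
theorem br_of (h1 : TATE) (h2 : RSC) (h3 : OF) (h4 : INV) (h5 : BRA) : BR := by
  intro R _ R₀ _ _ deg ι ev v g h G φ σ D hg hσ
  obtain ⟨γ, f, hLT, hT, hs⟩ := h2 R R₀ deg ι ev v g G φ D
  obtain ⟨w, O⟩ := h1 R₀ D.base _ γ f hLT
  obtain ⟨i1, i2, i3, i4⟩ := h4 R₀ D.base D.res _ γ f w hLT O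
  have L := D.lau
  set A := twOf γ f with hA
  have hH : Tra ι v h A.cube := El.cube hT hg
  obtain ⟨b1, b2, b3, b4⟩ := h5 R R₀ deg ι ev v h A.cube (xw A w) L hH O.par.ord O.tr O.coh
  have hJ : A.cube.J ≤ maximalIdeal R₀ := le_sup_left.trans O.s39.le
  have e3 : ev (σ 3) = sc (ser3 γ f) 3 := by rw [hσ, hs]
  have e9 : ev (σ 9) = sc (ser3 γ f) 9 := by rw [hσ, hs]
  have m3 : σ 3 ∈ deg 4 := by rw [hσ]; exact D.ψ_mem 2
  have m9 : σ 9 ∈ deg 16 := by rw [hσ]; exact D.ψ_mem 8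
  let q := Ideal.Quotient.mk A.cube.J
  have hq : ∀ r, q r = 0 ↔ r ∈ A.cube.J := fun r => Ideal.Quotient.eq_zero_iff_mem
  have hof := (h3 R₀ D.base _ _ _ _ _ _ O.J O.s39).2 D.res
  have hu : ∀ r, IsUnit (q r) → IsUnit r := fun r hr => by
    by_contra hn
    obtain ⟨s, hs⟩ := hr.exists_right_inv
    obtain ⟨s, rfl⟩ := Ideal.Quotient.mk_surjective s
    have h1 : r * s - 1 ∈ A.cube.J :=
      (hq _).1 (by rw [map_sub, map_mul, map_one]; exact sub_eq_zero.2 hs)
    have h2 : r * s ∈ maximalIdeal R₀ := Ideal.mul_mem_right _ _ hn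
    exact (maximalIdeal.isMaximal R₀).ne_top ((Ideal.eq_top_iff_one _).2
      (by simpa using sub_mem h2 (hJ h1)))
  have hm : ∀ r ∈ maximalIdeal R₀,
      q r ∈ Ideal.span {q (sc (ser3 γ f) 3), q (sc (ser3 γ f) 9)} := fun r hr => by
    rcases hof.loc (q r) with h | h
    · exact absurd (hu r h) hr
    · exact h
  have hd : ∀ r, q (sc (ser3 γ f) 3) ∣ q r → r ∈ A.cube.J ⊔ Ideal.span {sc (ser3 γ f) 3} := by
    rintro r ⟨c, hc⟩
    obtain ⟨c, rfl⟩ := Ideal.Quotient.mk_surjective c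
    have h1 : r - sc (ser3 γ f) 3 * c ∈ A.cube.J :=
      (hq _).1 (by rw [map_sub, map_mul]; exact sub_eq_zero.2 hc)
    have := add_mem (Ideal.mem_sup_left (T := Ideal.span {sc (ser3 γ f) 3}) h1)
      (Ideal.mem_sup_right (Ideal.mul_mem_right c _ (Ideal.mem_span_singleton_self _)))
    simpa using this
  have hAm : ∀ d r, A.T d r ∈ maximalIdeal R₀ := fun d r => by
    refine (?_ : A.J ≤ _) (A.T_mem_J d r)
    refine Ideal.span_le.2 ?_
    rintro _ ((rfl | rfl) | ⟨r, rfl⟩)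
    · exact D.base.three
    · have h1 : (f.isUnit.unit : R₀) - 1 ∈ maximalIdeal R₀ := hLT.strict
      have h2 := Tw.zpow_sub_one_mem h1 (-1)
      rwa [zpow_neg_one] at h2
    · exact hLT.res r
  have gT : ∀ {t m d : ℤ}, t = 4 * m → d = -2 * m → ∀ c ∈ deg t,
      ev (g c) - ev c = A.T d (ev c) := fun {t m d} e e' c hc => by
    obtain ⟨r, rfl⟩ := El.ex L e hc
    rw [El.act' hT e', El.ev_el L, El.ev_el L, Tw.T]
  have hn : Nontrivial (R₀ ⧸ A.cube.J) := ⟨⟨1, 0, fun h => hof.ne_top (h ▸ zero_mem _)⟩⟩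
  have un : ∀ t a, a ∈ deg t → IsUnit (ev a) → IsUnit a := fun t a ha hu => by
    by_cases ht : t % 4 = 0
    · rw [El.eq_el L (m := t / 4) (by omega) ha]
      exact El.isUnit _ hu
    · rw [L.sparse t a ht ha, map_zero] at hu
      exact absurd hu not_isUnit_zero
  refine ⟨R₀ ⧸ A.cube.J, inferInstance, q.comp ev, xt ι v A.cube (xw A w), ⟨?_, ?_, D.g_mem,
    L.sparse, hg, ?_, ?_, m3, m9, ?_, fun i => (b1 i).1, fun i => (b1 i).2, ?_, ?_, b3, ?_, ?_, ?_,
    ?_, ?_, ?_, ?_, ?_⟩, fun t a ha hr => un t a ha (hu _ hr), ?_, hn⟩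
  · rw [← El.one (ι := ι) (v := v)]; exact El.mem' L (by norm_num) _
  · intro s t a b ha hb
    by_cases h4 : s % 4 = 0
    · by_cases h5 : t % 4 = 0
      · obtain ⟨r, rfl⟩ := El.ex L (m := s / 4) (by omega) ha
        obtain ⟨r', rfl⟩ := El.ex L (m := t / 4) (by omega) hb
        rw [El.mul]; exact El.mem' L (by omega) _
      · rw [L.sparse t b h5 hb, mul_zero]; exact zero_mem _
    · rw [L.sparse s a h4 ha, zero_mul]; exact zero_mem _
  · intro a
    rw [← hg, ← hg, ← hg, ← pow_nine, D.g9]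
  · intro a
    let ψ : R →+ R₀ ⧸ A.cube.J :=
      ((q.comp ev).comp (h : R →+* R)).toAddMonoidHom - (q.comp ev).toAddMonoidHom
    have : ψ.ker = ⊤ := L.span _ fun t c hc => by
      change q (ev (h c)) - q (ev c) = 0
      by_cases ht : t % 4 = 0
      · obtain ⟨r, rfl⟩ := El.ex L (m := t / 4) (by omega) hc
        rw [El.act hH, El.ev_el L, El.ev_el L, ← map_sub]
        exact (hq _).2 (A.cube.T_mem_J _ _)
      · rw [L.sparse t c ht hc]; simp
    have h0 : a ∈ ψ.ker := this ▸ AddSubgroup.mem_top a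
    exact sub_eq_zero.1 h0
  · change Force.OFacts (q (ev (σ 3))) (q (ev (σ 9)))
    rw [e3, e9]; exact hof
  · intro m b
    obtain ⟨r, rfl⟩ := Ideal.Quotient.mk_surjective b
    exact ⟨El ι v m r, El.mem L m r, congrArg q (El.ev_el L m r)⟩
  · intro m c hc h0
    exact b2 m c hc ((hq _).1 h0)
  · intro m e c f h0 h3 hc hf he
    obtain ⟨k1, k2⟩ := b4 m e c f h0 h3 hc hf he
    exact ⟨(hq _).2 k1, fun h => ⟨(hq _).2 (k2 h).1, (hq _).2 (k2 h).2⟩⟩
  · have hτ : q (A.act (-1) 1) - 1 ∈ Ideal.span {q (sc (ser3 γ f) 3), q (sc (ser3 γ f) 9)} := by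
      have := hm _ (hAm (-1) 1)
      rwa [Tw.T, map_sub, map_one] at this
    have z : (0 : R) ∈ deg 0 := zero_mem _
    have mτ : El ι v 0 (A.act (-1) 1) ∈ deg 0 := El.mem' L (by norm_num) _
    have n0 : SS.nm h 0 = 0 := by simp [SS.nm]
    have nτ : SS.nm h (El ι v 0 (A.act (-1) 1)) = El ι v 0 (A.cube.nm 0 (A.act (-1) 1)) :=
      El.nm' hH (by norm_num) (by norm_num) _
    change ∀ i, ∃ (c : Fin 3 → R) (f' : R), _ ∧ _ ∧ _ ∧ ∀ l, q (ev (c l)) - _ ∈
      Ideal.span {q (ev (σ 3)), q (ev (σ 9))}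
    rw [e3, e9]
    intro i
    fin_cases i
    · refine ⟨![El ι v 0 (A.act (-1) 1), El ι v 0 (A.act (-1) 1), 0], 0,
        fun l => by fin_cases l <;> assumption, zero_mem _, ?_, fun l => ?_⟩
      · rw [gen_one]
        simp only [El.xt_eq, Fin.zero_eta, Matrix.cons_val, nτ, n0, El.act hT, act_nu, El.mul,
          map_zero, sub_self, zero_mul, add_zero, zero_add, ← El.add, xw]
        rw [A.act_eq 1 w]; congr 1; ring
      · fin_cases l <;> simp [El.ev_el L, hτ]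
    · refine ⟨![0, El ι v 0 (A.act (-1) 1), El ι v 0 (A.act (-1) 1)], 0,
        fun l => by fin_cases l <;> assumption, zero_mem _, ?_, fun l => ?_⟩
      · rw [gen_one]
        simp only [El.xt_eq, Fin.mk_one, Matrix.cons_val, nτ, n0, El.act hT, act_nu, El.mul,
          map_zero, sub_self, zero_mul, add_zero, zero_add, ← El.add, xw]
        rw [A.act_eq 1 (A.T 1 w)]; congr 1; ring
      · fin_cases l <;> simp [El.ev_el L, hτ]
    · obtain ⟨y, hy⟩ := T_x2 A (w := w) (O.tr 1)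
      refine ⟨![0, 0, El ι v 0 (A.act (-1) 1)],
        El ι v 1 (A.cube.nm 0 (A.act (-1) 1) * (y * A.cube.nm (-1) 1)),
        fun l => by fin_cases l <;> assumption, El.mem' L (by norm_num) _, ?_, fun l => ?_⟩
      · rw [gen_one, El.T' hH (d := 3 * 0 + (1 + 3 * -1)) (by norm_num)]
        have k : A.cube.T (3 * 0 + (1 + 3 * -1)) (A.cube.nm 0 (A.act (-1) 1) *
            (y * A.cube.nm (-1) 1)) = A.cube.nm 0 (A.act (-1) 1) *
              (A.cube.T 1 y * A.cube.nm (-1) 1) := by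
          have ho : A.cube.Ord3 := O.par.ord
          rw [Tw.T, Tw.act_mul, Tw.act_mul, A.cube.T_eq_zero.1 (ho.T_nm _ _),
            A.cube.T_eq_zero.1 (ho.T_nm _ _), Tw.T]; ring
        simp only [El.xt_eq, Fin.reduceFinMk, Matrix.cons_val, nτ, n0, El.act hT, act_nu, El.mul,
          zero_mul, add_zero, zero_add, ← El.add, xw, k]
        rw [A.act_eq 1 (A.T 1 (A.T 1 w)), hy]; congr 1; ring
      · fin_cases l <;> simp [El.ev_el L, hτ]
  · intro m c hc
    change q (ev (g c)) - q (ev c) ∈ Ideal.span {q (ev (σ 3)), q (ev (σ 9))}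
    rw [e3, e9, ← map_sub, gT rfl rfl c hc]
    exact hm _ (hAm _ _)
  · intro c hc huc he
    refine i1 (-2) (ev c) (by norm_num) (hu _ huc) (Ideal.mem_sup_left ((hq _).1 ?_))
    rw [← gT (m := 1) (by norm_num) (by norm_num) c hc, map_sub]
    exact sub_eq_zero.2 he
  · intro c hc huc he
    refine i1 (-8) (ev c) (by norm_num) (hu _ huc) (hd _ ?_)
    rw [← gT (m := 4) (by norm_num) (by norm_num) c hc, map_sub, ← e3]
    exact he
  · intro c hc b hb hcb he
    obtain ⟨b, rfl⟩ := Ideal.Quotient.mk_surjective b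
    refine i2 b (ev c) (hu _ hb) ((hq _).1 ?_) (hd _ ?_)
    · rw [map_sub, map_mul, map_pow, ← e9]
      exact sub_eq_zero.2 hcb
    · rw [← gT (m := 4) (by norm_num) (by norm_num) c hc, map_sub, ← e3]
      exact he
  · obtain ⟨r, p, e, l, hl⟩ := i3
    refine ⟨fun l => El ι v 0 (r l), El ι v 1 p, fun l => El.mem' L (by norm_num) _,
      El.mem' L (by norm_num) _, ?_, l, ?_⟩
    · have k : ∀ i, A.cube.nm (-1) (r i) = A.cube.nm 0 (r i) * A.cube.nm (-1) 1 := fun i => by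
        rw [← Tw.nm_mul, zero_add, mul_one]
      rw [gen_one, El.T' hH (d := -2) (by norm_num), El.eq_el L (m := 1) (by norm_num) m3, e3, e]
      simp only [El.xt_eq, El.nm' hH (m := 0) (d := 0) (n := 0) (by norm_num) (by norm_num),
        El.mul, zero_add, ← El.add, Fin.sum_univ_three, k]
      congr 1; ring
    · change IsUnit (q (ev (El ι v 0 (r l))))
      rw [El.ev_el L]; exact hl.map q
  · intro a ha f' hf' ht he
    obtain ⟨a, rfl⟩ := El.ex L (m := 0) (by norm_num) ha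
    obtain ⟨p, rfl⟩ := El.ex L (m := 0) (by norm_num) hf'
    rw [El.tr' hH (d := 0) (by norm_num), ← El.zero (ι := ι) (v := v) 0] at ht
    rw [El.T' hH (d := 0) (by norm_num)] at he
    have he' : El ι v 0 (A.tr 0 a) = El ι v 0 (A.cube.T 0 p) := by
      rw [← he, ← El.tr' hT (d := 0) (by norm_num), SS.tr]
    obtain ⟨b, p', k1, k2⟩ := i4 a p (El.inj L ht) (El.inj L he')
    refine ⟨El ι v 0 b, El.mem' L (by norm_num) _, El ι v 0 p', El.mem' L (by norm_num) _, ?_, ?_⟩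
    · rw [El.tr' hH (d := 0) (by norm_num), k1, El.zero]
    · rw [El.T' hH (d := 0) (by norm_num), El.T' hT (d := 0) (by norm_num), ← El.add, ← k2]
  · refine un 52 _ (by rw [hσ]; exact D.ψ_mem 26) ?_
    rw [hσ, hs]; exact O.s27

end Vale.Agent.P236Z.Tate
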