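import Vale.Agent.P236Z.Tate.Dic

/-!
# P236, block TATE: the cohomology of the graded ring
-/

namespace Vale.Agent.P236Z.Tate

namespace Bra

variable {R : Type} [CommRing R] {R₀ : Type} [CommRing R₀] {ι : R₀ →+* R} {v : Rˣ} {h : R ≃+* R}
  {H : Tw R₀} {x : Fin 3 → R₀}

theorem nu_inv (ho : H.Ord3) : H.T (-3) (H.nm (-1) 1) = 0 := by simpa using ho.T_nm (-1) 1

theorem act_nu (ho : H.Ord3) (y : R₀) :
    H.act (-2) (y * H.nm (-1) 1) = H.act 1 y * H.nm (-1) 1 := by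
  rw [H.act_mul' (d := 1) (e := -3) (by norm_num), H.T_eq_zero.1 (nu_inv ho)]

theorem nm_nu {d e : ℤ} (he : e = d - 1) (r : R₀) : H.nm e r = H.nm d r * H.nm (-1) 1 := by
  rw [← H.nm_mul, mul_one, he, sub_eq_add_neg]

theorem d1_even (T : Tra ι v h H) {e k d : ℤ} (he : Even e) (hd : d = -2 * k) (r : R₀) :
    SS.d1 h e (El ι v k r) = El ι v k (H.T d r) := by rw [SS.d1, if_pos he, El.T' T hd]

theorem d1_odd (T : Tra ι v h H) {e k d : ℤ} (he : ¬ Even e) (hd : d = -2 * k) (r : R₀) :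
    SS.d1 h e (El ι v k r) = El ι v k (H.tr d r) := by rw [SS.d1, if_neg he, El.tr' T hd]

theorem cup_xt (T : Tra ι v h H) (ho : H.Ord3) (hx : ∀ j, H.tr 1 (x j) = 0) (i j : Fin 3) :
    SS.cup h 1 1 (xt ι v H x i) (xt ι v H x j) =
      El ι v 2 (H.star 1 1 (x j) (x i) * (H.nm (-1) 1 * H.nm (-1) 1)) := by
  have e : ∀ y, h (El ι v 1 (y * H.nm (-1) 1)) = El ι v 1 (H.act 1 y * H.nm (-1) 1) := fun y => by
    rw [El.act' T (d := -2) (by norm_num), act_nu ho]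
  have h1 := hx i
  rw [SS.cup, if_pos ⟨odd_one, odd_one⟩, El.xt_eq, El.xt_eq, e, e, e, ← El.add,
    El.mul' (n := 2) (by norm_num), El.mul' (n := 2) (by norm_num), ← El.add]
  rw [Tw.tr] at h1
  refine congrArg (El ι v 2) ?_
  rw [Tw.star]
  linear_combination (x j * (H.nm (-1) 1 * H.nm (-1) 1)) * h1

theorem g0 (T : Tra ι v h H) (m : ℤ) (r : Fin 3 → R₀) :
    Force.gen h (xt ι v H x) 0 (fun l => El ι v m (r l)) =
      El ι v (3 * m) (H.nm (-2 * m) (r 0) * 1) := by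
  rw [Force.gen, if_pos rfl, El.nm' T rfl rfl, mul_one]

theorem g1 (T : Tra ι v h H) (m : ℤ) (r : Fin 3 → R₀) :
    Force.gen h (xt ι v H x) 1 (fun l => El ι v m (r l)) =
      El ι v (3 * m + 1) (∑ i, H.nm (-2 * m - 1) (r i) * x i) := by
  rw [Force.gen, if_neg one_ne_zero, if_pos rfl, Fin.sum_univ_three]
  simp only [El.nm' T rfl rfl, El.xt_eq, El.mul, ← El.add, nm_nu (d := -2 * m) rfl]
  refine congrArg (El ι v (3 * m + 1)) ?_
  ring

theorem g2 (T : Tra ι v h H) (ho : H.Ord3) (hx : ∀ j, H.tr 1 (x j) = 0) (m : ℤ) (r : Fin 3 → R₀) :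
    ∃ f, Force.gen h (xt ι v H x) 2 (fun l => El ι v m (r l)) =
      El ι v (3 * m + 2) (∑ i, H.nm (-2 * m - 2) (![-r 0, r 1, -r 2] i) * st H x i +
        H.tr (3 * (-2 * m - 2) + 2) f) := by
  have e : ∀ y, H.nm (-2 * m - 2) y = H.nm (-2 * m) y * (H.nm (-1) 1 * H.nm (-1) 1) := fun y => by
    rw [nm_nu (d := -2 * m - 1) (by ring), nm_nu (d := -2 * m) rfl, mul_assoc]
  have c12 := ho.star_comm 1 1 (hx 1) (hx 2)
  have c01 := ho.star_comm 1 1 (hx 0) (hx 1)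
  rw [one_add_one_eq_two] at c12 c01
  refine ⟨H.nm (-2 * m - 2) (r 0) * (x 1 * H.act 1 (x 2) + H.act 1 (x 1) * x 2) +
    H.nm (-2 * m - 2) (r 2) * (x 0 * H.act 1 (x 1) + H.act 1 (x 0) * x 1), ?_⟩
  rw [Force.gen, if_neg (by norm_num), if_neg (by norm_num), if_pos rfl, Fin.sum_univ_three,
    Tw.tr_add, H.inv_mul_tr _ _ (ho.T_nm _ _), H.inv_mul_tr _ _ (ho.T_nm _ _), ← c12, ← c01]
  simp only [El.nm' T rfl rfl, cup_xt T ho hx, El.mul, ← El.add, e, st, Matrix.cons_val_zero,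
    Matrix.cons_val_one, Matrix.cons_val_two, Matrix.head_cons, Matrix.tail_cons, Tw.nm_neg]
  refine congrArg (El ι v (3 * m + 2)) ?_
  ring

theorem g3 (T : Tra ι v h H) (ho : H.Ord3) (hx : ∀ j, H.tr 1 (x j) = 0) (m : ℤ) (r : Fin 3 → R₀) :
    ∃ f, Force.gen h (xt ι v H x) 3 (fun l => El ι v m (r l)) =
      El ι v (3 * m + 3) (H.nm (-2 * m - 2 - 1) (-r 0) * top H x + H.T (3 * (-2 * m - 2)) f) := by
  have e : ∀ y, H.nm (-2 * m - 2 - 1) y =
      H.nm (-2 * m) y * (H.nm (-1) 1 * H.nm (-1) 1 * H.nm (-1) 1) := fun y => by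
    rw [nm_nu (d := -2 * m - 2) rfl, nm_nu (d := -2 * m - 1) (by ring), nm_nu (d := -2 * m) rfl]
    ring
  have c12 := ho.star_comm 1 1 (hx 1) (hx 2)
  obtain ⟨u, hu⟩ : ∃ u, H.tr (1 + 1) (x 1 * H.act 1 (x 2) + H.act 1 (x 1) * x 2) * x 0 =
      H.T (1 + 1 + 1) u := ⟨_, ho.tr_mul_of_tr _ _ _ (hx 0)⟩
  refine ⟨u * H.nm (-2 * m - 2 - 1) (r 0), ?_⟩
  rw [Force.gen, if_neg (by norm_num), if_neg (by norm_num), if_neg (by norm_num), if_pos rfl,
    show 3 * (-2 * m - 2) = 1 + 1 + 1 + 3 * (-2 * m - 2 - 1) by ring,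
    H.T_mul_inv _ _ _ (ho.T_nm _ _), ← hu, ← c12, El.nm' T rfl rfl, cup_xt T ho hx, El.xt_eq,
    El.mul' (n := 3) (by norm_num), El.mul, Tw.nm_neg, e, top]
  refine congrArg (El ι v (3 * m + 3)) ?_
  ring

end Bra

open Bra

theorem bra : BRA := by
  intro R _ R₀ _ deg ι ev v h H x L T ho hx hc
  refine ⟨fun i => ?_, fun m c hm hJ => ?_, fun m e a h0 h5 ha hd => ?_,
    fun m e c f h0 h3 hm hf hg => ?_⟩
  · rw [El.xt_eq, El.tr' T (d := 1 + -3) (by norm_num), H.tr_mul_inv _ _ _ (nu_inv ho), hx,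
      zero_mul, El.zero]
    exact ⟨El.mem' L (by norm_num) _, rfl⟩
  · obtain ⟨r, rfl⟩ := El.ex L rfl hm
    rw [El.ev_el L] at hJ
    obtain ⟨f, hf⟩ := ho.nm_mem_J (-2 * m) hJ
    exact ⟨El ι v (3 * m) f, El.mem' L (by ring) _, by
      rw [El.nm' T rfl rfl, hf, El.tr' T (d := 3 * (-2 * m)) (by ring)]⟩
  · obtain ⟨z, rfl⟩ := El.ex L (m := 3 * m + e) (by ring) ha
    have k : ∀ {y}, El ι v (3 * m + e) y = 0 → y = 0 := fun hy =>
      El.inj L (hy.trans (El.zero _).symm)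
    have mem : ∀ f, El ι v (3 * m + e) f ∈ deg (12 * m + 4 * e) := fun f => El.mem' L (by ring) f
    interval_cases e
    · rw [d1_even T (by decide) (d := 3 * (-2 * m)) (by ring)] at hd
      obtain ⟨r, f, e⟩ := (hc (-2 * m)).1.gen0 z (k hd)
      refine ⟨fun l => El ι v m ((fun _ => r ()) l), _, fun l => El.mem L m _, mem f, ?_⟩
      rw [g0 T, d1_odd T (by decide) (d := 3 * (-2 * m)) (by ring), add_zero, ← El.add, e]
      simp
    · rw [d1_odd T (by decide) (d := 3 * (-2 * m - 1) + 1) (by ring)] at hd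
      obtain ⟨r, f, e⟩ := (hc (-2 * m - 1)).2.1.gen1 z (k hd)
      refine ⟨fun l => El ι v m (r l), _, fun l => El.mem L m _, mem f, ?_⟩
      rw [g1 T, d1_even T (by decide) (d := 3 * (-2 * m - 1) + 1) (by ring), ← El.add, ← e]
    · rw [d1_even T (by decide) (d := 3 * (-2 * m - 2) + 2) (by ring)] at hd
      obtain ⟨r, f, e⟩ := (hc (-2 * m - 2)).2.2.gen0 z (k hd)
      obtain ⟨f', e'⟩ := g2 T ho hx m ![-r 0, r 1, -r 2]
      refine ⟨fun l => El ι v m (![-r 0, r 1, -r 2] l), _, fun l => El.mem L m _, mem (f - f'), ?_⟩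
      rw [e', d1_odd T (by decide) (d := 3 * (-2 * m - 2) + 2) (by ring), ← El.add, e, Tw.tr_sub]
      simp [Fin.sum_univ_three]
    · rw [d1_odd T (by decide) (d := 3 * (-2 * m - 2)) (by ring)] at hd
      obtain ⟨r, f, e⟩ := (hc (-2 * m - 2)).1.gen1 z (k hd)
      obtain ⟨f', e'⟩ := g3 T ho hx m fun _ => -r ()
      refine ⟨fun _ => El ι v m (-r ()), _, fun l => El.mem L m _, mem (f - f'), ?_⟩
      rw [e', d1_even T (by decide) (d := 3 * (-2 * m - 2)) (by ring), ← El.add, e, Tw.T_sub]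
      simp
    · rw [d1_even T (by decide) (d := 3 * (-2 * m - 3) + 1) (by ring)] at hd
      obtain ⟨r, f, e⟩ := (hc (-2 * m - 3)).2.1.gen0 z (k hd)
      refine ⟨fun _ => 0, _, fun l => zero_mem _, mem f, ?_⟩
      rw [d1_odd T (by decide) (d := 3 * (-2 * m - 3) + 1) (by ring), e]
      simp [Force.gen]
    · rw [d1_odd T (by decide) (d := 3 * (-2 * m - 4) + 2) (by ring)] at hd
      obtain ⟨r, f, e⟩ := (hc (-2 * m - 4)).2.2.gen1 z (k hd)
      refine ⟨fun _ => 0, _, fun l => zero_mem _, mem f, ?_⟩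
      rw [d1_even T (by decide) (d := 3 * (-2 * m - 4) + 2) (by ring), e]
      simp [Force.gen]
  · obtain ⟨z, rfl⟩ := El.ex L (m := 3 * m + e) (by ring) hf
    obtain ⟨r, rfl⟩ : ∃ r : Fin 3 → R₀, c = fun l => El ι v m (r l) :=
      ⟨fun l => ev (c l), funext fun l => El.eq_el L rfl (hm l)⟩
    simp only [El.ev_el L]
    interval_cases e
    · rw [g0 T, d1_odd T (by decide) (d := 3 * (-2 * m)) (by ring), add_zero] at hg
      exact ⟨((hc (-2 * m)).1.ind0 fun _ => r 0).1 ⟨z, by simpa using El.inj L hg⟩ (),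
        fun h => by omega⟩
    · rw [g1 T, d1_even T (by decide) (d := 3 * (-2 * m - 1) + 1) (by ring)] at hg
      have := ((hc (-2 * m - 1)).2.1.ind1 r).1 ⟨z, El.inj L hg⟩
      exact ⟨this 0, fun _ => ⟨this 1, this 2⟩⟩
    · obtain ⟨f', e'⟩ := g2 T ho hx m r
      rw [e', d1_odd T (by decide) (d := 3 * (-2 * m - 2) + 2) (by ring)] at hg
      have := ((hc (-2 * m - 2)).2.2.ind0 ![-r 0, r 1, -r 2]).1
        ⟨z - f', by rw [Tw.tr_sub, ← El.inj L hg, add_sub_cancel_right]⟩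
      exact ⟨neg_mem_iff.1 (this 0), fun _ => ⟨this 1, neg_mem_iff.1 (this 2)⟩⟩
    · obtain ⟨f', e'⟩ := g3 T ho hx m r
      rw [e', d1_even T (by decide) (d := 3 * (-2 * m - 2)) (by ring)] at hg
      have := ((hc (-2 * m - 2)).1.ind1 fun _ => -r 0).1
        ⟨z - f', by rw [Tw.T_sub, ← El.inj L hg, add_sub_cancel_right]; simp⟩
      exact ⟨neg_mem_iff.1 (this ()), fun h => by omega⟩

end Vale.Agent.P236Z.Tate
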