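import Vale.Agent.P236Z.Tate.Ht
import Vale.Agent.P236Z.Tate.Alg
import Vale.Agent.P251.F.Compare2

/-!
# P236, block TATE: the first nonlinear coefficient of an isomorphism of laws
-/

namespace Vale.Agent.P236Z.Tate.Cmp

open Vale.Agent.P251.F Vale.Agent.P217 IsLocalRing MvPowerSeries

section Gen

variable {B : Type} [CommRing B]

theorem subst_C_mul_X {σ : Type} {G : MvPowerSeries σ B} (hG : PowerSeries.HasSubst G) (b : B) :
    PowerSeries.subst G (PowerSeries.C b * PowerSeries.X) = MvPowerSeries.C b * G := by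
  rw [PowerSeries.subst_mul hG, PowerSeries.subst_X hG, PowerSeries.subst_C]

theorem coeff_lin_inv_smul (u : Bˣ) (F : Law B) (d : Fin 2 →₀ ℕ) :
    (u : B) * coeff d ((InvSeries.lin u)⁻¹ • F).ps = (u : B) ^ d.degree * coeff d F.ps := by
  have hX : ∀ i, PowerSeries.HasSubst (X i : MvPowerSeries (Fin 2) B) :=
    fun i => hasSubst_of_cc (by simp)
  have h1 : ((InvSeries.lin u)⁻¹ • F).ps = MvPowerSeries.C ((u⁻¹ : Bˣ) : B) *
      rescale (fun _ : Fin 2 => (u : B)) F.ps := by
    have h2 : ![(PowerSeries.subst (X 0 : MvPowerSeries (Fin 2) B)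
          (InvSeries.lin u).val : MvPowerSeries (Fin 2) B),
        (PowerSeries.subst (X 1 : MvPowerSeries (Fin 2) B) (InvSeries.lin u).val :
          MvPowerSeries (Fin 2) B)] =
        (fun _ : Fin 2 => (u : B)) • (X : Fin 2 → MvPowerSeries (Fin 2) B) := by
      ext1 i
      fin_cases i
      · change (PowerSeries.subst (X 0 : MvPowerSeries (Fin 2) B) (InvSeries.lin u).val :
          MvPowerSeries (Fin 2) B) = (u : B) • X 0
        rw [InvSeries.lin_val, subst_C_mul_X (hX 0), smul_eq_C_mul]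
      · change (PowerSeries.subst (X 1 : MvPowerSeries (Fin 2) B) (InvSeries.lin u).val :
          MvPowerSeries (Fin 2) B) = (u : B) • X 1
        rw [InvSeries.lin_val, subst_C_mul_X (hX 1), smul_eq_C_mul]
    rw [InvSeries.smul_ps, inv_inv, h2, ← rescale_eq_subst, ← map_inv, InvSeries.lin_val,
      subst_C_mul_X]
    refine hasSubst_of_cc ?_
    rw [← coeff_zero_eq_constantCoeff_apply, coeff_rescale]
    have := F.toFG.zero_constantCoeff
    rw [coeff_zero_eq_constantCoeff_apply, this, mul_zero]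
  rw [h1, coeff_C_mul, coeff_rescale, ← mul_assoc, Units.mul_inv, one_mul, Finsupp.prod_fintype _ _
    (fun _ => pow_zero _), Finset.prod_pow_eq_pow_sum, Finsupp.degree_eq_sum]

/-- the comparison in degrees up to `n` -/
theorem cmp_aux {F G : Law B} {g : InvSeries B} (h : g • F = G) {n : ℕ} (hn : 2 ≤ n)
    (hg : ∀ j, 2 ≤ j → j < n → PowerSeries.coeff j g.val = 0) (d : Fin 2 →₀ ℕ)
    (hd : d.degree ≤ n) :
    PowerSeries.coeff n g.val * ((dC n : B) * coeff d (CPS B n)) +
      PowerSeries.coeff 1 g.val * coeff d F.ps =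
      PowerSeries.coeff 1 g.val ^ d.degree * coeff d G.ps := by
  set u : Bˣ := g.isUnit.unit with hu
  have hu1 : (u : B) = PowerSeries.coeff 1 g.val := rfl
  have hs : ((InvSeries.lin u)⁻¹ * g) • F = (InvSeries.lin u)⁻¹ • G := by rw [mul_smul, h]
  have hv : ((InvSeries.lin u)⁻¹ * g).val = PowerSeries.C ((u⁻¹ : Bˣ) : B) * g.val := by
    rw [InvSeries.mul_val, ← map_inv, InvSeries.lin_val]
    exact subst_C_mul_X g.hs _
  have hh := ((InvSeries.smul_eq_iff_isHom _ _ _).1 hs).2
  have hf : ((InvSeries.lin u)⁻¹ * g).val - (PowerSeries.X +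
      PowerSeries.C (((u⁻¹ : Bˣ) : B) * PowerSeries.coeff n g.val) * PowerSeries.X ^ n) ∈
      ordI Unit B (n + 1) := by
    rw [mem_ordI_unit]
    intro j hj
    rw [hv, map_sub, map_add, PowerSeries.coeff_C_mul, PowerSeries.coeff_C_mul,
      PowerSeries.coeff_X, PowerSeries.coeff_X_pow]
    rcases Nat.lt_succ_iff_lt_or_eq.1 hj with h1 | rfl
    · rw [if_neg h1.ne, mul_zero, add_zero]
      rcases Nat.lt_or_ge j 2 with h2 | h2
      · interval_cases j
        · rw [PowerSeries.coeff_zero_eq_constantCoeff_apply, g.cc]; simp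
        · rw [← hu1]; simp
      · rw [hg j h2 h1, if_neg (by omega)]; simp
    · rw [if_neg (by omega), if_pos rfl]; simp
  have key := change_of_variable (isLaw_formalGroup F.toFG)
    (isLaw_formalGroup ((InvSeries.lin u)⁻¹ • G).toFG) hn hf hh d (by omega)
  rw [← dC_smul_CPS (by omega), map_sub, map_sub, coeff_C_mul, ← nsmul_eq_mul, map_nsmul,
    nsmul_eq_mul] at key
  have e := coeff_lin_inv_smul u G d
  have e1 : (u : B) * ((u⁻¹ : Bˣ) : B) = 1 := u.mul_inv
  rw [← hu1, ← e]
  linear_combination (-(u : B)) * key -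
    (PowerSeries.coeff n g.val * ((dC n : B) * coeff d (CPS B n))) * e1

theorem cmp_lt {F G : Law B} {g : InvSeries B} (h : g • F = G) {n : ℕ} (hn : 2 ≤ n)
    (hg : ∀ j, 2 ≤ j → j < n → PowerSeries.coeff j g.val = 0) (d : Fin 2 →₀ ℕ)
    (hd : d.degree < n) : PowerSeries.coeff 1 g.val * coeff d F.ps =
      PowerSeries.coeff 1 g.val ^ d.degree * coeff d G.ps := by
  rw [← cmp_aux h hn hg d hd.le, CPS_mem n d hd, mul_zero, mul_zero, zero_add]

theorem cmp_eq {F G : Law B} {g : InvSeries B} (h : g • F = G) {n : ℕ}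
    (hg : ∀ j, 2 ≤ j → j < n → PowerSeries.coeff j g.val = 0) {i : ℕ} (hi : 0 < i) (hin : i < n) :
    PowerSeries.coeff n g.val * (n.choose i : B) +
      PowerSeries.coeff 1 g.val * coeff (e2 i (n - i)) F.ps =
      PowerSeries.coeff 1 g.val ^ n * coeff (e2 i (n - i)) G.ps := by
  have e : (e2 i (n - i)).degree = n := by rw [degree_e2]; omega
  have := cmp_aux h (by omega) hg (e2 i (n - i)) e.le
  rwa [e, coeff_CPS n i (n - i) hi (by omega) (by omega), ← Nat.cast_mul, dC_mul_cC hi hin] at this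

/-- the same modulo an ideal, for two laws with a common vanishing coefficient -/
theorem cmp_mem {F G : Law B} {g : InvSeries B} (h : g • F = G) (I : Ideal B) {n : ℕ}
    (hg : ∀ j, 2 ≤ j → j < n → PowerSeries.coeff j g.val ∈ I) {i : ℕ} (hi : 0 < i) (hin : i < n)
    (hF : coeff (e2 i (n - i)) F.ps = 0) (hG : coeff (e2 i (n - i)) G.ps = 0) :
    PowerSeries.coeff n g.val * (n.choose i : B) ∈ I := by
  have h' : InvSeries.map (Ideal.Quotient.mk I) g • F.map (Ideal.Quotient.mk I) =
      G.map (Ideal.Quotient.mk I) := by rw [← InvSeries.map_smul, h]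
  have key := cmp_eq h' (fun j h1 h2 => by
    rw [InvSeries.map_val, PowerSeries.coeff_map]
    exact Ideal.Quotient.eq_zero_iff_mem.2 (hg j h1 h2)) hi hin
  rw [Law.map_ps, Law.map_ps, coeff_map, coeff_map, hF, hG, map_zero, mul_zero, mul_zero, add_zero,
    InvSeries.map_val, PowerSeries.coeff_map] at key
  rw [← Ideal.Quotient.eq_zero_iff_mem, map_mul, map_natCast, key]

/-- the first nonlinear coefficient of a composition -/
theorem coeff_mul {f : InvSeries B} (g : InvSeries B) {n : ℕ} (hn : 2 ≤ n)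
    (hf : ∀ j, 2 ≤ j → j < n → PowerSeries.coeff j f.val = 0) :
    PowerSeries.coeff n (f * g).val = PowerSeries.coeff 1 f.val * PowerSeries.coeff n g.val +
      PowerSeries.coeff 1 g.val ^ n * PowerSeries.coeff n f.val := by
  set a := PowerSeries.coeff 1 f.val with ha
  have e : f.val = PowerSeries.C a * PowerSeries.X + (f.val - PowerSeries.C a * PowerSeries.X) := by
    ring
  have hA : ∀ j < n, PowerSeries.coeff j (f.val - PowerSeries.C a * PowerSeries.X) = 0 := by
    intro j hj
    rw [map_sub, PowerSeries.coeff_C_mul, PowerSeries.coeff_X]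
    rcases Nat.lt_or_ge j 2 with h2 | h2
    · interval_cases j
      · rw [PowerSeries.coeff_zero_eq_constantCoeff_apply, f.cc]; simp
      · simp [ha]
    · rw [hf j h2 hj, if_neg (by omega)]; simp
  have e1 := coeff_subst_of_le' g.cc hA
  rw [map_sub, PowerSeries.coeff_C_mul, PowerSeries.coeff_X, if_neg (by omega), mul_zero,
    sub_zero] at e1
  have e2 : (PowerSeries.subst g.val (PowerSeries.C a * PowerSeries.X) : PowerSeries B) =
      PowerSeries.C a * g.val := subst_C_mul_X g.hs a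
  rw [InvSeries.mul_val, e, PowerSeries.subst_add g.hs, map_add, e1, e2, PowerSeries.coeff_C_mul,
    ← e]

theorem coeff_mul_mem {f : InvSeries B} (g : InvSeries B) (I : Ideal B) {n : ℕ} (hn : 2 ≤ n)
    (hf : ∀ j, 2 ≤ j → j < n → PowerSeries.coeff j f.val ∈ I) :
    PowerSeries.coeff n (f * g).val - (PowerSeries.coeff 1 f.val * PowerSeries.coeff n g.val +
      PowerSeries.coeff 1 g.val ^ n * PowerSeries.coeff n f.val) ∈ I := by
  have key := coeff_mul (f := InvSeries.map (Ideal.Quotient.mk I) f)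
    (InvSeries.map (Ideal.Quotient.mk I) g) hn fun j h1 h2 => by
      rw [InvSeries.map_val, PowerSeries.coeff_map]
      exact Ideal.Quotient.eq_zero_iff_mem.2 (hf j h1 h2)
  rw [← map_mul] at key
  simp only [InvSeries.map_val, PowerSeries.coeff_map] at key
  rw [← Ideal.Quotient.eq, key, map_add, map_mul, map_mul, map_pow]

theorem coeff_one_mul (f g : InvSeries B) : PowerSeries.coeff 1 (f * g).val =
    PowerSeries.coeff 1 f.val * PowerSeries.coeff 1 g.val := InvSeries.c_zero_mul f g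

theorem twOf_congr (γ : B ≃+* B) {f g : InvSeries B}
    (h : PowerSeries.coeff 1 f.val = PowerSeries.coeff 1 g.val) : twOf γ f = twOf γ g := by
  have : f.isUnit.unit = g.isUnit.unit := Units.ext h
  rw [twOf, twOf, this]

theorem twOf_ser3 (γ : B ≃+* B) (f : InvSeries B) :
    twOf (γ.trans (γ.trans γ)) (ser3 γ f) = (twOf γ f).cube := by
  have : (ser3 γ f).isUnit.unit⁻¹ = (twOf γ f).cube.t :=
    (eq_inv_of_mul_eq_one_left (Units.ext (Ht.coeff_one_ser3 γ f))).symm
  rw [twOf, this]
  rfl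

theorem map_trans (γ : B ≃+* B) (f : InvSeries B) :
    InvSeries.map (γ.trans (γ.trans γ) : B →+* B) f = InvSeries.map (γ : B →+* B)
      (InvSeries.map (γ : B →+* B) (InvSeries.map (γ : B →+* B) f)) := by
  rw [InvSeries.map_map, InvSeries.map_map]
  rfl

theorem ser3_smul {F : Law B} {γ : B ≃+* B} {f : InvSeries B}
    (h : f • F = F.map (γ : B →+* B)) :
    ser3 γ f • F = F.map (γ.trans (γ.trans γ) : B →+* B) := Ht.ser3_smul h

theorem pow_nine (γ : B ≃+* B) (r : B) :
    (γ ^ 9) r = γ (γ (γ (γ (γ (γ (γ (γ (γ r)))))))) := by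
  simp only [pow_succ, pow_zero, one_mul, RingAut.mul_apply]

end Gen

variable {R : Type} [CommRing R] [IsLocalRing R]

theorem isUnit_natCast (h3 : (3 : R) ∈ maximalIdeal R) {m : ℕ} (hm : ¬ 3 ∣ m) :
    IsUnit (m : R) := by
  by_contra hu
  have hm' : (m : R) ∈ maximalIdeal R := hu
  have hc : IsCoprime (3 : ℤ) (m : ℤ) :=
    Nat.isCoprime_iff_coprime.2 ((Nat.Prime.coprime_iff_not_dvd Nat.prime_three).2 hm)
  obtain ⟨a, b, hab⟩ := hc
  have e : (a : R) * 3 + (b : R) * (m : R) = 1 := by exact_mod_cast congrArg (Int.cast : ℤ → R) hab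
  exact (maximalIdeal.isMaximal R).ne_top ((Ideal.eq_top_iff_one _).2
    (e ▸ add_mem (Ideal.mul_mem_left _ _ h3) (Ideal.mul_mem_left _ _ hm')))

theorem coeff_two (h3 : (3 : R) ∈ maximalIdeal R) {F : Law R} {δ : R →+* R} {f : InvSeries R}
    (h : f • F = F.map δ) (h11 : coeff (e2 1 1) F.ps = 0) (j : ℕ) (h1 : 2 ≤ j) (h2 : j < 3) :
    PowerSeries.coeff j f.val = 0 := by
  obtain rfl : j = 2 := by omega
  have key := cmp_mem h ⊥ (n := 2) (fun j h1 h2 => by omega) one_pos one_lt_two h11 (by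
    rw [Law.map_ps, coeff_map]
    exact (congrArg δ h11).trans (map_zero δ))
  rw [Ideal.mem_bot] at key
  exact (isUnit_natCast h3 (by decide)).mul_left_eq_zero.1 key

end Vale.Agent.P236Z.Tate.Cmp
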