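import Vale.Agent.P236Z.Tate.Sk3
import Vale.Agent.P236Z.Tate.Alg

/-!
# P236, block TATE: the dictionary between the graded ring and its part of degree zero
-/

namespace Vale.Agent.P236Z.Tate

variable {R : Type} [CommRing R] {R₀ : Type} [CommRing R₀]

/-- `r v ^ m` -/
def El (ι : R₀ →+* R) (v : Rˣ) (m : ℤ) (r : R₀) : R := ι r * (v ^ m : Rˣ)

namespace El

variable {deg : ℤ → AddSubgroup R} {ι : R₀ →+* R} {ev : R →+* R₀} {v : Rˣ}

theorem add (m : ℤ) (r s : R₀) : El ι v m (r + s) = El ι v m r + El ι v m s := by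
  simp only [El, map_add, add_mul]

theorem sub (m : ℤ) (r s : R₀) : El ι v m (r - s) = El ι v m r - El ι v m s := by
  simp only [El, map_sub, sub_mul]

theorem neg (m : ℤ) (r : R₀) : El ι v m (-r) = -El ι v m r := by
  simp only [El, map_neg, neg_mul]

@[simp] theorem zero (m : ℤ) : El ι v m 0 = 0 := by simp only [El, map_zero, zero_mul]

theorem mul (m k : ℤ) (r s : R₀) : El ι v m r * El ι v k s = El ι v (m + k) (r * s) := by
  simp only [El, map_mul, zpow_add, Units.val_mul]; ring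

theorem mul' {m k n : ℤ} (h : n = m + k) (r s : R₀) :
    El ι v m r * El ι v k s = El ι v n (r * s) := by rw [h, mul]

theorem one : El ι v 0 1 = 1 := by simp [El]

theorem isUnit (m : ℤ) {r : R₀} (h : IsUnit r) : IsUnit (El ι v m r) :=
  (h.map ι).mul (Units.isUnit _)

theorem xt_eq (H : Tw R₀) (x : Fin 3 → R₀) (i : Fin 3) :
    xt ι v H x i = El ι v 1 (x i * H.nm (-1) 1) := by simp [xt, El]

section
variable (L : Lau deg ι ev v)
include L

theorem ev_el (m : ℤ) (r : R₀) : ev (El ι v m r) = r := by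
  have h : Units.map (ev : R →* R₀) v = 1 := Units.ext L.ev_v
  have h2 : ev ((v ^ m : Rˣ) : R) = 1 := by
    have := congrArg Units.val (map_zpow (Units.map (ev : R →* R₀)) v m)
    rw [h, one_zpow] at this
    exact this
  rw [El, map_mul, L.ev_ι, h2, mul_one]

theorem inj {m : ℤ} {r s : R₀} (h : El ι v m r = El ι v m s) : r = s := by
  rw [← ev_el L m r, h, ev_el L]

theorem mem (m : ℤ) (r : R₀) : El ι v m r ∈ deg (4 * m) := (L.mem m _).2 ⟨r, rfl⟩

theorem mem' {t m : ℤ} (h : t = 4 * m) (r : R₀) : El ι v m r ∈ deg t := h ▸ mem L m r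

theorem eq_el {t m : ℤ} (h : t = 4 * m) {a : R} (ha : a ∈ deg t) : a = El ι v m (ev a) := by
  obtain ⟨r, rfl⟩ := (L.mem m a).1 (h ▸ ha)
  exact congrArg (El ι v m) (ev_el L m r).symm

theorem ex {t m : ℤ} (h : t = 4 * m) {a : R} (ha : a ∈ deg t) : ∃ r, a = El ι v m r :=
  ⟨_, eq_el L h ha⟩

end

variable {h : R ≃+* R} {H : Tw R₀} (T : Tra ι v h H)
include T

theorem act (m : ℤ) (r : R₀) : h (El ι v m r) = El ι v m (H.act (-2 * m) r) := T m r

theorem act' {m d : ℤ} (e : d = -2 * m) (r : R₀) : h (El ι v m r) = El ι v m (H.act d r) := by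
  rw [e, act T]

theorem T' {m d : ℤ} (e : d = -2 * m) (r : R₀) :
    h (El ι v m r) - El ι v m r = El ι v m (H.T d r) := by rw [act' T e, ← sub, Tw.T]

theorem tr' {m d : ℤ} (e : d = -2 * m) (r : R₀) :
    SS.tr h (El ι v m r) = El ι v m (H.tr d r) := by
  rw [SS.tr, act' T e, act' T e, ← add, ← add, Tw.tr]

theorem nm' {m d n : ℤ} (e : d = -2 * m) (e' : n = 3 * m) (r : R₀) :
    SS.nm h (El ι v m r) = El ι v n (H.nm d r) := by
  rw [SS.nm, act' T e, act' T e, mul, mul' (n := n) (by omega), Tw.nm]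

theorem cube {g : R ≃+* R} (hg : ∀ a, h (h (h a)) = g a) : Tra ι v g H.cube := fun m r => by
  change g (El ι v m r) = El ι v m _
  rw [← hg, act T, act T, act T, Tw.cube_act]

end El

end Vale.Agent.P236Z.Tate
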