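import Vale.Agent.P236Z.Tate.Step

/-!
# P236, block TATE: the cohomology of the graded model
-/

namespace Vale.Agent.P236Z.Tate

open MvPolynomial

namespace Gr

open Step

/-- the Tate cohomology of `S` is free over `R` on the `g0 i`, `g1 i` -/
structure Pres {A R : Type} [CommRing A] [CommRing R] (S : DR A) (j : R →+* A) {ι κ : Type}
    [Fintype ι] [Fintype κ] (g0 : ι → A) (g1 : κ → A) : Prop where
  const : ∀ r, S.D (j r) = 0
  gen0 : ∀ a, S.D a = 0 → ∃ (q : A) (r : ι → R), a = S.N q + ∑ i, j (r i) * g0 i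
  gen1 : ∀ a, S.N a = 0 → ∃ (q : A) (r : κ → R), a = S.D q + ∑ i, j (r i) * g1 i
  ind0 : ∀ (q : A) (r : ι → R), ∑ i, j (r i) * g0 i = S.N q → ∀ i, r i = 0
  ind1 : ∀ (q : A) (r : κ → R), ∑ i, j (r i) * g1 i = S.D q → ∀ i, r i = 0

variable {A R : Type} [CommRing A] [CommRing R]

theorem exists_poly {B : Type} [CommRing B] (s : Finset ℕ) (f : ℕ → B) :
    ∃ u : Polynomial B, ∀ m, u.coeff m = if m ∈ s then f m else 0 :=
  ⟨∑ n ∈ s, Polynomial.monomial n (f n), fun m => by
    rw [Polynomial.finsetSum_coeff]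
    simp only [Polynomial.coeff_monomial]
    rw [Finset.sum_ite_eq']⟩

theorem coeff_comb (j : R →+* A) {ι : Type} [Fintype ι] (g : ι → A) (ρ : ι → Polynomial R)
    (m : ℕ) : (∑ i, (ρ i).map j * Polynomial.C (g i)).coeff m = ∑ i, j ((ρ i).coeff m) * g i := by
  rw [Polynomial.finsetSum_coeff]
  exact Finset.sum_congr rfl fun i _ => by rw [Polynomial.coeff_mul_C, Polynomial.coeff_map]

theorem lift_poly (j : R →+* A) {ι : Type} [Fintype ι] (g : ι → A) (f : A → A) (hf : f 0 = 0)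
    (F : Polynomial A → Polynomial A) (hF : ∀ q m, (F q).coeff m = f (q.coeff m))
    (u : Polynomial A) (h : ∀ m, ∃ (q : A) (r : ι → R), u.coeff m = f q + ∑ i, j (r i) * g i) :
    ∃ (q : Polynomial A) (ρ : ι → Polynomial R),
      u = F q + ∑ i, (ρ i).map j * Polynomial.C (g i) := by
  choose q r hq using h
  obtain ⟨Q, hQ⟩ := exists_poly u.support q
  choose ρ hρ using fun i => exists_poly u.support (fun m => r m i)
  refine ⟨Q, ρ, Polynomial.ext fun m => ?_⟩
  rw [Polynomial.coeff_add, hF, coeff_comb, hQ]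
  simp only [hρ]
  split_ifs with hm
  · exact hq m
  · rw [Polynomial.notMem_support_iff.1 hm, hf]
    simp

/-- the constants of the extension -/
noncomputable def jx (j : R →+* A) : Polynomial R →+* MvPolynomial (Fin 2) A :=
  cu.comp (Polynomial.mapRingHom j)

theorem jx_apply (j : R →+* A) (ρ : Polynomial R) : jx j ρ = cu (ρ.map j) := rfl

theorem cu_comb (j : R →+* A) {ι : Type} [Fintype ι] (g : ι → A) (ρ : ι → Polynomial R) :
    cu (∑ i, (ρ i).map j * Polynomial.C (g i)) = ∑ i, jx j (ρ i) * C (g i) := by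
  rw [map_sum]
  exact Finset.sum_congr rfl fun i _ => by rw [map_mul, cu_C, jx_apply]

theorem pres_step (hs : STEP) {S : DR A} {S' : DR (MvPolynomial (Fin 2) A)} (E : Ext S S')
    {j : R →+* A} {ι κ : Type} [Fintype ι] [Fintype κ] {g0 : ι → A} {g1 : κ → A}
    (h : Pres S j g0 g1) :
    Pres S' (jx j) (Sum.elim (fun i => C (g0 i)) fun i => C (g1 i) * X 1 - C (S.D (g1 i)) * X 0)
      (Sum.elim (fun i => C (g1 i)) fun i => C (g0 i) * X 0) := by
  obtain ⟨s1, s2, s3, s4⟩ := hs A S S' E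
  have hc : ∀ ρ, S'.D (jx j ρ) = 0 := fun ρ => by
    rw [jx_apply, D_cu E, show dP S (ρ.map j) = 0 from Polynomial.ext fun m => by
      rw [coeff_dP, Polynomial.coeff_map, h.const, Polynomial.coeff_zero], map_zero]
  have hD : ∀ σ : κ → Polynomial R, S'.D (∑ i, jx j (σ i) * C (g1 i)) =
      ∑ i, jx j (σ i) * C (S.D (g1 i)) := fun σ => by
    rw [map_sum]
    exact Finset.sum_congr rfl fun i _ => by rw [D_mul, hc, E.c, zero_mul, zero_add]
  have l0 : ∀ u : Polynomial A, (∀ m, S.D (u.coeff m) = 0) → ∃ (q : Polynomial A)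
      (ρ : ι → Polynomial R), u = dP S (dP S q) + Polynomial.C S.p * q +
        ∑ i, (ρ i).map j * Polynomial.C (g0 i) := fun u hu =>
    lift_poly j g0 S.N (by simp [DR.N]) (fun q => dP S (dP S q) + Polynomial.C S.p * q)
      (coeff_N S) u fun m => h.gen0 _ (hu m)
  have l1 : ∀ u : Polynomial A, (∀ m, S.N (u.coeff m) = 0) → ∃ (q : Polynomial A)
      (ρ : κ → Polynomial R), u = dP S q + ∑ i, (ρ i).map j * Polynomial.C (g1 i) := fun u hu =>
    lift_poly j g1 S.D (map_zero _) (dP S) (coeff_dP S) u fun m => h.gen1 _ (hu m)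
  have ind : ∀ (ρ : ι → Polynomial R) (σ : κ → Polynomial R),
      (∀ m, (∃ b, (∑ i, (ρ i).map j * Polynomial.C (g0 i)).coeff m = S.N b) ∧
        ∃ b, (∑ i, (σ i).map j * Polynomial.C (g1 i)).coeff m = S.D b) →
      (∀ i, ρ i = 0) ∧ ∀ i, σ i = 0 := fun ρ σ hh => by
    refine ⟨fun i => Polynomial.ext fun m => ?_, fun i => Polynomial.ext fun m => ?_⟩
    · obtain ⟨b, hb⟩ := (hh m).1
      rw [coeff_comb] at hb
      exact h.ind0 b _ hb i
    · obtain ⟨b, hb⟩ := (hh m).2
      rw [coeff_comb] at hb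
      exact h.ind1 b _ hb i
  refine ⟨hc, fun P hP => ?_, fun P hP => ?_, fun Q r hr => ?_, fun Q r hr => ?_⟩
  · obtain ⟨Q, k, n, hk, hn, e⟩ := s1 P hP
    obtain ⟨q, ρ, rfl⟩ := l0 k hk
    obtain ⟨l, σ, rfl⟩ := l1 n hn
    refine ⟨Q + cu q - cu l * X 0, Sum.elim ρ σ, ?_⟩
    rw [e, Fintype.sum_sum_type]
    simp only [Sum.elim_inl, Sum.elim_inr, map_add, cu_comb, hD, DR.N, map_sub, D_mul, D_cu E,
      E.x, E.a, E.p, map_mul, cu_C, mul_sub, Finset.sum_sub_distrib, ← mul_assoc,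
      ← Finset.sum_mul]
    linear_combination (cu (dP S l) * X 1) * S'.three
  · obtain ⟨Q, k, n, hk, hn, e⟩ := s2 P hP
    obtain ⟨q, ρ, rfl⟩ := l0 k hk
    obtain ⟨l, σ, rfl⟩ := l1 n hn
    refine ⟨Q + cu l + (cu (dP S q) * X 0 - cu q * X 1), Sum.elim σ ρ, ?_⟩
    rw [e, Fintype.sum_sum_type]
    simp only [Sum.elim_inl, Sum.elim_inr, map_add, cu_comb, map_sub, D_mul, D_cu E,
      E.x, E.a, map_mul, cu_C, ← mul_assoc, ← Finset.sum_mul]
    ring
  · have := ind (fun i => r (Sum.inl i)) (fun i => r (Sum.inr i)) (s3 Q _ _ (by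
      rw [← hr, Fintype.sum_sum_type]
      simp only [Sum.elim_inl, Sum.elim_inr, cu_comb, hD, mul_sub, Finset.sum_sub_distrib,
        ← mul_assoc, ← Finset.sum_mul]))
    rintro (i | i)
    exacts [this.1 i, this.2 i]
  · have := ind (fun i => r (Sum.inr i)) (fun i => r (Sum.inl i)) (s4 Q _ _ (by
      rw [← hr, Fintype.sum_sum_type]
      simp only [Sum.elim_inl, Sum.elim_inr, cu_comb, ← mul_assoc, ← Finset.sum_mul]))
    rintro (i | i)
    exacts [this.2 i, this.1 i]

variable (k : Type) [Field k] [CharP k 3]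

theorem three_k : (3 : k) = 0 := by exact_mod_cast CharP.cast_eq_zero k 3

/-- the ground ring -/
noncomputable def S0 : DR (Polynomial k) where
  p := Polynomial.X
  D := 0
  three := by rw [← map_ofNat (Polynomial.C : k →+* Polynomial k) 3, three_k, map_zero]
  Dp := rfl
  cube := fun a => by simp

theorem pres0 : Pres (S0 k) (Polynomial.C : k →+* Polynomial k) (fun _ : Unit => 1)
    (fun i : Empty => i.elim) := by
  have hN : ∀ q, (S0 k).N q = Polynomial.X * q := fun q => by simp [DR.N, S0]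
  refine ⟨fun _ => rfl, fun a _ => ⟨a.divX, fun _ => a.coeff 0, ?_⟩, fun a ha => ?_,
    fun q r hr i => ?_, fun _ _ _ i => i.elim⟩
  · rw [hN]
    simp [Polynomial.X_mul_divX_add]
  · rw [hN] at ha
    exact ⟨0, fun i => i.elim, by simpa using ha⟩
  · rw [hN] at hr
    have := congrArg (fun u => Polynomial.coeff u 0) hr
    simpa using this

/-- the three-fold extension -/
abbrev A3 : Type := MvPolynomial (Fin 2) (MvPolynomial (Fin 2) (MvPolynomial (Fin 2) (Polynomial k)))

/-- from the model to the tower -/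
noncomputable def psi : MvPolynomial (Fin 7) k →+* A3 k :=
  eval₂Hom (C.comp (C.comp (C.comp Polynomial.C)))
    ![X 0, C (C (C Polynomial.X)), X 1, C (X 0), C (X 1), C (C (X 0)), C (C (X 1))]

/-- from the tower to the model -/
noncomputable def phi : A3 k →+* MvPolynomial (Fin 7) k :=
  eval₂Hom (eval₂Hom (eval₂Hom (Polynomial.eval₂RingHom C (X 1)) ![X 5, X 6]) ![X 3, X 4])
    ![X 0, X 2]

omit [CharP k 3] in
theorem phi_psi (P : MvPolynomial (Fin 7) k) : phi k (psi k P) = P := by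
  have : (phi k).comp (psi k) = RingHom.id _ := by
    refine ringHom_ext (fun c => by simp [phi, psi]) fun i => ?_
    fin_cases i <;> simp [phi, psi]
  exact DFunLike.congr_fun this P

omit [CharP k 3] in
theorem psi_phi (P : A3 k) : psi k (phi k P) = P := by
  have : (psi k).comp (phi k) = RingHom.id _ := by
    refine ringHom_ext' (ringHom_ext' (ringHom_ext' ?_ fun i => ?_) fun i => ?_) fun i => ?_
    · ext c <;> simp [phi, psi]
    all_goals fin_cases i <;> simp [phi, psi]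
  exact DFunLike.congr_fun this P

omit [CharP k 3] in
theorem dd_mul (P Q : MvPolynomial (Fin 7) k) : dd k (P * Q) = dd k P * Q + P * dd k Q := by
  rw [Derivation.leibniz, smul_eq_mul, smul_eq_mul]; ring

omit [CharP k 3] in
theorem px_injective : Function.Injective (px k) := by
  have : px k = rename ![0, 3, 5] := by
    refine algHom_ext fun i => ?_
    fin_cases i <;> simp [px, xx]
  rw [this]
  exact rename_injective _ (by decide)

theorem cube_add (P Q : MvPolynomial (Fin 7) k) : (P + Q) ^ 3 = P ^ 3 + Q ^ 3 := by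
  have : (3 : MvPolynomial (Fin 7) k) = 0 := by
    rw [← map_ofNat (C : k →+* MvPolynomial (Fin 7) k) 3, three_k, map_zero]
  linear_combination (P ^ 2 * Q + P * Q ^ 2) * this

/-- the constants -/
noncomputable def j3 : Polynomial (Polynomial (Polynomial k)) →+* MvPolynomial (Fin 7) k :=
  (phi k).comp (jx (jx (jx Polynomial.C)))

omit [CharP k 3] in
theorem jx_C {A R : Type} [CommRing A] [CommRing R] (j : R →+* A) (r : R) :
    jx j (Polynomial.C r) = C (j r) := by rw [jx_apply, Polynomial.map_C, cu_C]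

omit [CharP k 3] in
theorem jx_X {A R : Type} [CommRing A] [CommRing R] (j : R →+* A) :
    jx j Polynomial.X = X 0 ^ 3 := by rw [jx_apply, Polynomial.map_X, cu_X]

theorem exists_j3 (b : MvPolynomial (Fin 3) k) : ∃ r, j3 k r = px k b ^ 3 := by
  induction b using MvPolynomial.induction_on with
  | C c =>
    exact ⟨Polynomial.C (Polynomial.C (Polynomial.C (c ^ 3))), by simp [j3, jx_C, phi, px]⟩
  | add b b' h h' =>
    obtain ⟨r, hr⟩ := h
    obtain ⟨r', hr'⟩ := h'
    exact ⟨r + r', by rw [map_add, map_add, cube_add, hr, hr']⟩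
  | mul_X b i h =>
    obtain ⟨r, hr⟩ := h
    obtain ⟨r', hr'⟩ : ∃ r', j3 k r' = px k (X i) ^ 3 := by
      fin_cases i
      · exact ⟨Polynomial.X, by simp [j3, jx_X, phi, px, xx]⟩
      · exact ⟨Polynomial.C Polynomial.X, by simp [j3, jx_C, jx_X, phi, px, xx]⟩
      · exact ⟨Polynomial.C (Polynomial.C Polynomial.X), by simp [j3, jx_C, jx_X, phi, px, xx]⟩
    exact ⟨r * r', by rw [map_mul, map_mul, mul_pow, hr, hr']⟩

theorem cube_poly {R : Type} [CommRing R] (f : Polynomial R →+* MvPolynomial (Fin 7) k)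
    (hC : ∀ r, ∃ b, f (Polynomial.C r) = px k b ^ 3) (hX : ∃ b, f Polynomial.X = px k b ^ 3)
    (ρ : Polynomial R) : ∃ b, f ρ = px k b ^ 3 := by
  induction ρ using Polynomial.induction_on' with
  | add u v hu hv =>
    obtain ⟨b, hb⟩ := hu
    obtain ⟨b', hb'⟩ := hv
    exact ⟨b + b', by rw [map_add, map_add, cube_add, hb, hb']⟩
  | monomial n r =>
    obtain ⟨b, hb⟩ := hC r
    obtain ⟨b', hb'⟩ := hX
    exact ⟨b * b' ^ n, by
      rw [← Polynomial.C_mul_X_pow_eq_monomial, map_mul, map_pow, hb, hb', map_mul, map_pow]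
      ring⟩

theorem exists_b [PerfectRing k 3] (r : Polynomial (Polynomial (Polynomial k))) :
    ∃ b, j3 k r = px k b ^ 3 := by
  refine cube_poly k (j3 k) (fun r => ?_) ⟨X 0, by simp [j3, jx_X, phi, px, xx]⟩ r
  refine cube_poly k ((j3 k).comp Polynomial.C) (fun r => ?_)
    ⟨X 1, by simp [j3, jx_C, jx_X, phi, px, xx]⟩ r
  refine cube_poly k (((j3 k).comp Polynomial.C).comp Polynomial.C) (fun c => ?_)
    ⟨X 2, by simp [j3, jx_C, jx_X, phi, px, xx]⟩ r
  have : Fact (Nat.Prime 3) := ⟨Nat.prime_three⟩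
  obtain ⟨c, rfl⟩ := (PerfectRing.bijective_frobenius (R := k) (p := 3)).2 c
  exact ⟨C c, by simp [j3, jx_C, phi, px, frobenius_def]⟩

omit [CharP k 3] in
theorem psi_X (i : Fin 7) : psi k (X i) = (![X 0, C (C (C Polynomial.X)), X 1, C (X 0), C (X 1),
    C (C (X 0)), C (C (X 1))] : Fin 7 → A3 k) i := eval₂Hom_X' _ _ i

omit [CharP k 3] in
theorem psi_C (c : k) : psi k (C c) = C (C (C (Polynomial.C c))) := eval₂Hom_C _ _ c

omit [CharP k 3] in
theorem dd_X (i : Fin 7) : dd k (X i) = (![X 2, 0, - (X 1 * X 0), X 4, - (X 1 * X 3), X 6,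
    - (X 1 * X 5)] : Fin 7 → MvPolynomial (Fin 7) k) i := mkDerivation_X _ _ i

theorem psi_dd {S1 : DR _} {S2 : DR _} {S3 : DR _} (E1 : Ext (S0 k) S1) (E2 : Ext S1 S2)
    (E3 : Ext S2 S3) (P : MvPolynomial (Fin 7) k) : psi k (dd k P) = S3.D (psi k P) := by
  have h0 : ∀ a, (S0 k).D a = 0 := fun _ => rfl
  have p0 : (S0 k).p = Polynomial.X := rfl
  have x0 : psi k (X 0) = X 0 := psi_X k 0
  have x1 : psi k (X 1) = C (C (C Polynomial.X)) := psi_X k 1
  have x2 : psi k (X 2) = X 1 := psi_X k 2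
  have x3 : psi k (X 3) = C (X 0) := psi_X k 3
  have x4 : psi k (X 4) = C (X 1) := psi_X k 4
  have x5 : psi k (X 5) = C (C (X 0)) := psi_X k 5
  have x6 : psi k (X 6) = C (C (X 1)) := psi_X k 6
  have hX : ∀ i, psi k (dd k (X i)) = S3.D (psi k (X i)) := by
    intro i
    rw [dd_X]
    match i with
    | 0 => rw [x0, E3.x]; exact x2
    | 1 => rw [x1, E3.c, E2.c, E1.c, h0, map_zero, map_zero, map_zero]; exact map_zero _
    | 2 =>
      rw [x2, E3.a, E2.p, E1.p, p0, ← x1, ← x0, ← map_mul, ← map_neg]; rfl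
    | 3 => rw [x3, E3.c, E2.x]; exact x4
    | 4 =>
      rw [x4, E3.c, E2.a, E1.p, p0, map_neg, map_mul, ← x1, ← x3, ← map_mul, ← map_neg]; rfl
    | 5 => rw [x5, E3.c, E2.c, E1.x]; exact x6
    | 6 =>
      rw [x6, E3.c, E2.c, E1.a, p0, map_neg, map_neg, map_mul, map_mul, ← x1, ← x5, ← map_mul,
        ← map_neg]; rfl
  induction P using MvPolynomial.induction_on with
  | C c =>
    rw [psi_C, E3.c, E2.c, E1.c, h0, map_zero, map_zero, map_zero, dd, derivation_C, map_zero]
  | add P Q hP hQ => rw [map_add, map_add, map_add, map_add, hP, hQ]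
  | mul_X P i hP => rw [dd_mul, map_add, map_mul, map_mul, map_mul, D_mul, hP, hX]

end Gr

open Gr Step

theorem gr (he : EXT) (hs : STEP) : GR := by
  intro k _ _ _
  obtain ⟨S1, E1⟩ := he _ (S0 k)
  obtain ⟨S2, E2⟩ := he _ S1
  obtain ⟨S3, E3⟩ := he _ S2
  have h := pres_step hs E3 (pres_step hs E2 (pres_step hs E1 (pres0 k)))
  have hp : S3.p = psi k (X 1) := by
    rw [E3.p, E2.p, E1.p]; simp [psi, S0]
  have h0 : ∀ a, (S0 k).D a = 0 := fun _ => rfl
  have hD := psi_dd k E1 E2 E3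
  have hD' : ∀ Q, phi k (S3.D Q) = dd k (phi k Q) := fun Q => by
    conv_lhs => rw [← psi_phi k Q, ← hD, phi_psi]
  have hN : ∀ P, psi k (nn k P) = S3.N (psi k P) := fun P => by
    rw [nn, DR.N, map_add, map_mul, hD, hD, hp]
  have hN' : ∀ Q, phi k (S3.N Q) = nn k (phi k Q) := fun Q => by
    conv_lhs => rw [← psi_phi k Q, ← hN, phi_psi]
  have hj : ∀ r, phi k (jx (jx (jx Polynomial.C)) r) = j3 k r := fun _ => rfl
  have hinj : Function.Injective (phi k) := Function.LeftInverse.injective (psi_phi k)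
  have hz : ∀ b r, j3 k r = px k b ^ 3 → r = 0 → b = 0 := fun b r e hr => by
    rw [hr, map_zero] at e
    exact px_injective k (by rw [map_zero]; exact pow_eq_zero_iff (by norm_num) |>.1 e.symm)
  have y0 : phi k (X 0) = X 0 := phi_psi k (X 0) ▸ congrArg (phi k) (psi_X k 0).symm
  have y2 : phi k (X 1) = X 2 := phi_psi k (X 2) ▸ congrArg (phi k) (psi_X k 2).symm
  have y3 : phi k (C (X 0)) = X 3 := phi_psi k (X 3) ▸ congrArg (phi k) (psi_X k 3).symm
  have y4 : phi k (C (X 1)) = X 4 := phi_psi k (X 4) ▸ congrArg (phi k) (psi_X k 4).symm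
  have y5 : phi k (C (C (X 0))) = X 5 := phi_psi k (X 5) ▸ congrArg (phi k) (psi_X k 5).symm
  have y6 : phi k (C (C (X 1))) = X 6 := phi_psi k (X 6) ▸ congrArg (phi k) (psi_X k 6).symm
  choose bb hbb using exists_b k
  choose rr hrr using exists_j3 k
  refine ⟨fun P hP => ?_, fun P hP => ?_, fun Q b c e => ?_, fun Q b c e => ?_⟩
  · obtain ⟨q, r, e⟩ := h.gen0 (psi k P) (by rw [← hD, hP, map_zero])
    refine ⟨phi k q, bb (r (.inl (.inl (.inl ())))), ![bb (r (.inl (.inr (.inr ())))),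
      bb (r (.inr (.inl (.inr ())))), bb (r (.inr (.inr (.inl ()))))], ?_⟩
    have := congrArg (phi k) e
    rw [phi_psi, map_add, hN', map_sum] at this
    simp only [map_mul, hj, hbb] at this
    rw [this]
    simp [Fintype.sum_sum_type, Fin.sum_univ_three, sg, E2.c, E2.x, E1.x, y0, y2, y3, y4, y5, y6]
    ring
  · obtain ⟨q, r, e⟩ := h.gen1 (psi k P) (by rw [← hN, hP, map_zero])
    refine ⟨phi k q, bb (r (.inr (.inr (.inr ())))), ![bb (r (.inr (.inl (.inl ())))),
      bb (r (.inl (.inr (.inl ())))), bb (r (.inl (.inl (.inr ()))))], ?_⟩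
    have := congrArg (phi k) e
    rw [phi_psi, map_add, hD', map_sum] at this
    simp only [map_mul, hj, hbb] at this
    rw [this]
    simp [Fintype.sum_sum_type, Fin.sum_univ_three, sg, xx, E1.x, y0, y3, y4, y5, y6]
    ring
  · have := h.ind0 (psi k Q) (Sum.elim
      (Sum.elim (Sum.elim (fun _ => rr b) Empty.elim) (Sum.elim Empty.elim fun _ => rr (c 0)))
      (Sum.elim (Sum.elim Empty.elim fun _ => rr (c 1)) (Sum.elim (fun _ => rr (c 2)) Empty.elim)))
      (hinj (by
        rw [hN', phi_psi, ← e, map_sum]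
        simp only [map_mul, hj]
        simp [Fintype.sum_sum_type, Fin.sum_univ_three, sg, E2.c, E2.x, E1.x, y0, y2, y3, y4, y5,
          y6, hrr]
        ring))
    refine ⟨hz _ _ (hrr b) (this (.inl (.inl (.inl ())))), fun j => hz _ _ (hrr _) ?_⟩
    fin_cases j
    exacts [this (.inl (.inr (.inr ()))), this (.inr (.inl (.inr ()))),
      this (.inr (.inr (.inl ())))]
  · have := h.ind1 (psi k Q) (Sum.elim
      (Sum.elim (Sum.elim Empty.elim fun _ => rr (c 2)) (Sum.elim (fun _ => rr (c 1)) Empty.elim))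
      (Sum.elim (Sum.elim (fun _ => rr (c 0)) Empty.elim) (Sum.elim Empty.elim fun _ => rr b)))
      (hinj (by
        rw [hD', phi_psi, ← e, map_sum]
        simp only [map_mul, hj]
        simp [Fintype.sum_sum_type, Fin.sum_univ_three, sg, xx, E1.x, y0, y3, y4, y5, y6, hrr]
        ring))
    refine ⟨hz _ _ (hrr b) (this (.inr (.inr (.inr ())))), fun j => hz _ _ (hrr _) ?_⟩
    fin_cases j
    exacts [this (.inr (.inl (.inl ()))), this (.inl (.inr (.inl ()))),
      this (.inl (.inl (.inr ())))]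

end Vale.Agent.P236Z.Tate
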