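import Vale.Agent.P236Z.Tate.Gr
import Mathlib.RingTheory.MvPolynomial.EulerIdentity

/-!
# P236, block TATE: the cohomology of the graded model, degree by degree
-/

namespace Vale.Agent.P236Z.Tate

open MvPolynomial

namespace Grh

open Gr

section
variable {k σ τ M : Type} [CommRing k] [AddCommMonoid M] {w : σ → M} {w' : τ → M}
  (f : MvPolynomial σ k →+ MvPolynomial τ k) (φ : M → M)
  (hf : ∀ m P, IsWeightedHomogeneous w P m → IsWeightedHomogeneous w' (f P) (φ m))
include hf

theorem comp_map (hφ : Function.Injective φ) (m : M) (Q : MvPolynomial σ k) :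
    weightedHomogeneousComponent w' (φ m) (f Q) = f (weightedHomogeneousComponent w m Q) := by
  induction Q using MvPolynomial.induction_on' with
  | monomial μ c =>
    have h := isWeightedHomogeneous_monomial w μ c rfl
    by_cases e : m = Finsupp.weight w μ
    · subst e
      rw [h.weightedHomogeneousComponent_same, (hf _ _ h).weightedHomogeneousComponent_same]
    · rw [h.weightedHomogeneousComponent_ne _ e,
        (hf _ _ h).weightedHomogeneousComponent_ne _ (hφ.ne e), map_zero]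
  | add P Q hP hQ => rw [map_add, map_add, map_add, map_add, hP, hQ]

theorem comp_map_zero (n : M) (hn : ∀ m, n ≠ φ m) (Q : MvPolynomial σ k) :
    weightedHomogeneousComponent w' n (f Q) = 0 := by
  induction Q using MvPolynomial.induction_on' with
  | monomial μ c =>
    exact (hf _ _ (isWeightedHomogeneous_monomial w μ c rfl)).weightedHomogeneousComponent_ne _
      (hn _)
  | add P Q hP hQ => rw [map_add, map_add, hP, hQ, add_zero]

end

variable {k : Type} [Field k]

theorem wh_cast {P : MvPolynomial (Fin 7) k} {m n : ℤ × ℤ} (h : IsWeightedHomogeneous om P m)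
    (e : m = n) : IsWeightedHomogeneous om P n := e ▸ h

theorem wh_X (i : Fin 7) : IsWeightedHomogeneous om (X i : MvPolynomial (Fin 7) k) (om i) :=
  isWeightedHomogeneous_X _ _ _

theorem wh_ddX (i : Fin 7) : IsWeightedHomogeneous om (dd k (X i)) (om i + (1, 0)) := by
  rw [dd_X]
  fin_cases i
  · exact wh_cast (wh_X 2) (by decide)
  · exact isWeightedHomogeneous_zero _ _ _
  · exact wh_cast ((wh_X 1).mul (wh_X 0)).neg (by decide)
  · exact wh_cast (wh_X 4) (by decide)
  · exact wh_cast ((wh_X 1).mul (wh_X 3)).neg (by decide)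
  · exact wh_cast (wh_X 6) (by decide)
  · exact wh_cast ((wh_X 1).mul (wh_X 5)).neg (by decide)

theorem dd_eq (P : MvPolynomial (Fin 7) k) : dd k P = ∑ i, dd k (X i) * pderiv i P := by
  induction P using MvPolynomial.induction_on with
  | C a => simp
  | add P Q hP hQ => simp only [map_add, mul_add, Finset.sum_add_distrib, ← hP, ← hQ]
  | mul_X P j hP =>
    simp only [dd_mul, pderiv_mul, mul_add, Finset.sum_add_distrib, ← mul_assoc, ← Finset.sum_mul,
      ← hP]
    rw [Finset.sum_eq_single j (fun i _ hi => by rw [pderiv_X_of_ne hi.symm, mul_zero])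
      (fun h => absurd (Finset.mem_univ _) h), pderiv_X_self, mul_one, mul_comm P]

theorem wh_dd (m : ℤ × ℤ) (P : MvPolynomial (Fin 7) k) (h : IsWeightedHomogeneous om P m) :
    IsWeightedHomogeneous om (dd k P) (m + (1, 0)) := by
  rw [dd_eq]
  refine IsWeightedHomogeneous.sum _ _ _ fun i _ => ?_
  exact wh_cast ((wh_ddX i).mul (h.pderiv (n' := m - om i) (sub_add_cancel _ _))) (by abel)

theorem wh_nn (m : ℤ × ℤ) (P : MvPolynomial (Fin 7) k) (h : IsWeightedHomogeneous om P m) :
    IsWeightedHomogeneous om (nn k P) (m + (2, 0)) :=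
  (wh_cast (wh_dd _ _ (wh_dd _ _ h)) (by rw [add_assoc]; rfl)).add
    (wh_cast ((wh_X 1).mul h) (by rw [add_comm]; rfl))

theorem comp_dd (n D : ℤ) (Q : MvPolynomial (Fin 7) k) :
    weightedHomogeneousComponent om (n, D) (dd k Q) =
      dd k (weightedHomogeneousComponent om (n - 1, D) Q) := by
  have := comp_map (AddMonoidHom.mk' (dd k) (map_add _)) (· + (1, 0)) wh_dd
    (add_left_injective _) (n - 1, D) Q
  simpa using this

theorem comp_nn (n D : ℤ) (Q : MvPolynomial (Fin 7) k) :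
    weightedHomogeneousComponent om (n, D) (nn k Q) =
      nn k (weightedHomogeneousComponent om (n - 2, D) Q) := by
  have := comp_map (AddMonoidHom.mk' (nn k) fun a b => by simp only [nn, map_add]; ring)
    (· + (2, 0)) wh_nn (add_left_injective _) (n - 2, D) Q
  simpa using this

/-- weights and degrees of `x₀, x₁, x₂` -/
def om3 : Fin 3 → ℤ × ℤ := ![(0, 1), (3, 1), (6, 1)]

theorem wh_xx (j : Fin 3) : IsWeightedHomogeneous om (xx k j) (om3 j) := by
  fin_cases j
  · exact wh_X 0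
  · exact wh_X 3
  · exact wh_X 5

theorem wh_px {m : ℤ × ℤ} {b : MvPolynomial (Fin 3) k} (h : IsWeightedHomogeneous om3 b m) :
    IsWeightedHomogeneous om (px k b) m := by
  induction h using IsWeightedHomogeneous.induction_on with
  | zero => rw [map_zero]; exact isWeightedHomogeneous_zero _ _ _
  | add p q _ _ hp hq => rw [map_add]; exact hp.add hq
  | monomial d r hr =>
    rw [px, aeval_monomial, ← hr, Finsupp.weight_apply]
    exact IsWeightedHomogeneous.C_mul (IsWeightedHomogeneous.prod _ _ _ fun i _ =>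
      (wh_xx i).pow _) _

theorem wh_sg (j : Fin 3) : IsWeightedHomogeneous om (sg k j) ((![10, 7, 4] : Fin 3 → ℤ) j, 2) := by
  fin_cases j
  · exact (wh_cast ((wh_X 4).mul (wh_X 5)) (by decide)).sub
      (wh_cast ((wh_X 3).mul (wh_X 6)) (by decide))
  · exact (wh_cast ((wh_X 2).mul (wh_X 5)) (by decide)).sub
      (wh_cast ((wh_X 0).mul (wh_X 6)) (by decide))
  · exact (wh_cast ((wh_X 2).mul (wh_X 3)) (by decide)).sub
      (wh_cast ((wh_X 0).mul (wh_X 4)) (by decide))

theorem wh_xx' (j : Fin 3) : IsWeightedHomogeneous om (xx k j) ((![0, 3, 6] : Fin 3 → ℤ) j, 1) :=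
  wh_cast (wh_xx j) (by fin_cases j <;> rfl)

theorem wh_top : IsWeightedHomogeneous om (X 0 * sg k 0) (10, 3) :=
  wh_cast ((wh_X 0).mul (wh_sg 0)) (by decide)

theorem wh_one : IsWeightedHomogeneous om (1 : MvPolynomial (Fin 7) k) (0, 0) :=
  isWeightedHomogeneous_one _ _

variable [CharP k 3] {G : MvPolynomial (Fin 7) k} {c g : ℤ}

/-- cubes times `G` -/
noncomputable def cb (G : MvPolynomial (Fin 7) k) :
    MvPolynomial (Fin 3) k →+ MvPolynomial (Fin 7) k :=
  AddMonoidHom.mk' (fun b => px k b ^ 3 * G) fun a b => by rw [map_add, cube_add, add_mul]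

theorem wh_cb (hG : IsWeightedHomogeneous om G (c, g)) (m : ℤ × ℤ) (b : MvPolynomial (Fin 3) k)
    (h : IsWeightedHomogeneous om3 b m) :
    IsWeightedHomogeneous om (cb G b) (3 * m.1 + c, 3 * m.2 + g) :=
  wh_cast (((wh_px h).pow 3).mul hG) (by ext <;> simp)

theorem bad (hG : IsWeightedHomogeneous om G (c, g)) (b : MvPolynomial (Fin 3) k) (n D : ℤ)
    (h : ¬ (3 ∣ n - c ∧ 3 ∣ D - g)) :
    weightedHomogeneousComponent om (n, D) (px k b ^ 3 * G) = 0 :=
  comp_map_zero (cb G) _ (wh_cb hG) (n, D) (fun m hm => h (by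
    rw [Prod.mk.injEq] at hm; omega)) b

theorem good (hG : IsWeightedHomogeneous om G (c, g)) (b : MvPolynomial (Fin 3) k) (n D e : ℤ)
    (h : D = 3 * e + g) : ∃ (ρ : MvPolynomial (Fin 3) k) (m : ℤ),
      (IsWeightedHomogeneous om (px k ρ) (m, e) ∧ (3 * m + c = n ∨ ρ = 0)) ∧
      weightedHomogeneousComponent om (n, D) (px k b ^ 3 * G) = px k ρ ^ 3 * G := by
  by_cases h3 : 3 ∣ n - c
  · obtain ⟨m, hm⟩ := h3
    refine ⟨weightedHomogeneousComponent om3 (m, e) b, m,
      ⟨wh_px (weightedHomogeneousComponent_isWeightedHomogeneous _ _), Or.inl (by omega)⟩, ?_⟩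
    rw [h, show n = 3 * m + c by omega]
    exact comp_map (cb G) _ (wh_cb hG) (fun x y hxy => by
      rw [Prod.mk.injEq] at hxy
      exact Prod.ext (by omega) (by omega)) (m, e) b
  · exact ⟨0, 0, ⟨by rw [map_zero]; exact isWeightedHomogeneous_zero _ _ _, Or.inr rfl⟩, by
      rw [bad hG b n D fun h => h3 h.1]; simp⟩

end Grh

open Grh

theorem grh (h : GR) : GRH := by
  intro k _ _ _ e
  obtain ⟨g0, g1, i0, i1⟩ := h k
  have A0 : ∀ n D P, IsWeightedHomogeneous om P (n, D) → dd k P = 0 →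
      ∃ (Q : MvPolynomial (Fin 7) k) (b : MvPolynomial (Fin 3) k)
        (c : Fin 3 → MvPolynomial (Fin 3) k), IsWeightedHomogeneous om Q (n - 2, D) ∧
        P = nn k Q + weightedHomogeneousComponent om (n, D) (px k b ^ 3 * 1) +
          ∑ j, weightedHomogeneousComponent om (n, D) (px k (c j) ^ 3 * sg k j) := by
    intro n D P hP h0
    obtain ⟨Q, b, c, e⟩ := g0 P h0
    refine ⟨_, b, c, weightedHomogeneousComponent_isWeightedHomogeneous _ Q, ?_⟩
    rw [← comp_nn, mul_one, ← map_sum, ← map_add, ← map_add, ← e,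
      hP.weightedHomogeneousComponent_same]
  have A1 : ∀ n D P, IsWeightedHomogeneous om P (n, D) → nn k P = 0 →
      ∃ (Q : MvPolynomial (Fin 7) k) (b : MvPolynomial (Fin 3) k)
        (c : Fin 3 → MvPolynomial (Fin 3) k), IsWeightedHomogeneous om Q (n - 1, D) ∧
        P = dd k Q + weightedHomogeneousComponent om (n, D) (px k b ^ 3 * (X 0 * sg k 0)) +
          ∑ j, weightedHomogeneousComponent om (n, D) (px k (c j) ^ 3 * xx k j) := by
    intro n D P hP h0
    obtain ⟨Q, b, c, e⟩ := g1 P h0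
    refine ⟨_, b, c, weightedHomogeneousComponent_isWeightedHomogeneous _ Q, ?_⟩
    rw [← comp_dd, ← map_sum, ← map_add, ← map_add, ← e, hP.weightedHomogeneousComponent_same]
  refine ⟨⟨fun n P hP h0 => ?_, fun n P hP h0 => ?_, fun Q ρ e i => ?_, fun Q ρ e i => ?_⟩,
    ⟨fun n P hP h0 => ?_, fun n P hP h0 => ?_, fun Q ρ e i => i.elim, fun Q ρ e => ?_⟩,
    ⟨fun n P hP h0 => ?_, fun n P hP h0 => ?_, fun Q ρ e => ?_, fun Q ρ e i => i.elim⟩⟩
  · obtain ⟨Q, b, c, hQ, e1⟩ := A0 n _ P hP h0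
    obtain ⟨ρ, m, h1, h2⟩ := good wh_one b n (3 * e) e (by omega)
    refine ⟨Q, fun _ => ρ, fun _ => m, hQ, fun _ => h1, ?_⟩
    rw [e1, h2, Finset.sum_eq_zero fun j _ => bad (wh_sg j) _ _ _ (by omega)]
    simp
  · obtain ⟨Q, b, c, hQ, e1⟩ := A1 n _ P hP h0
    obtain ⟨ρ, m, h1, h2⟩ := good wh_top b n (3 * e) (e - 1) (by omega)
    refine ⟨Q, fun _ => ρ, fun _ => m, hQ, fun _ => h1, ?_⟩
    rw [e1, h2, Finset.sum_eq_zero fun j _ => bad (wh_xx' j) _ _ _ (by omega)]
    simp
  · exact (i0 Q (ρ i) 0 (by simpa using e)).1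
  · exact (i1 Q (ρ i) 0 (by simpa using e)).1
  · obtain ⟨Q, b, c, hQ, e1⟩ := A0 n _ P hP h0
    refine ⟨Q, fun i => i.elim, fun i => i.elim, hQ, fun i => i.elim, ?_⟩
    rw [e1, bad wh_one _ _ _ (by omega),
      Finset.sum_eq_zero fun j _ => bad (wh_sg j) _ _ _ (by omega)]
    simp
  · obtain ⟨Q, b, c, hQ, e1⟩ := A1 n _ P hP h0
    choose ρ m h1 h2 using fun j => good (wh_xx' j) (c j) n (3 * e + 1) e rfl
    refine ⟨Q, ρ, m, hQ, h1, ?_⟩
    rw [e1, bad wh_top _ _ _ (by omega), add_zero, Finset.sum_congr rfl fun j _ => h2 j]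
  · exact (i1 Q 0 ρ (by simpa using e)).2
  · obtain ⟨Q, b, c, hQ, e1⟩ := A0 n _ P hP h0
    choose ρ m h1 h2 using fun j => good (wh_sg j) (c j) n (3 * e + 2) e rfl
    refine ⟨Q, ρ, m, hQ, h1, ?_⟩
    rw [e1, bad wh_one _ _ _ (by omega), add_zero, Finset.sum_congr rfl fun j _ => h2 j]
  · obtain ⟨Q, b, c, hQ, e1⟩ := A1 n _ P hP h0
    refine ⟨Q, fun i => i.elim, fun i => i.elim, hQ, fun i => i.elim, ?_⟩
    rw [e1, bad wh_top _ _ _ (by omega),
      Finset.sum_eq_zero fun j _ => bad (wh_xx' j) _ _ _ (by omega)]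
    simp
  · exact (i0 Q 0 ρ (by simpa using e)).2

end Vale.Agent.P236Z.Tate
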