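import Vale.Agent.P236Z.Tate.Sk
import Mathlib.RingTheory.Nakayama

/-!
# P236, block TATE: the height of `ζ₃ - 1` and the fixed points
-/

namespace Vale.Agent.P236Z.Tate

open Vale.Agent.P251.F Vale.Agent.P217 IsLocalRing

namespace Ht

section FG

variable {B : Type} [CommRing B] {G : FormalGroup B}

/-- the sum of two series in a formal group -/
theorem add_decomp (G : FormalGroup B) {x y : PowerSeries B} (hx : PowerSeries.HasSubst x)
    (hy : PowerSeries.HasSubst y) : ∃ u : PowerSeries B,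
      (MvPowerSeries.subst ![x, y] G.toPowerSeries : PowerSeries B) = x + y + x * y * u := by
  obtain ⟨H, hH⟩ := exists_FG_decomp G
  have hS : MvPowerSeries.HasSubst ![x, y] := hasSubst_pair hx hy
  refine ⟨MvPowerSeries.subst ![x, y] H, ?_⟩
  rw [hH, MvPowerSeries.subst_add hS, MvPowerSeries.subst_add hS, MvPowerSeries.subst_mul hS,
    MvPowerSeries.subst_mul hS, MvPowerSeries.subst_X hS, MvPowerSeries.subst_X hS]
  rfl

theorem pt_add (x y : G.Point Unit) : ∃ u : PowerSeries B,
    ((x + y).val : PowerSeries B) = x.val + y.val + x.val * y.val * u :=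
  add_decomp G x.prop y.prop

theorem isHom_iota [G.IsComm] : IsHom G G (iota G) := by
  refine IsHom.ofPtL (constantCoeff_iota G) ?_
  have h := neg_add (ptX G (0 : Fin 2)) (ptX G 1)
  exact congrArg Subtype.val h

theorem subst_pt (y : G.Point Unit) {a b : PowerSeries B} (ha : PowerSeries.HasSubst a)
    (hb : PowerSeries.HasSubst b) :
    (PowerSeries.subst y.val (MvPowerSeries.subst ![a, b] G.toPowerSeries : PowerSeries B) :
      PowerSeries B) = MvPowerSeries.subst
        ![(PowerSeries.subst y.val a : PowerSeries B), PowerSeries.subst y.val b]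
        G.toPowerSeries := by
  rw [PowerSeries.subst, subst_pair_subst ha hb y.prop.const]
  rfl

/-- an endomorphism minus the identity -/
theorem exists_pi [G.IsComm] {l : PowerSeries B} (hl : IsHom G G l) :
    ∃ (π : PowerSeries B) (hπ : IsHom G G π),
      (∃ u : PowerSeries B, l = π + PowerSeries.X + π * PowerSeries.X * u) ∧
      ∀ y : G.Point Unit, homPt l hl y = homPt π hπ y + y := by
  have hπ := hl.addL (isHom_iota (G := G))
  have key : ∀ y : G.Point Unit, homPt l hl y = homPt _ hπ y + y := by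
    intro y
    have e : homPt _ hπ y = homPt l hl y + -y := by
      apply Subtype.ext
      exact subst_pt y (hasSubst_of_cc hl.1) (hasSubst_of_cc (constantCoeff_iota G))
    rw [e, neg_add_cancel_right]
  refine ⟨_, hπ, ?_, key⟩
  obtain ⟨u, hu⟩ := pt_add (homPt _ hπ (ptX G ())) (ptX G ())
  rw [← key] at hu
  have e : ∀ g : PowerSeries B, (PowerSeries.subst (MvPowerSeries.X () : MvPowerSeries Unit B) g :
      PowerSeries B) = g := fun g => PowerSeries.X_subst g
  rw [homPt_val, homPt_val, ptX_val, e, e] at hu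
  exact ⟨u, hu⟩

theorem coeff_of_decomp {l π u : PowerSeries B}
    (h : l = π + PowerSeries.X + π * PowerSeries.X * u) {q : ℕ}
    (hq : PowerSeries.X ^ q ∣ π) {j : ℕ} (hj : j ≤ q) :
    PowerSeries.coeff j l = PowerSeries.coeff j π + PowerSeries.coeff j PowerSeries.X := by
  have h1 : (PowerSeries.X : PowerSeries B) ^ (q + 1) ∣ π * PowerSeries.X * u := by
    rw [pow_succ]
    exact Dvd.dvd.mul_right (mul_dvd_mul hq dvd_rfl) u
  rw [h, map_add, map_add, PowerSeries.X_pow_dvd_iff.1 h1 j (by omega), add_zero]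

theorem dvd_of_vanish [CharP B 3] {F : FormalGroup B} {π : PowerSeries B} (hπ : IsHom F G π)
    (k : ℕ) (hv : ∀ i < k, PowerSeries.coeff (3 ^ i) π = 0) : PowerSeries.X ^ (3 ^ k) ∣ π := by
  obtain ⟨V, hV, hh⟩ := exists_V_of_vanish 3 hπ k hv
  obtain ⟨W, hW⟩ := PowerSeries.X_dvd_iff.2 hh.1
  have hs : PowerSeries.HasSubst (PowerSeries.X ^ (3 ^ k) : PowerSeries B) :=
    PowerSeries.HasSubst.X_pow (by positivity)
  rw [hV, hW, PowerSeries.subst_mul hs, PowerSeries.subst_X hs]
  exact Dvd.intro _ rfl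

/-- the first coefficients of `π` -/
theorem pi_vanish [CharP B 3] {l π u : PowerSeries B} (hπ : IsHom G G π)
    (h : l = π + PowerSeries.X + π * PowerSeries.X * u) (h1 : PowerSeries.coeff 1 l = 1) (a : ℕ)
    (hv : ∀ i, 1 ≤ i → i < a → PowerSeries.coeff (3 ^ i) l = 0) :
    ∀ i < a, PowerSeries.coeff (3 ^ i) π = 0 := by
  induction a with
  | zero => intro i hi; omega
  | succ a ih =>
    intro i hi
    have ih' := ih fun i h1 h2 => hv i h1 (by omega)
    rcases Nat.lt_succ_iff_lt_or_eq.1 hi with h' | rfl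
    · exact ih' i h'
    have e := coeff_of_decomp h (dvd_of_vanish hπ i ih') le_rfl
    rcases Nat.eq_zero_or_pos i with rfl | hpos
    · rw [pow_zero] at e ⊢
      rw [h1, PowerSeries.coeff_one_X] at e
      exact add_eq_right.1 e.symm
    · have hne : 3 ^ i ≠ 1 := (Nat.one_lt_pow hpos.ne' (by norm_num)).ne'
      rw [hv i hpos hi, PowerSeries.coeff_X, if_neg hne, add_zero] at e
      exact e.symm

theorem pi_coeff [CharP B 3] {l π u : PowerSeries B} (hπ : IsHom G G π)
    (h : l = π + PowerSeries.X + π * PowerSeries.X * u) {a : ℕ} (ha : 0 < a)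
    (hv : ∀ i < a, PowerSeries.coeff (3 ^ i) π = 0) :
    PowerSeries.coeff (3 ^ a) π = PowerSeries.coeff (3 ^ a) l := by
  have hne : 3 ^ a ≠ 1 := (Nat.one_lt_pow ha.ne' (by norm_num)).ne'
  rw [coeff_of_decomp h (dvd_of_vanish hπ a hv) le_rfl, PowerSeries.coeff_X, if_neg hne, add_zero]

/-- a strict automorphism with a unit as first higher coefficient makes the height ideals
idempotent -/
theorem IF_le_sq [CharP B 3] [G.IsComm] {l : PowerSeries B} (hl : IsHom G G l)
    (h1 : PowerSeries.coeff 1 l = 1) {a : ℕ} (ha : 0 < a)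
    (hv : ∀ i, 1 ≤ i → i < a → PowerSeries.coeff (3 ^ i) l = 0)
    (hu : IsUnit (PowerSeries.coeff (3 ^ a) l)) (h : ℕ) : IF 3 G h ≤ IF 3 G h ^ 2 := by
  obtain ⟨π, hπ, ⟨u, hd⟩, -⟩ := exists_pi hl
  have hv' := pi_vanish hπ hd h1 a hv
  obtain ⟨V, hV, hh⟩ := exists_V_of_vanish 3 hπ a hv'
  have hc : PowerSeries.coeff 1 V = PowerSeries.coeff (3 ^ a) l := by
    rw [← pi_coeff hπ hd ha hv', hV, PowerSeries.coeff_subst_X_pow (by positivity), if_pos dvd_rfl,
      Nat.div_self (by positivity)]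
    rfl
  have hiso : IsIso (G.map (iterateFrobenius B 3 a)) G V := ⟨hh, hc ▸ hu⟩
  have e := IF_eq 3 hiso h
  rw [← IF_map] at e
  refine le_of_eq_of_le e.symm (Ideal.map_le_iff_le_comap.2 fun x hx => ?_)
  rw [Ideal.mem_comap, iterateFrobenius_def]
  refine Ideal.pow_le_pow_right ?_ (Ideal.pow_mem_pow hx (3 ^ a))
  exact Nat.one_lt_pow ha.ne' (by norm_num)

/-- order and leading coefficient of a composition -/
theorem subst_ord {A C : PowerSeries B} {a c : ℕ} (ha : 0 < a) (hA : PowerSeries.X ^ a ∣ A)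
    (hC : PowerSeries.X ^ c ∣ C) :
    PowerSeries.X ^ (a * c) ∣ (PowerSeries.subst A C : PowerSeries B) ∧
      PowerSeries.coeff (a * c) (PowerSeries.subst A C : PowerSeries B) =
        PowerSeries.coeff a A ^ c * PowerSeries.coeff c C := by
  have hA0 : PowerSeries.constantCoeff A = 0 :=
    PowerSeries.X_dvd_iff.1 ((dvd_pow_self _ ha.ne').trans hA)
  have hs : PowerSeries.HasSubst A := hasSubst_of_cc hA0
  obtain ⟨C', rfl⟩ := hC
  have hcc : PowerSeries.constantCoeff (PowerSeries.subst A C' : PowerSeries B) =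
      PowerSeries.constantCoeff C' :=
    HT_constantCoeff_subst_of_zero (c := fun _ : Unit => A) (fun _ => hA0) C'
  rw [PowerSeries.subst_mul hs, PowerSeries.subst_pow hs, PowerSeries.subst_X hs]
  generalize (PowerSeries.subst A C' : PowerSeries B) = D at hcc ⊢
  obtain ⟨A', rfl⟩ := hA
  have e : (PowerSeries.X ^ a * A') ^ c * D = PowerSeries.X ^ (a * c) * (A' ^ c * D) := by
    rw [mul_pow, ← pow_mul, mul_assoc]
  have k : ∀ (n : ℕ) (E : PowerSeries B), PowerSeries.coeff n (PowerSeries.X ^ n * E) =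
      PowerSeries.constantCoeff E := fun n E => by
    simpa using PowerSeries.coeff_X_pow_mul E n 0
  rw [e]
  refine ⟨Dvd.intro _ rfl, ?_⟩
  rw [k, k, k, map_mul, map_pow, hcc]

/-- the third power of a strict automorphism of a law of height at least four -/
theorem cube_coeff [CharP B 3] [G.IsComm] {l : PowerSeries B} (hl : IsHom G G l)
    (h1 : PowerSeries.coeff 1 l = 1) (hG : ∀ i < 4, vF 3 G i = 0) :
    PowerSeries.coeff 3 (PowerSeries.subst (PowerSeries.subst l l : PowerSeries B) l :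
        PowerSeries B) = 0 ∧
      PowerSeries.coeff 9 (PowerSeries.subst (PowerSeries.subst l l : PowerSeries B) l :
        PowerSeries B) = 0 ∧
      PowerSeries.coeff 27 (PowerSeries.subst (PowerSeries.subst l l : PowerSeries B) l :
        PowerSeries B) = PowerSeries.coeff 3 l ^ 13 := by
  obtain ⟨π, hπ, ⟨u, hd⟩, hZ⟩ := exists_pi hl
  have hv := pi_vanish hπ hd h1 1 fun i h1 h2 => by omega
  have h3 : PowerSeries.coeff 3 π = PowerSeries.coeff 3 l := pi_coeff hπ hd one_pos hv
  have hdv : PowerSeries.X ^ 3 ∣ π := dvd_of_vanish hπ 1 hv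
  have eX : ∀ g : PowerSeries B, (PowerSeries.subst (MvPowerSeries.X () : MvPowerSeries Unit B) g :
      PowerSeries B) = g := fun g => PowerSeries.X_subst g
  set P := homPt (σ := Unit) π hπ with hP
  set x := ptX G () with hx
  have e : homPt l hl (homPt l hl (homPt l hl x)) =
      (P (P (P x)) + 3 • (P (P x) + P x)) + x := by
    simp only [hZ, map_add]
    abel
  have v1 : ((P x).val : PowerSeries B) = π := eX π
  have v2 : ((P (P x)).val : PowerSeries B) = PowerSeries.subst π π := by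
    rw [hP, homPt_val, ← hP, v1]
  have v3 : ((P (P (P x))).val : PowerSeries B) =
      PowerSeries.subst (PowerSeries.subst π π : PowerSeries B) π := by
    rw [hP, homPt_val, ← hP, v2]
  obtain ⟨d2, c2⟩ := subst_ord (by norm_num) hdv hdv
  obtain ⟨d3, c3⟩ := subst_ord (by norm_num) d2 hdv
  have dm : PowerSeries.X ^ 81 ∣ multSeries G 3 :=
    PowerSeries.X_pow_dvd_iff.2 fun n hn => coeff_multSeries_lt 3 G 4 hG n hn
  have dy : (PowerSeries.X : PowerSeries B) ^ 1 ∣ (P (P x) + P x).val := by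
    obtain ⟨w, hw⟩ := pt_add (P (P x)) (P x)
    have a1 : (PowerSeries.X : PowerSeries B) ^ 1 ∣ π := (pow_dvd_pow _ (by norm_num)).trans hdv
    have a2 : (PowerSeries.X : PowerSeries B) ^ 1 ∣ PowerSeries.subst π π :=
      (pow_dvd_pow _ (by norm_num)).trans d2
    rw [hw, v1, v2]
    exact (a2.add a1).add ((a2.mul_right _).mul_right _)
  have dz : (PowerSeries.X : PowerSeries B) ^ (1 * 81) ∣ (3 • (P (P x) + P x)).val := by
    rw [nsmul_val]
    exact (subst_ord one_pos dy dm).1
  obtain ⟨w, hw⟩ := pt_add (P (P (P x))) (3 • (P (P x) + P x))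
  rw [v3] at hw
  have dw : (PowerSeries.X : PowerSeries B) ^ 27 ∣
      (P (P (P x)) + 3 • (P (P x) + P x)).val := by
    rw [hw]
    exact (d3.add ((pow_dvd_pow _ (by norm_num)).trans dz)).add ((d3.mul_right _).mul_right _)
  have cw : PowerSeries.coeff 27 ((P (P (P x)) + 3 • (P (P x) + P x)).val : PowerSeries B) =
      PowerSeries.coeff 3 l ^ 13 := by
    rw [hw, map_add, map_add, PowerSeries.X_pow_dvd_iff.1 dz 27 (by norm_num),
      PowerSeries.X_pow_dvd_iff.1 ((dz.mul_left _).mul_right _) 27 (by norm_num), add_zero,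
      add_zero, ← h3]
    refine c3.trans ?_
    rw [c2]
    ring
  obtain ⟨w', hw'⟩ := pt_add (P (P (P x)) + 3 • (P (P x) + P x)) x
  rw [← e, homPt_val, homPt_val, homPt_val, hx, ptX_val, eX, ← hx] at hw'
  have k := fun j hj => coeff_of_decomp hw' dw (j := j) hj
  refine ⟨?_, ?_, ?_⟩
  · rw [k 3 (by norm_num), PowerSeries.X_pow_dvd_iff.1 dw 3 (by norm_num), PowerSeries.coeff_X,
      if_neg (by norm_num), add_zero]
  · rw [k 9 (by norm_num), PowerSeries.X_pow_dvd_iff.1 dw 9 (by norm_num), PowerSeries.coeff_X,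
      if_neg (by norm_num), add_zero]
  · rw [k 27 le_rfl, cw, PowerSeries.coeff_X, if_neg (by norm_num), add_zero]

end FG

section Ring

variable {R : Type} [CommRing R]

theorem coeff_eq_sc (l : InvSeries R) (n : ℕ) :
    PowerSeries.coeff n l.val = PowerSeries.coeff 1 l.val * sc l n := by
  rw [sc, ← mul_assoc, IsUnit.mul_val_inv, one_mul]

theorem isHom_map {B : Type} [CommRing B] {F : Law R} {l : InvSeries R} {δ : R →+* R}
    (h : l • F = F.map δ) (φ : R →+* B) (hφ : ∀ r, φ (δ r) = φ r) :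
    IsHom (F.map φ).toFG (F.map φ).toFG (InvSeries.map φ l).val := by
  rw [← InvSeries.smul_eq_iff_isHom, ← InvSeries.map_smul, h, Law.map_map]
  congr 1
  exact RingHom.ext hφ

theorem ser3_smul {F : Law R} {γ : R ≃+* R} {f : InvSeries R}
    (h : f • F = F.map (γ : R →+* R)) :
    ser3 γ f • F = F.map ((γ : R →+* R).comp ((γ : R →+* R).comp (γ : R →+* R))) := by
  rw [ser3, mul_smul, mul_smul, h, ← InvSeries.map_smul, h, ← InvSeries.map_smul,
    ← InvSeries.map_smul, h, Law.map_map, Law.map_map]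
  rfl

theorem coeff_one_ser3 (γ : R ≃+* R) (f : InvSeries R) :
    ((twOf γ f).cube.t : R) * PowerSeries.coeff 1 (ser3 γ f).val = 1 := by
  have e : PowerSeries.coeff 1 (ser3 γ f).val = γ (γ (f.c 0)) * γ (f.c 0) * f.c 0 := by
    change (ser3 γ f).c 0 = _
    rw [ser3, InvSeries.c_zero_mul, InvSeries.c_zero_mul, InvSeries.c_map, InvSeries.c_map]
    rfl
  have e1 : ((twOf γ f).t : R) * f.c 0 = 1 := IsUnit.val_inv_mul f.isUnit
  have e2 : ((twOf γ f).cube.t : R) = ((twOf γ f).t : R) * γ ((twOf γ f).t : R) *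
      γ (γ ((twOf γ f).t : R)) := rfl
  have e3 := congrArg γ e1
  have e4 := congrArg γ e3
  rw [map_mul, map_one] at e3
  rw [map_mul, map_mul, map_one, map_one] at e4
  rw [e, e2]
  linear_combination (γ ((twOf γ f).t : R) * γ (f.c 0) * (γ (γ ((twOf γ f).t : R)) *
    γ (γ (f.c 0)))) * e1 + (γ (γ ((twOf γ f).t : R)) * γ (γ (f.c 0))) * e3 + e4

theorem J_le (A : Tw R) {I : Ideal R} (h3 : (3 : R) ∈ I) (ht : (A.t : R) - 1 ∈ I)
    (hg : ∀ r, A.g r - r ∈ I) : A.J ≤ I := by
  refine Ideal.span_le.2 ?_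
  rintro x (hx | ⟨r, rfl⟩)
  · rcases hx with rfl | rfl
    exacts [h3, ht]
  · exact hg r

theorem three_mem (A : Tw R) : (3 : R) ∈ A.J := Ideal.subset_span (Or.inl (Or.inl rfl))

theorem t_mem (A : Tw R) : (A.t : R) - 1 ∈ A.J := Ideal.subset_span (Or.inl (Or.inr rfl))

theorem g_mem (A : Tw R) (r : R) : A.g r - r ∈ A.J := Ideal.subset_span (Or.inr ⟨r, rfl⟩)

theorem cube_J_le (A : Tw R) : A.cube.J ≤ A.J := by
  have hg : ∀ r, Ideal.Quotient.mk A.J (A.g r) = Ideal.Quotient.mk A.J r := fun r =>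
    Ideal.Quotient.eq.2 (g_mem A r)
  have ht : Ideal.Quotient.mk A.J (A.t : R) = 1 := Ideal.Quotient.eq.2 (t_mem A)
  refine J_le _ (three_mem A) ?_ fun r => ?_
  · have e : (A.cube.t : R) = (A.t : R) * A.g (A.t : R) * A.g (A.g (A.t : R)) := rfl
    rw [← Ideal.Quotient.eq, e, map_mul, map_mul, hg, hg, hg, ht, map_one, mul_one, mul_one]
  · have e : A.cube.g r = A.g (A.g (A.g r)) := rfl
    rw [← Ideal.Quotient.eq, e, hg, hg, hg]

variable [IsLocalRing R]

theorem max_le (hN : IsNoetherianRing R) {F : Law R} (hF : IF 3 F.toFG 6 = maximalIdeal R)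
    {l : InvSeries R} {δ : R →+* R} (h : l • F = F.map δ) {K : Ideal R} (h3 : (3 : R) ∈ K)
    (hδ : ∀ r, δ r - r ∈ K) {t : R} (ht : t * PowerSeries.coeff 1 l.val = 1) (ht' : t - 1 ∈ K)
    {a : ℕ} (ha : 0 < a) (hv : ∀ i, 1 ≤ i → i < a → PowerSeries.coeff (3 ^ i) l.val ∈ K)
    (hu : IsUnit (PowerSeries.coeff (3 ^ a) l.val)) : maximalIdeal R ≤ K := by
  by_cases hK : K = ⊤
  · rw [hK]; exact le_top
  have := Ideal.Quotient.nontrivial_iff.2 hK
  have h3' : ((3 : ℕ) : R ⧸ K) = 0 := by
    rw [← map_natCast (Ideal.Quotient.mk K)]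
    exact Ideal.Quotient.eq_zero_iff_mem.2 (by exact_mod_cast h3)
  have : CharP (R ⧸ K) 3 := (CharP.charP_iff_prime_eq_zero Nat.prime_three).2 h3'
  have hl := isHom_map h (Ideal.Quotient.mk K) fun r => Ideal.Quotient.eq.2 (hδ r)
  have h1 : PowerSeries.coeff 1 (InvSeries.map (Ideal.Quotient.mk K) l).val = 1 := by
    have e := congrArg (Ideal.Quotient.mk K) ht
    have e1 : Ideal.Quotient.mk K t = 1 := Ideal.Quotient.eq.2 ht'
    rw [map_mul, e1, one_mul, map_one] at e
    rw [InvSeries.map_val, PowerSeries.coeff_map, e]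
  have key := IF_le_sq hl h1 ha (fun i h1 h2 => by
    rw [InvSeries.map_val, PowerSeries.coeff_map]
    exact Ideal.Quotient.eq_zero_iff_mem.2 (hv i h1 h2)) (by
    rw [InvSeries.map_val, PowerSeries.coeff_map]
    exact hu.map _) 6
  rw [Law.map_toFG, ← IF_map, hF, ← Ideal.map_pow, Ideal.map_le_iff_le_comap,
    Ideal.comap_map_of_surjective _ Ideal.Quotient.mk_surjective, ← RingHom.ker_eq_comap_bot,
    Ideal.mk_ker] at key
  refine Submodule.le_of_le_smul_of_le_jacobson_bot (I := maximalIdeal R)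
    (IsNoetherian.noetherian _) (maximalIdeal_le_jacobson _) ?_
  rw [smul_eq_mul, ← sq, sup_comm]
  exact key

theorem three_mem_max {F : Law R} (hF : IF 3 F.toFG 6 = maximalIdeal R) :
    (3 : R) ∈ maximalIdeal R := by
  have := vF_mem 3 F.toFG (show 0 < 6 by norm_num)
  rw [vF_zero, hF] at this
  exact_mod_cast this

end Ring

end Ht

open Ht

theorem ht : HT := by
  intro R _ _ F γ f h
  have h3' : ((3 : ℕ) : ResidueField R) = 0 := by
    rw [← map_natCast (residue R)]
    exact (residue_eq_zero_iff _).2 (by exact_mod_cast three_mem_max h.gen)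
  have : CharP (ResidueField R) 3 := (CharP.charP_iff_prime_eq_zero Nat.prime_three).2 h3'
  have hγ : ∀ r, residue R ((γ : R →+* R) r) = residue R r := fun r =>
    Ideal.Quotient.eq.2 (h.res r)
  have hγ' : (residue R).comp (γ : R →+* R) = residue R := RingHom.ext hγ
  have hl := isHom_map h.act (residue R) hγ
  have h1 : PowerSeries.coeff 1 (InvSeries.map (residue R) f).val = 1 := by
    rw [InvSeries.map_val, PowerSeries.coeff_map]
    exact Ideal.Quotient.eq.2 h.strict
  have hG : ∀ i < 4, vF 3 (F.map (residue R)).toFG i = 0 := fun i hi => by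
    rw [Law.map_toFG, vF_map]
    refine (residue_eq_zero_iff _).2 ?_
    rw [← h.gen]
    exact vF_mem 3 _ (by omega)
  have e : PowerSeries.map (residue R) (ser3 γ f).val = PowerSeries.subst
      (PowerSeries.subst (InvSeries.map (residue R) f).val (InvSeries.map (residue R) f).val :
        PowerSeries (ResidueField R)) (InvSeries.map (residue R) f).val := by
    rw [← InvSeries.map_val, ser3, map_mul, map_mul, InvSeries.map_map, InvSeries.map_map,
      InvSeries.map_map, hγ', hγ', mul_assoc]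
    rfl
  obtain ⟨k3, k9, k27⟩ := cube_coeff hl h1 hG
  rw [← e, PowerSeries.coeff_map] at k3 k9 k27
  refine ⟨Ideal.mul_mem_left _ _ ((residue_eq_zero_iff _).1 k3),
    Ideal.mul_mem_left _ _ ((residue_eq_zero_iff _).1 k9), (Units.isUnit _).mul ?_⟩
  rw [← residue_ne_zero_iff_isUnit, k27, InvSeries.map_val, PowerSeries.coeff_map]
  exact pow_ne_zero _ ((residue_ne_zero_iff_isUnit _).2 h.unit)

theorem fix : FIX := by
  intro R _ _ hN F γ f h h3 h9 h27
  have ht : ((twOf γ f).t : R) * PowerSeries.coeff 1 f.val = 1 := IsUnit.val_inv_mul f.isUnit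
  have hJ : (twOf γ f).J ≤ maximalIdeal R := by
    refine J_le _ (three_mem_max h.gen) ?_ h.res
    have e : ((twOf γ f).t : R) - 1 = -((twOf γ f).t : R) * (PowerSeries.coeff 1 f.val - 1) := by
      linear_combination ht
    rw [e]
    exact Ideal.mul_mem_left _ _ h.strict
  refine ⟨le_antisymm hJ (max_le hN h.gen h.act (three_mem _) (g_mem (twOf γ f)) ht (t_mem _)
    one_pos (fun i h1 h2 => by omega) h.unit), le_antisymm (sup_le ((cube_J_le _).trans hJ) ?_)
    (max_le hN h.gen (ser3_smul h.act) (Ideal.mem_sup_left (three_mem _))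
      (fun r => Ideal.mem_sup_left (g_mem (twOf γ f).cube r)) (coeff_one_ser3 γ f)
      (Ideal.mem_sup_left (t_mem _)) (a := 3) (by norm_num) (fun i h1 h2 => ?_) ?_)⟩
  · refine Ideal.span_le.2 ?_
    rintro x (rfl | rfl)
    exacts [h3, h9]
  · rw [coeff_eq_sc]
    refine Ideal.mul_mem_left _ _ (Ideal.mem_sup_right (Ideal.subset_span ?_))
    interval_cases i
    · exact Or.inl rfl
    · exact Or.inr rfl
  · rw [coeff_eq_sc]
    exact (ser3 γ f).isUnit.mul h27

end Vale.Agent.P236Z.Tate
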