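import Vale.Agent.P236Z.Tate.Sk3
import Vale.Agent.P236Z.Tate.Alg

/-!
# P236, block TATE: units are not invariant in the degrees prime to three
-/

namespace Vale.Agent.P236Z.Tate

open Vale.Agent.P251.F Vale.Agent.P217 IsLocalRing

namespace Inv

variable {R : Type} [CommRing R] (A : Tw R)

theorem g_mem {j : R} (hj : j ∈ A.cube.J) : A.g j ∈ A.cube.J := by
  have key : ∀ (d : ℤ) (r : R), A.g (A.cube.T d r) ∈ A.cube.J := fun d r => by
    have h1 := A.cube.T_mem_J d (A.act d r)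
    rw [A.cube_T_act, Tw.act] at h1
    exact (Ideal.mul_unit_mem_iff_mem _ (Units.isUnit _)).1 h1
  have h : A.cube.J ≤ Ideal.comap (A.g : R →+* R) A.cube.J := by
    refine Ideal.span_le.2 ?_
    rintro x ((rfl | rfl) | ⟨r, rfl⟩)
    · show A.g 3 ∈ A.cube.J
      rw [map_ofNat]; exact A.cube.three_mem_J
    · have h1 := key 1 1
      rwa [Tw.T, Tw.act_one', map_one, one_mul] at h1
    · have h1 := key 0 r
      rwa [Tw.T, Tw.act_zero'] at h1
  exact h hj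

theorem T_mem (d : ℤ) {j : R} (hj : j ∈ A.cube.J) : A.T d j ∈ A.cube.J :=
  sub_mem (Ideal.mul_mem_right _ _ (g_mem A hj)) hj

theorem zpow_sub {I : Ideal R} {u : Rˣ} (h : (u : R) - 1 ∈ I) (d : ℤ) :
    ((u ^ d : Rˣ) : R) - 1 - d * ((u : R) - 1) ∈ I ^ 2 := by
  have key : ∀ e : ℤ, ((u ^ (e + 1) : Rˣ) : R) - 1 - ((e + 1 : ℤ) : R) * ((u : R) - 1) =
      (((u ^ e : Rˣ) : R) - 1 - e * ((u : R) - 1)) +
        (((u ^ e : Rˣ) : R) - 1) * ((u : R) - 1) := fun e => by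
    rw [zpow_add_one, Units.val_mul]
    push_cast
    ring
  have h2 : ∀ e : ℤ, (((u ^ e : Rˣ) : R) - 1) * ((u : R) - 1) ∈ I ^ 2 := fun e => by
    rw [pow_two]
    exact Ideal.mul_mem_mul (Tw.zpow_sub_one_mem h e) h
  induction d using Int.induction_on with
  | zero => simp
  | succ n ih => rw [key]; exact add_mem ih (h2 _)
  | pred n ih =>
    have h3 := key (-(n : ℤ) - 1)
    rw [sub_add_cancel] at h3
    rw [h3] at ih
    simpa using sub_mem ih (h2 (-(n : ℤ) - 1))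

/-- the image of `g - 1` -/
def Im (d : ℤ) : AddSubgroup R := (AddMonoidHom.mk' (A.T d) (A.T_add d)).range

theorem mem_Im {d : ℤ} {x : R} : x ∈ Im A d ↔ ∃ y, A.T d y = x := Iff.rfl

theorem T_Im (d : ℤ) (y : R) : A.T d y ∈ Im A d := ⟨y, rfl⟩

theorem act_Im {d : ℤ} {x : R} (h : x ∈ Im A.cube d) : A.act d x ∈ Im A.cube d := by
  obtain ⟨y, rfl⟩ := (mem_Im _).1 h
  rw [← A.cube_T_act]; exact T_Im _ _ _

section Ord

variable {A} (h : A.Ord3)
include h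

theorem star_T (d e : ℤ) {x : R} (hx : A.tr d x = 0) (y : R) :
    A.star d e x (A.T e y) = A.tr (d + e) (-(x * A.act e y)) := by
  have h1 : A.act d (A.act d x) = -x - A.act d x := by
    rw [Tw.tr] at hx; linear_combination hx
  simp only [Tw.T, Tw.tr, Tw.star, Tw.act_sub, Tw.act_neg, Tw.act_mul, h e]
  rw [h1]; ring

theorem mul_star (x y z : R) : x * A.star 1 1 y z = A.star 1 1 x y * z -
    A.T (1 + 1 + 1) (x * A.act 1 y * A.act 1 (A.act 1 z)) := by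
  simp only [Tw.T, Tw.star, Tw.act_mul, h 1]
  ring

theorem tr_mul_Im {d e n : ℤ} (hn : n = d + e) (c : R) {x : R} (hx : A.tr e x = 0) :
    A.tr d c * x ∈ Im A n := by
  rw [h.tr_mul_of_tr d e c hx, hn]; exact T_Im _ _ _

end Ord

variable (w : R)

theorem act_x0 : A.act 1 (xw A w 0) = xw A w 0 + xw A w 1 := A.act_eq 1 w

theorem act_x1 : A.act 1 (xw A w 1) = xw A w 1 + xw A w 2 := A.act_eq 1 _

theorem T_x2 (htr : A.cube.tr 1 (xw A w 1) = 0) : ∃ y, A.T 1 (xw A w 2) = A.cube.T 1 y := by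
  have h1 : A.cube.tr 1 (A.act 1 (xw A w 1)) = 0 := by rw [A.cube_tr_act, htr, A.act_zero]
  refine ⟨w - (-(2 * A.act 1 (xw A w 1)) - A.cube.act 1 (A.act 1 (xw A w 1))), ?_⟩
  rw [Tw.T_sub, ← Tw.three_mul_of_tr h1, A.cube_T]
  exact (add_sub_cancel_right _ _).symm

theorem act_top (h : A.cube.Ord3) (htr : ∀ j, A.cube.tr 1 (xw A w j) = 0) :
    A.act 3 (top A.cube (xw A w)) - top A.cube (xw A w) ∈ Im A.cube 3 := by
  obtain ⟨y, hy⟩ := T_x2 A w (htr 1)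
  set x := xw A w with hx
  have h1 : A.act 3 (top A.cube x) - top A.cube x =
      (A.cube.star 1 1 (x 1) (A.cube.T 1 y) + A.cube.star 1 1 (x 2) (x 2) +
        A.cube.star 1 1 (x 2) (A.cube.T 1 y)) * (x 0 + x 1) +
      x 1 * A.cube.star 1 1 (x 1) (x 2) := by
    rw [top, A.act_mul' (show (3 : ℤ) = 1 + (1 + 1) by norm_num), ← A.cube_star_act, act_x0,
      act_x1, A.act_eq 1 (x 2), hy, Tw.star_add_left, Tw.star_add_right, Tw.star_add_right]
    ring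
  have h2 : A.cube.tr 1 (x 0 + x 1) = 0 := by rw [Tw.tr_add, htr, htr, add_zero]
  rw [h1, star_T h 1 1 (htr 1), star_T h 1 1 (htr 2), h.star_self 1 (htr 2), ← Tw.tr_add,
    ← Tw.tr_add, mul_star h, h.star_self 1 (htr 1)]
  exact add_mem (tr_mul_Im h (by norm_num) _ h2)
    (sub_mem (tr_mul_Im h (by norm_num) _ (htr 2)) (T_Im _ _ _))

/-- the fourth part -/
theorem part4 (h : A.cube.Ord3) (htr : ∀ j, A.cube.tr 1 (xw A w j) = 0)
    (hc : CohAll A.cube (xw A w))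
    (hac : ∀ r, A.tr (-1) r ∈ A.cube.J → ∃ q, r - A.T (-1) q ∈ A.cube.J) (a q : R)
    (ha : A.cube.tr 0 a = 0) (hq : A.tr 0 a = A.cube.T 0 q) :
    ∃ b q' : R, A.cube.tr 0 b = 0 ∧ a = A.T 0 b + A.cube.T 0 q' := by
  set τ := top A.cube (xw A w) with hτ
  have hτ0 : A.cube.tr 3 τ = 0 := by
    have h1 := A.cube.tr_mul_inv 1 (1 + 1) (xw A w 0) (h.T_star 1 1 (htr 1) (htr 2))
    rw [htr 0, zero_mul] at h1
    exact h1
  set Φ : R → R := fun r => A.cube.nm (-1) r * τ with hΦ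
  have hind : ∀ r, Φ r ∈ Im A.cube 0 ↔ r ∈ A.cube.J := fun r => by
    have h1 := (hc 0).1.ind1 fun _ => r
    rw [Fintype.sum_unique] at h1
    exact ⟨fun ⟨y, hy⟩ => h1.1 ⟨y, hy.symm⟩ (), fun hr =>
      let ⟨y, hy⟩ := h1.2 fun _ => hr
      ⟨y, hy.symm⟩⟩
  have htr0 : ∀ r, A.cube.tr 0 (Φ r) = 0 := fun r => by
    have h1 := A.cube.inv_mul_tr (3 * -1) 3 (h.T_nm (-1) r) τ
    rw [hτ0, mul_zero] at h1
    exact h1
  have hadd : ∀ r r', Φ (r + r') - Φ r - Φ r' ∈ Im A.cube 0 := fun r r' => by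
    have h1 : Φ (r + r') - Φ r - Φ r' = A.cube.tr (3 * -1) (A.cube.cross (-1) r r') * τ := by
      simp only [hΦ]
      rw [h.nm_add]; ring
    rw [h1]
    exact tr_mul_Im h (by norm_num) _ hτ0
  have hact : ∀ r, A.act 0 (Φ r) - Φ (A.act (-1) r) ∈ Im A.cube 0 := fun r => by
    obtain ⟨y, hy⟩ := (mem_Im _).1 (act_top A w h htr)
    have h1 := A.cube.T_mul_inv 3 (3 * -1) y (h.T_nm (-1) (A.act (-1) r))
    refine (mem_Im _).2 ⟨_, h1.trans ?_⟩
    simp only [hΦ]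
    rw [A.act_mul' (show (0 : ℤ) = 3 * -1 + 3 by norm_num), hy, A.cube_nm_act]
    ring
  obtain ⟨r', f, hrf⟩ := (hc 0).1.gen1 a ha
  rw [Fintype.sum_unique] at hrf
  obtain ⟨r, hr⟩ : ∃ r, a - Φ r ∈ Im A.cube 0 :=
    ⟨r' default, f, (eq_sub_of_add_eq' hrf.symm)⟩
  have h1 : Φ (A.tr (-1) r) ∈ Im A.cube 0 := by
    have h2 : Φ (A.tr (-1) r) =
        (Φ (r + A.act (-1) r + A.act (-1) (A.act (-1) r)) - Φ (r + A.act (-1) r) -
          Φ (A.act (-1) (A.act (-1) r))) + (Φ (r + A.act (-1) r) - Φ r - Φ (A.act (-1) r)) -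
        (A.act 0 (Φ r) - Φ (A.act (-1) r)) - A.act 0 (A.act 0 (Φ r) - Φ (A.act (-1) r)) -
        (A.act 0 (Φ (A.act (-1) r)) - Φ (A.act (-1) (A.act (-1) r))) -
        (a - Φ r) - A.act 0 (a - Φ r) - A.act 0 (A.act 0 (a - Φ r)) + A.tr 0 a := by
      simp only [Tw.tr, Tw.act_sub]
      ring
    rw [h2, hq]
    exact add_mem (sub_mem (sub_mem (sub_mem (sub_mem (sub_mem (sub_mem (add_mem (hadd _ _)
      (hadd _ _)) (hact _)) (act_Im A (hact _))) (hact _)) hr) (act_Im A hr))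
      (act_Im A (act_Im A hr))) (T_Im _ _ _)
  obtain ⟨q₁, hq₁⟩ := hac r ((hind _).1 h1)
  have h3 : a - A.T 0 (Φ q₁) ∈ Im A.cube 0 := by
    have h2 : a - A.T 0 (Φ q₁) = (a - Φ r) +
        (Φ (r - A.T (-1) q₁ + A.T (-1) q₁) - Φ (r - A.T (-1) q₁) - Φ (A.T (-1) q₁)) +
        Φ (r - A.T (-1) q₁) - (Φ (q₁ + A.T (-1) q₁) - Φ q₁ - Φ (A.T (-1) q₁)) -
        (A.act 0 (Φ q₁) - Φ (A.act (-1) q₁)) := by
      rw [sub_add_cancel, ← A.act_eq, A.act_eq 0 (Φ q₁)]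
      ring
    rw [h2]
    exact sub_mem (sub_mem (add_mem (add_mem hr (hadd _ _)) ((hind _).2 hq₁)) (hadd _ _)) (hact _)
  obtain ⟨q', hq'⟩ := (mem_Im _).1 h3
  exact ⟨Φ q₁, q', htr0 _, by rw [hq', add_sub_cancel]⟩

variable [IsLocalRing R]

theorem sup_eq (hp : Par A.cube (xw A w))
    (hJ : A.cube.J = Ideal.span {3, A.cube.T 1 (xw A w 0), A.cube.T 1 (xw A w 1),
      A.cube.T 1 (xw A w 2)}) :
    A.cube.J ⊔ Ideal.span {xw A w 1, xw A w 2} = maximalIdeal R := by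
  rw [hJ, ← Ideal.span_union, ← hp.gen]
  congr 1
  ext z
  simp only [Set.mem_union, Set.mem_insert_iff, Set.mem_singleton_iff]
  tauto

/-- the first part -/
theorem part1 (h3 : (3 : R) ∈ maximalIdeal R) (hres : ∀ r : R, ∃ c : ℤ, r - c ∈ maximalIdeal R)
    (hg : ∀ r, A.g r - r ∈ maximalIdeal R) (ht : (A.t : R) - 1 ∈ maximalIdeal R)
    (hp : Par A.cube (xw A w)) (htr : A.cube.tr 1 (xw A w 1) = 0)
    (hx : xw A w 1 ∉ A.cube.J ⊔ Ideal.span {xw A w 2} ⊔ maximalIdeal R ^ 2)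
    (d : ℤ) (z : R) (hd : ¬ 3 ∣ d) (hz : IsUnit z) :
    A.T d z ∉ A.cube.J ⊔ Ideal.span {xw A w 2} ⊔ maximalIdeal R ^ 2 := by
  set K := A.cube.J ⊔ Ideal.span {xw A w 2} ⊔ maximalIdeal R ^ 2 with hK
  have kJ : ∀ {a}, a ∈ A.cube.J → a ∈ K := fun h => Ideal.mem_sup_left (Ideal.mem_sup_left h)
  have kq : ∀ {a}, a ∈ maximalIdeal R ^ 2 → a ∈ K := fun h => Ideal.mem_sup_right h
  have km : ∀ {a b}, a ∈ maximalIdeal R → b ∈ maximalIdeal R → a * b ∈ K := fun h h' =>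
    kq (by rw [pow_two]; exact Ideal.mul_mem_mul h h')
  have k2 : xw A w 2 ∈ K :=
    Ideal.mem_sup_left (Ideal.mem_sup_right (Ideal.mem_span_singleton_self _))
  have kg : ∀ {a}, a ∈ maximalIdeal R → A.g a ∈ maximalIdeal R := fun {a} h => by
    simpa using add_mem (hg a) h
  have kT : ∀ {a}, a ∈ maximalIdeal R → A.T 1 a ∈ K → A.g a - a ∈ K := fun {a} h h' => by
    have h1 : A.g a - a = A.T 1 a - A.g a * ((A.t : R) - 1) := by
      rw [Tw.T, Tw.act_one']; ring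
    rw [h1]
    exact sub_mem h' (km (kg h) ht)
  have kmax : ∀ a ∈ maximalIdeal R, A.g a - a ∈ K := by
    intro a ha
    have ha' := ha
    rw [← hp.gen] at ha'
    refine Submodule.span_induction (p := fun a _ => A.g a - a ∈ K) ?_ ?_ ?_ ?_ ha'
    · intro y hy
      have hy' : y ∈ maximalIdeal R := hp.gen ▸ Ideal.subset_span hy
      have hj : ∀ r, A.g (A.cube.T 1 r) - A.cube.T 1 r ∈ K := fun r =>
        kJ (sub_mem (g_mem A (A.cube.T_mem_J 1 r)) (A.cube.T_mem_J 1 r))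
      rcases hy with rfl | rfl | rfl | rfl | rfl | rfl
      · rw [map_ofNat, sub_self]; exact zero_mem _
      · exact kT hy' k2
      · obtain ⟨y, e⟩ := T_x2 A w htr
        exact kT hy' (kJ (e ▸ A.cube.T_mem_J 1 y))
      · exact hj _
      · exact hj _
      · exact hj _
    · rw [map_zero, sub_self]; exact zero_mem _
    · intro x y _ _ hx hy
      rw [map_add, add_sub_add_comm]
      exact add_mem hx hy
    · intro b x hx hx'
      have h1 : A.g (b • x) - b • x = A.g b * (A.g x - x) + (A.g b - b) * x := by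
        rw [smul_eq_mul, map_mul]; ring
      rw [h1]
      exact add_mem (Ideal.mul_mem_left _ _ hx') (km (hg b) (hp.gen ▸ hx))
  have kall : ∀ a, A.g a - a ∈ K := fun a => by
    obtain ⟨c, hc⟩ := hres a
    have h1 := kmax _ hc
    rwa [map_sub, map_intCast, sub_sub_sub_cancel_right] at h1
  have hdu : IsUnit (d : R) := by
    by_contra hn
    have h1 : (d : R) ∈ maximalIdeal R := hn
    obtain ⟨a, b, hab⟩ := (Int.prime_three.irreducible.coprime_iff_not_dvd).2 hd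
    have h2 : (a : R) * 3 + b * d = 1 := by exact_mod_cast congrArg (Int.cast : ℤ → R) hab
    exact (maximalIdeal.isMaximal R).ne_top ((Ideal.eq_top_iff_one _).2
      (h2 ▸ add_mem (Ideal.mul_mem_left _ _ h3) (Ideal.mul_mem_left _ _ h1)))
  intro hT
  refine hx ((Ideal.unit_mul_mem_iff_mem K ((hz.map A.g).mul hdu)).1 ?_)
  have h1 : A.g z * d * xw A w 1 = A.g w * (A.T d z - (A.g z - z) -
      A.g z * (((A.t ^ d : Rˣ) : R) - 1 - d * ((A.t : R) - 1))) + A.g z * d * (A.g w - w) := by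
    show _ * A.T 1 w = _
    rw [Tw.T, Tw.T, Tw.act_one', Tw.act]; ring
  rw [h1]
  exact add_mem (Ideal.mul_mem_left _ _ (sub_mem (sub_mem hT (kall z))
    (Ideal.mul_mem_left _ _ (kq (zpow_sub ht d))))) (Ideal.mul_mem_left _ _ (kall w))

omit [IsLocalRing R] in
theorem mem_sup_iff {I : Ideal R} {s u : R} :
    u ∈ I ⊔ Ideal.span {s} ↔ Ideal.Quotient.mk I s ∣ Ideal.Quotient.mk I u := by
  rw [← Ideal.mem_span_singleton, ← Set.image_singleton, ← Ideal.map_span,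
    ← Ideal.mem_comap, Ideal.comap_map_of_surjective _ Ideal.Quotient.mk_surjective,
    ← RingHom.ker_eq_comap_bot, Ideal.mk_ker, sup_comm]

end Inv

theorem inv (h1 : OF) (h2 : S9I) : INV := by
  intro R _ _ hB hres F γ f w hLT hO
  have h9 := h2 R F γ f hLT
  set A := twOf γ f with hA
  set s3 := sc (ser3 γ f) 3 with hs3
  set s9 := sc (ser3 γ f) 9 with hs9
  have hsup := Inv.sup_eq A w hO.par hO.J
  have hx1 := (h1 R hB _ _ _ (xw A w 2) (xw A w 1) _ hO.J (by rw [Set.pair_comm]; exact hsup)).1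
  have hx2 := (h1 R hB _ _ _ (xw A w 1) (xw A w 2) _ hO.J hsup).1
  have hOF := (h1 R hB _ _ _ s3 s9 _ hO.J hO.s39).2 hres
  have ht : (A.t : R) - 1 ∈ maximalIdeal R := by
    have h3 := Tw.zpow_sub_one_mem (u := f.isUnit.unit) hLT.strict (-1)
    rwa [zpow_neg_one] at h3
  obtain ⟨c, hc, hc'⟩ := hO.s3x
  have hle : ∀ y : R, A.cube.J ⊔ maximalIdeal R ^ 2 ≤
      A.cube.J ⊔ Ideal.span {y} ⊔ maximalIdeal R ^ 2 := fun y => sup_le_sup_right le_sup_left _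
  have p1 : ∀ (d : ℤ) (z : R), ¬ 3 ∣ d → IsUnit z → A.T d z ∉ A.cube.J ⊔ Ideal.span {s3} := by
    intro d z hd hz hT
    have h3 : s3 ∈ A.cube.J ⊔ Ideal.span {xw A w 2} ⊔ maximalIdeal R ^ 2 := by
      rw [← sub_add_cancel s3 (c * xw A w 2)]
      exact add_mem (hle _ hc') (Ideal.mul_mem_left _ _
        (Ideal.mem_sup_left (Ideal.mem_sup_right (Ideal.mem_span_singleton_self _))))
    have h4 : A.cube.J ⊔ Ideal.span {s3} ≤
        A.cube.J ⊔ Ideal.span {xw A w 2} ⊔ maximalIdeal R ^ 2 :=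
      sup_le (le_sup_left.trans le_sup_left) ((Ideal.span_singleton_le_iff_mem _).2 h3)
    exact Inv.part1 A w hB.three hres hLT.res ht hO.par (hO.tr 1) hx1 d z hd hz (h4 hT)
  refine ⟨p1, fun b z hb hz hT => ?_, ?_,
    Inv.part4 A w hO.par.ord hO.tr hO.coh (hO.acyc (-1) (by norm_num)).1⟩
  · have h3 : A.T 8 b * s9 * s9 = A.T (-8) z - A.T (-8) (z - b * s9 ^ 2) -
        A.act 8 b * (2 * s9 + A.T (-8) s9) * A.T (-8) s9 := by
      rw [Tw.T_sub, sub_sub_cancel, pow_two, Tw.T, Tw.T,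
        A.act_mul' (show (-8 : ℤ) = 8 + (-8 + -8) by norm_num), A.act_mul, A.act_eq (-8) s9]
      ring
    have h4 : A.T 8 b * s9 * s9 ∈ A.cube.J ⊔ Ideal.span {s3} := by
      rw [h3]
      exact sub_mem (sub_mem hT (Ideal.mem_sup_left (Inv.T_mem A _ hz)))
        (Ideal.mul_mem_left _ _ h9)
    rw [Inv.mem_sup_iff, map_mul, map_mul] at h4
    exact p1 8 b (by norm_num) hb (Inv.mem_sup_iff.2
      ((hOF.prime1 _ _ ((hOF.prime1 _ _ h4).resolve_right hOF.not_dvd)).resolve_right hOF.not_dvd))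
  · have hcoh := (hO.coh (-1)).2.1
    rw [show (3 * -1 + 1 : ℤ) = -2 by norm_num] at hcoh
    obtain ⟨r, q, hr⟩ := hcoh.gen1 s3 hO.s3tr
    refine ⟨r, q, hr, ?_⟩
    by_contra hn
    have h3 : ∀ l, r l ∈ maximalIdeal R := fun l hl => hn ⟨l, hl⟩
    have h4 : s3 ∈ A.cube.J ⊔ maximalIdeal R ^ 2 := by
      rw [hr]
      refine add_mem (Ideal.mem_sup_right (Ideal.sum_mem _ fun l _ =>
        Ideal.mul_mem_right _ _ (Ideal.mul_mem_right _ _ ?_)))
        (Ideal.mem_sup_left (A.cube.T_mem_J _ _))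
      rw [pow_two]
      refine Ideal.mul_mem_mul (h3 l) (Ideal.mul_mem_right _ _ ?_)
      simpa using add_mem (hO.par.res (r l)) (h3 l)
    have h5 := sub_mem h4 hc'
    rw [sub_sub_cancel, Ideal.unit_mul_mem_iff_mem _ hc] at h5
    exact hx2 (hle _ h5)

end Vale.Agent.P236Z.Tate
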