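import Vale.Agent.P236Z.Tate.Alg
import Mathlib.RingTheory.Filtration

/-!
# P236, block TATE: the ideal of the fixed points (JEQ)
-/

namespace Vale.Agent.P236Z.Tate

open IsLocalRing

theorem jeq_krull {R : Type} [CommRing R] [IsLocalRing R] [IsNoetherianRing R] {I : Ideal R}
    {z : R} (h : ∀ n : ℕ, z ∈ I ⊔ maximalIdeal R ^ n) : z ∈ I := by
  have h1 := Ideal.iInf_pow_smul_eq_bot_of_isLocalRing (M := R ⧸ I) (maximalIdeal R)
    (maximalIdeal.isMaximal R).ne_top
  rw [← Ideal.Quotient.eq_zero_iff_mem, ← Submodule.mem_bot R, ← h1, Submodule.mem_iInf]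
  intro n
  obtain ⟨i, hi, y, hy, rfl⟩ := Submodule.mem_sup.1 (h n)
  rw [map_add, Ideal.Quotient.eq_zero_iff_mem.2 hi, zero_add, ← mul_one y, ← smul_eq_mul]
  exact Submodule.smul_mem_smul hy (Submodule.mem_top (x := Ideal.Quotient.mk I 1))

theorem jeq : JEQ := by
  intro R _ _ hB H x par htr
  have := hB.noeth
  set I : Ideal R := Ideal.span {3, H.T 1 (x 0), H.T 1 (x 1), H.T 1 (x 2)} with hI
  have h3 : (3 : R) ∈ I := Ideal.subset_span (by simp)
  have ha : ∀ j, H.T 1 (x j) ∈ I := fun j => Ideal.subset_span (by fin_cases j <;> simp)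
  have hg : ∀ j, H.g (H.T 1 (x j)) - H.T 1 (x j) ∈ I := fun j => by
    refine sub_mem ((Ideal.mul_unit_mem_iff_mem _ H.t.isUnit).1 ?_) (ha j)
    have h := htr j
    rw [H.tr_eq] at h
    rw [← H.act_one', H.act_eq, eq_neg_of_add_eq_zero_left h]
    exact add_mem (ha j) (neg_mem (Ideal.mul_mem_right _ _ h3))
  have he : ∀ j, H.g (x j) - x j = H.T 1 (x j) - (H.t - 1) * H.g (x j) := fun j => by
    rw [Tw.T, H.act_one']
    ring
  have ht : ∀ K : Ideal R, I ≤ K → H.g (x 0) - x 0 ∈ K → (H.t : R) - 1 ∈ K := fun K hK h => by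
    rw [he] at h
    exact (Ideal.mul_unit_mem_iff_mem _ (par.unit.map H.g)).1
      ((Submodule.sub_mem_iff_right _ (hK (ha 0))).1 h)
  have hm : ∀ r ∈ maximalIdeal R, H.g r ∈ maximalIdeal R := fun r hr =>
    (Submodule.sub_mem_iff_left _ hr).1 (par.res r)
  have hk : ∀ (n : ℕ) a b, a ∈ I ⊔ maximalIdeal R ^ n → b ∈ maximalIdeal R →
      a * b ∈ I ⊔ maximalIdeal R ^ (n + 1) := fun n a b h hb => by
    obtain ⟨i, hi, y, hy, rfl⟩ := Submodule.mem_sup.1 h
    rw [add_mul, pow_succ]
    exact Submodule.add_mem_sup (Ideal.mul_mem_right _ _ hi) (Ideal.mul_mem_mul hy hb)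
  have key : ∀ (n : ℕ) r, H.g r - r ∈ I ⊔ maximalIdeal R ^ n := by
    intro n
    induction n with
    | zero => simp
    | succ n ih =>
      have hx : ∀ j, x j ∈ maximalIdeal R → H.g (x j) - x j ∈ I ⊔ maximalIdeal R ^ (n + 1) :=
        fun j hj => by
          rw [he]
          exact sub_mem (Ideal.mem_sup_left (ha j)) (hk n _ _ (ht _ le_sup_left (ih _)) (hm _ hj))
      have hμ : ∀ μ ∈ maximalIdeal R, H.g μ - μ ∈ I ⊔ maximalIdeal R ^ (n + 1) := fun μ hμ => by
        rw [← par.gen] at hμ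
        refine Submodule.span_induction
          (p := fun μ _ => H.g μ - μ ∈ I ⊔ maximalIdeal R ^ (n + 1)) ?_ (by simp) ?_ ?_ hμ
        · intro y hy
          have hy' : y ∈ maximalIdeal R := par.gen ▸ Ideal.subset_span hy
          rcases hy with rfl | rfl | rfl | rfl | rfl | rfl
          · rw [map_ofNat, sub_self]
            exact zero_mem _
          exacts [hx 1 hy', hx 2 hy', Ideal.mem_sup_left (hg 0), Ideal.mem_sup_left (hg 1),
            Ideal.mem_sup_left (hg 2)]
        · intro a b _ _ h1 h2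
          rw [map_add, add_sub_add_comm]
          exact add_mem h1 h2
        · intro c y hy h
          have e : H.g (c • y) - c • y = (H.g c - c) * H.g y + c * (H.g y - y) := by
            rw [smul_eq_mul, map_mul]
            ring
          rw [e]
          exact add_mem (hk n _ _ (ih c) (hm y (par.gen ▸ hy))) (Ideal.mul_mem_left _ _ h)
      intro r
      obtain ⟨s, hs⟩ := hB.perf r
      have e : H.g r - r = H.g (r - s ^ 3) - (r - s ^ 3) +
          ((H.g s - s) * ((H.g s - s) * (H.g s - s)) + 3 * (H.g s * s * (H.g s - s))) := by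
        rw [map_sub, map_pow]
        ring
      rw [e]
      exact add_mem (hμ _ hs) (add_mem (hk n _ _ (ih s) (Ideal.mul_mem_left _ _ (par.res s)))
        (Ideal.mem_sup_left (Ideal.mul_mem_right _ _ h3)))
  refine le_antisymm (Ideal.span_le.2 ?_) (Ideal.span_le.2 ?_)
  · rintro _ ((rfl | rfl) | ⟨r, rfl⟩)
    exacts [h3, ht I le_rfl (jeq_krull fun n => key n _), jeq_krull fun n => key n r]
  · rintro _ (rfl | rfl | rfl | rfl)
    exacts [H.three_mem_J, H.T_mem_J _ _, H.T_mem_J _ _, H.T_mem_J _ _]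

end Vale.Agent.P236Z.Tate
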