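import Vale.Agent.P236Z.Tate.Qrw

/-!
# P236, block TATE: the calculus of leading forms
-/

namespace Vale.Agent.P236Z.Tate

open IsLocalRing MvPolynomial

namespace Lf

open Qr Qrw

variable {R : Type} [CommRing R] {N : ℕ} {ev : Fin (N + 1) → R} {ω : Fin (N + 1) → ℤ × ℤ}

theorem top (n : ℤ) (hn : n ≤ 0) : Fil ev ω n = ⊤ :=
  (Ideal.eq_top_iff_one _).2 (Ideal.subset_span ⟨0, by simpa using hn, by simp⟩)

theorem mono (n n' : ℤ) (h : n ≤ n') : Fil ev ω n' ≤ Fil ev ω n :=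
  Ideal.span_mono fun _ ⟨μ, hμ, e⟩ => ⟨μ, h.trans hμ, e⟩

theorem mul (n n' : ℤ) : Fil ev ω n * Fil ev ω n' ≤ Fil ev ω (n + n') := by
  rw [Fil, Fil, Ideal.span_mul_span', Ideal.span_le]
  rintro _ ⟨_, ⟨μ, hμ, rfl⟩, _, ⟨ν, hν, rfl⟩, rfl⟩
  refine Ideal.subset_span ⟨μ + ν, ?_, ?_⟩
  · rw [map_add, Prod.fst_add]; exact add_le_add hμ hν
  · exact (Finsupp.prod_add_index' (fun _ => pow_zero _) fun _ _ _ => pow_add _ _ _).symm

theorem mul_mem {n n' m : ℤ} {z z' : R} (h : z ∈ Fil ev ω n) (h' : z' ∈ Fil ev ω n')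
    (e : n + n' = m) : z * z' ∈ Fil ev ω m :=
  e ▸ mul n n' (Ideal.mul_mem_mul h h')

theorem eval_mem (n D : ℤ) (Q : MvPolynomial (Fin (N + 1)) R)
    (h : IsWeightedHomogeneous ω Q (n, D)) : eval ev Q ∈ Fil ev ω n :=
  (mem_Fil_iff ev ω n _).2 ⟨Q, fun μ hμ => by rw [h hμ], rfl⟩

theorem prod_tail (μ : Fin (N + 1) →₀ ℕ) : (μ.prod fun i k => ev i ^ k) =
    ev 0 ^ μ 0 * μ.tail.prod fun i k => ev i.succ ^ k := by
  rw [Finsupp.prod_fintype _ _ (fun _ => pow_zero _),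
    Finsupp.prod_fintype _ _ (fun _ => pow_zero _), Fin.prod_univ_succ]
  rfl

variable [IsLocalRing R]

theorem w1 (hA : Adm ev ω) (μ : Fin (N + 1) →₀ ℕ) :
    (Finsupp.weight ω μ).1 = ∑ i : Fin N, (μ.tail i : ℤ) * (ω i.succ).1 := by
  rw [weight_tail hA.w0, weight_fin, Prod.fst_add, Prod.fst_sum, zero_add]
  exact Finset.sum_congr rfl fun i _ => by rw [Prod.smul_fst, nsmul_eq_mul]

theorem w2 (hA : Adm ev ω) (μ : Fin (N + 1) →₀ ℕ) :
    (Finsupp.weight ω μ).2 = μ 0 + ∑ i : Fin N, (μ.tail i : ℤ) * (ω i.succ).2 := by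
  rw [weight_tail hA.w0, weight_fin, Prod.snd_add, Prod.snd_sum]
  exact congrArg _ (Finset.sum_congr rfl fun i _ => by rw [Prod.smul_snd, nsmul_eq_mul])

theorem mem_max (hA : Adm ev ω) (i : Fin N) : ev i.succ ∈ maximalIdeal R :=
  hA.qr.1 ▸ Ideal.subset_span ⟨i, rfl⟩

theorem prod_mem (hA : Adm ev ω) (μ : Fin (N + 1) →₀ ℕ) :
    (μ.prod fun i k => ev i ^ k) ∈ maximalIdeal R ^ μ.tail.degree := by
  rw [prod_tail]
  exact Ideal.mul_mem_left _ _ (prod_mem_pow _ _ _ fun i _ => mem_max hA i)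

theorem le_pow (hA : Adm ev ω) (n : ℕ) :
    Fil ev ω ((∑ i : Fin N, (ω i.succ).1) * n - (∑ i : Fin N, (ω i.succ).1) + 1) ≤
      maximalIdeal R ^ n := by
  refine Ideal.span_le.2 ?_
  rintro _ ⟨μ, hμ, rfl⟩
  refine Ideal.pow_le_pow_right ?_ (prod_mem hA μ)
  set W := ∑ i : Fin N, (ω i.succ).1 with hW
  have h0 : 0 ≤ W := Finset.sum_nonneg fun i _ => (hA.pos i).le
  have h1 : (Finsupp.weight ω μ).1 ≤ W * (μ.tail.degree : ℤ) := by
    rw [w1 hA, Finsupp.degree_eq_sum, Nat.cast_sum, Finset.mul_sum]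
    refine Finset.sum_le_sum fun i _ => ?_
    rw [mul_comm]
    exact mul_le_mul_of_nonneg_right (Finset.single_le_sum (f := fun i : Fin N => (ω i.succ).1)
      (fun j _ => (hA.pos j).le) (Finset.mem_univ i)) (Nat.cast_nonneg _)
  by_contra hc
  have h2 : (μ.tail.degree : ℤ) + 1 ≤ n := by exact_mod_cast Nat.succ_le_of_lt (not_le.1 hc)
  nlinarith

theorem one (hA : Adm ev ω) : Fil ev ω 1 = maximalIdeal R := by
  apply le_antisymm
  · simpa using le_pow hA 1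
  · rw [← hA.qr.1, Ideal.span_le]
    rintro _ ⟨i, rfl⟩
    refine Ideal.subset_span ⟨Finsupp.single i.succ 1, ?_, by simp⟩
    rw [Finsupp.weight_single, one_smul]
    exact hA.pos i

theorem pow_le (hA : Adm ev ω) (n : ℕ) : maximalIdeal R ^ n ≤ Fil ev ω n := by
  induction n with
  | zero => rw [top _ (by simp)]; exact le_top
  | succ n ih =>
    rw [pow_succ, Nat.cast_succ]
    exact (Ideal.mul_mono ih (one hA).ge).trans (mul _ _)

theorem ex (hA : Adm ev ω) (n D : ℤ) (z : R) (hz : z ∈ Fil ev ω n) (h : n ≤ D) :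
    ∃ Q, IsWeightedHomogeneous ω Q (n, D) ∧ z - eval ev Q ∈ Fil ev ω (n + 1) := by
  induction hz using Submodule.span_induction with
  | mem z hz =>
    obtain ⟨μ, hμ, rfl⟩ := hz
    rcases hμ.lt_or_eq with h1 | h1
    · exact ⟨0, isWeightedHomogeneous_zero _ _ _, by
        rw [map_zero, sub_zero]; exact Ideal.subset_span ⟨μ, h1, rfl⟩⟩
    · obtain ⟨v, hv⟩ := hA.unit.exists_right_inv
      have h2 : ∑ i : Fin N, (μ.tail i : ℤ) * (ω i.succ).2 ≤ D := by
        refine le_trans ?_ (h1.ge.trans h)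
        rw [w1 hA]
        refine Finset.sum_le_sum fun i _ => mul_le_mul_of_nonneg_left ?_ (Nat.cast_nonneg _)
        exact (hA.deg i).2.trans (hA.pos i)
      obtain ⟨k, hk⟩ := Int.eq_ofNat_of_zero_le (sub_nonneg.2 h2)
      refine ⟨monomial (μ.tail.cons k) (ev 0 ^ μ 0 * v ^ k),
        isWeightedHomogeneous_monomial _ _ _ (Prod.ext ?_ ?_), ?_⟩
      · rw [w1 hA, Finsupp.tail_cons, ← w1 hA, ← h1]
      · rw [w2 hA, Finsupp.tail_cons, Finsupp.cons_zero, ← hk, sub_add_cancel]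
      · rw [eval_monomial, prod_tail, prod_tail, Finsupp.tail_cons, Finsupp.cons_zero, mul_assoc,
          ← mul_assoc (v ^ k), ← mul_pow, mul_comm v, hv, one_pow, one_mul, sub_self]
        exact zero_mem _
  | zero => exact ⟨0, isWeightedHomogeneous_zero _ _ _, by simp⟩
  | add x y _ _ hx hy =>
    obtain ⟨Q, hQ, e⟩ := hx
    obtain ⟨Q', hQ', e'⟩ := hy
    exact ⟨Q + Q', hQ.add hQ', by
      rw [map_add, add_sub_add_comm]; exact add_mem e e'⟩
  | smul c x _ hx =>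
    obtain ⟨Q, hQ, e⟩ := hx
    exact ⟨C c * Q, hQ.C_mul c, by
      rw [map_mul, eval_C, smul_eq_mul, ← mul_sub]; exact Ideal.mul_mem_left _ _ e⟩

theorem mem {n D : ℤ} {z : R} {P} (h : LF ev ω n D z P) : z ∈ Fil ev ω n := by
  obtain ⟨Q, hQ, -, e⟩ := h
  rw [← sub_add_cancel z (eval ev Q)]
  exact add_mem (mono _ _ (by omega) e) (eval_mem n D Q hQ)

theorem eval_mem_succ (hA : Adm ev ω) {n D : ℤ} {Q : MvPolynomial (Fin (N + 1)) R}
    (hQ : IsWeightedHomogeneous ω Q (n, D)) (h : ∀ μ, coeff μ Q ∈ maximalIdeal R) :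
    eval ev Q ∈ Fil ev ω (n + 1) := by
  rw [Q.as_sum, map_sum]
  refine Ideal.sum_mem _ fun μ hμ => ?_
  rw [eval_monomial]
  exact mul_mem ((one hA).ge (h μ)) (n' := n)
    (Ideal.subset_span ⟨μ, by rw [hQ (mem_support_iff.1 hμ)], rfl⟩) (add_comm _ _)

end Lf

open Lf

theorem lfb (h : QRW) : LFB := by
  intro R _ _ N ev ω hA
  refine ⟨Lf.top, mono, mul, one hA, pow_le hA, fun n => ⟨_, le_pow hA n⟩, eval_mem,
    fun n D z hz hn => ?_, fun n D z P => mem, ?_, ?_, fun n D z hz => ?_, ?_, ?_, ?_, ?_,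
    fun n D P hP => ?_, fun i => ?_, fun c => ?_⟩
  · obtain ⟨Q, hQ, e⟩ := ex hA n D z hz hn
    exact ⟨_, Q, hQ, rfl, e⟩
  · rintro n D z P ⟨Q, hQ, rfl, -⟩ μ hμ
    exact hQ fun h0 => hμ (by rw [coeff_map, h0, map_zero])
  · rintro n D z P ⟨Q, hQ, rfl, e⟩
    constructor
    · intro h0
      rw [← sub_add_cancel z (eval ev Q)]
      refine add_mem e (eval_mem_succ hA hQ fun μ => ?_)
      rw [← residue_eq_zero_iff, ← coeff_map, h0, coeff_zero]
    · intro hz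
      ext μ
      rw [coeff_map, coeff_zero, residue_eq_zero_iff]
      refine h R N ev ω hA n D Q hQ ?_ μ
      rw [← sub_sub_cancel z (eval ev Q)]
      exact sub_mem hz e
  · exact ⟨0, isWeightedHomogeneous_zero _ _ _, map_zero _, by rwa [map_zero, sub_zero]⟩
  · rintro n D z z' P ⟨Q, hQ, rfl, e⟩ h1
    refine ⟨Q, hQ, rfl, ?_⟩
    rw [← sub_sub_sub_cancel_left _ _ z]
    exact sub_mem e h1
  · rintro n D z z' P P' ⟨Q, hQ, rfl, e⟩ ⟨Q', hQ', rfl, e'⟩
    exact ⟨Q + Q', hQ.add hQ', map_add _ _ _, by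
      rw [map_add, add_sub_add_comm]; exact add_mem e e'⟩
  · rintro n D z P ⟨Q, hQ, rfl, e⟩
    exact ⟨-Q, hQ.neg, map_neg _ _, by
      rw [map_neg, ← neg_sub', neg_mem_iff]; exact e⟩
  · rintro n D n' D' z z' P P' ⟨Q, hQ, rfl, e⟩ ⟨Q', hQ', rfl, e'⟩
    have h1 : IsWeightedHomogeneous ω (Q * Q') ((n, D) + (n', D')) := hQ.mul hQ'
    rw [Prod.mk_add_mk] at h1
    refine ⟨Q * Q', h1, map_mul (MvPolynomial.map (residue R)) Q Q', ?_⟩
    rw [map_mul, show z * z' - eval ev Q * eval ev Q' =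
      (z - eval ev Q) * z' + eval ev Q * (z' - eval ev Q') by ring]
    exact add_mem (Lf.mul_mem e (mem (D := D') ⟨Q', hQ', rfl, e'⟩) (by omega))
      (Lf.mul_mem (eval_mem n D Q hQ) e' (by omega))
  · obtain ⟨Q, rfl⟩ := MvPolynomial.map_surjective (residue R) residue_surjective P
    refine ⟨_, weightedHomogeneousComponent ω (n, D) Q,
      weightedHomogeneousComponent_isWeightedHomogeneous _ _, ?_, by
        rw [sub_self]; exact zero_mem _⟩
    ext μ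
    rw [coeff_map, coeff_weightedHomogeneousComponent]
    split_ifs with h1
    · rw [coeff_map]
    · rw [map_zero, hP.coeff_eq_zero _ h1]
  · exact ⟨X i, isWeightedHomogeneous_X _ _ _, map_X _ _, by
      rw [eval_X, sub_self]; exact zero_mem _⟩
  · exact ⟨C c, isWeightedHomogeneous_C _ _, map_C _ _, by
      rw [eval_C, sub_self]; exact zero_mem _⟩

end Vale.Agent.P236Z.Tate
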