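import Vale.Agent.P236Z.Tate.Alg

/-!
# P236, block TATE: the action on leading forms (LFT)
-/

namespace Vale.Agent.P236Z.Tate

open IsLocalRing MvPolynomial

namespace LftH

variable {R : Type} [CommRing R]

variable (R) in
/-- the derivation of the graded model over `R` -/
noncomputable def dR : Derivation R (MvPolynomial (Fin 7) R) (MvPolynomial (Fin 7) R) :=
  mkDerivation R ![X 2, 0, - (X 1 * X 0), X 4, - (X 1 * X 3), X 6, - (X 1 * X 5)]

theorem map_dR {k : Type} [Field k] (f : R →+* k) (Q : MvPolynomial (Fin 7) R) :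
    MvPolynomial.map f (dR R Q) = dd k (MvPolynomial.map f Q) := by
  induction Q using MvPolynomial.induction_on with
  | C a => rw [map_C, derivation_C, derivation_C, map_zero]
  | add P Q a b => simp only [map_add, a, b]
  | mul_X P i a =>
    have h : MvPolynomial.map f (dR R (X i)) = dd k (X i) := by
      rw [dR, dd, mkDerivation_X, mkDerivation_X]
      fin_cases i <;> simp
    simp only [Derivation.leibniz, smul_eq_mul, map_add, map_mul, map_X, a, h]

theorem wh_dR (i : Fin 7) : IsWeightedHomogeneous om (dR R (X i)) ((om i).1 + 1, (om i).2) := by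
  have h := fun j => isWeightedHomogeneous_X R om j
  rw [dR, mkDerivation_X]
  fin_cases i
  exacts [h 2, isWeightedHomogeneous_zero R _ _, ((h 1).mul (h 0)).neg, h 4,
    ((h 1).mul (h 3)).neg, h 6, ((h 1).mul (h 5)).neg]

variable [IsLocalRing R] {H : Tw R} {x : Fin 3 → R}

theorem adm (hc : QRC) (hB : Base R) (P : Par H x) : Adm (evx H x) om := by
  obtain ⟨s, hs⟩ := hB.qr
  refine ⟨P.unit, rfl, by decide, by decide, hc R 6 s _ hs ?_⟩
  rw [← P.gen]
  congr 1
  change Set.range ![3, H.T 1 (x 0), x 1, H.T 1 (x 1), x 2, H.T 1 (x 2)] = _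
  ext z
  simp only [Matrix.range_cons, Matrix.range_empty, Set.mem_union, Set.mem_singleton_iff,
    Set.mem_empty_iff_false, Set.mem_insert_iff]
  tauto

theorem t_mem (P : Par H x) : (H.t : R) - 1 ∈ maximalIdeal R := by
  have h : H.T 1 (x 0) ∈ maximalIdeal R := P.gen ▸ Ideal.subset_span (by simp)
  refine (Ideal.unit_mul_mem_iff_mem _ P.unit).1 ?_
  have e : x 0 * ((H.t : R) - 1) = H.T 1 (x 0) - (H.g (x 0) - x 0) * H.t := by
    rw [Tw.T, Tw.act_one']
    ring
  exact e ▸ sub_mem h (Ideal.mul_mem_right _ _ (P.res _))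

/-- `T` acts on `Q` by the derivation up to terms of higher weight -/
structure W (H : Tw R) (x : Fin 3 → R) (w : ℤ × ℤ) (Q : MvPolynomial (Fin 7) R) : Prop where
  wh : IsWeightedHomogeneous om Q w
  wd : IsWeightedHomogeneous om (dR R Q) (w.1 + 1, w.2)
  T : H.T w.2 (eval (evx H x) Q) - eval (evx H x) (dR R Q) ∈ Fil (evx H x) om (w.1 + 2)

variable (api : LFApi (evx H x) om)
include api

theorem mul_mem {n n' m : ℤ} {a b : R} (ha : a ∈ Fil (evx H x) om n) (hb : b ∈ Fil (evx H x) om n')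
    (h : m ≤ n + n') : a * b ∈ Fil (evx H x) om m :=
  api.mono _ _ h (api.mul n n' (Ideal.mul_mem_mul ha hb))

theorem W.T' {w : ℤ × ℤ} {Q : MvPolynomial (Fin 7) R} (h : W H x w Q) :
    H.T w.2 (eval (evx H x) Q) ∈ Fil (evx H x) om (w.1 + 1) := by
  have := add_mem (api.mono _ _ (by omega : w.1 + 1 ≤ w.1 + 2) h.T) (api.eval_mem _ _ _ h.wd)
  rwa [sub_add_cancel] at this

theorem W.mul {w w' : ℤ × ℤ} {Q Q' : MvPolynomial (Fin 7) R} (h : W H x w Q) (h' : W H x w' Q') :
    W H x (w + w') (Q * Q') := by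
  refine ⟨h.wh.mul h'.wh, ?_, ?_⟩
  · rw [Derivation.leibniz, smul_eq_mul, smul_eq_mul]
    refine IsWeightedHomogeneous.add ?_ ?_
    · convert h.wh.mul h'.wd using 1
      exact Prod.ext (add_assoc _ _ _) rfl
    · convert h'.wh.mul h.wd using 1
      exact Prod.ext (by simp only [Prod.fst_add]; ring) (add_comm _ _)
  · have := add_mem (add_mem
      (mul_mem api (m := w.1 + w'.1 + 2) h.T (api.eval_mem _ _ _ h'.wh) (by omega))
      (mul_mem api (h.T' api) (h'.T' api) (by omega)))
      (mul_mem api (api.eval_mem _ _ _ h.wh) h'.T (by omega))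
    rw [Prod.fst_add]
    convert this using 1
    simp only [Derivation.leibniz, smul_eq_mul, map_add, map_mul, Prod.snd_add, Tw.T_mul, Tw.act_eq]
    ring

omit [IsLocalRing R] api in
theorem w_C {c : R} (hc : H.T 0 c ∈ Fil (evx H x) om 2) : W H x 0 (C c) :=
  ⟨isWeightedHomogeneous_C _ _, by rw [derivation_C]; exact isWeightedHomogeneous_zero R _ _,
    by rwa [derivation_C, map_zero, sub_zero, eval_C]⟩

theorem w_X (P : Par H x) (i : Fin 7) : W H x (om i) (X i) := by
  refine ⟨isWeightedHomogeneous_X R om i, wh_dR i, ?_⟩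
  have v := fun j => api.mem _ _ _ _ (api.var j)
  have k : ∀ y : R, H.T 1 (H.T 1 y) - -(3 * y) = H.tr 1 y - 3 * H.T 1 y := fun y => by
    rw [H.tr_eq, H.act_eq]
    ring
  rw [dR, mkDerivation_X, eval_X]
  fin_cases i
  · simp [evx, om]
  · simp [evx, om, Tw.T, Tw.act_zero', map_ofNat]
  · simp only [map_neg, map_mul, eval_X, Fin.reduceFinMk, Matrix.cons_val]
    refine (k (x 0)).symm ▸ sub_mem (Ideal.span_le.2 ?_ P.tr0) (mul_mem api (v 1) (v 2) le_rfl)
    rintro _ (rfl | rfl | rfl | rfl)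
    exacts [v 3, api.mono 3 6 (by decide) (v 5), api.mono 3 4 (by decide) (v 4),
      api.mono 3 7 (by decide) (v 6)]
  · simp [evx, om]
  · simp only [map_neg, map_mul, eval_X, Fin.reduceFinMk, Matrix.cons_val]
    refine (k (x 1)).symm ▸ sub_mem (Ideal.span_le.2 ?_ P.tr1) (mul_mem api (v 1) (v 4) le_rfl)
    rintro _ (rfl | rfl)
    exacts [v 5, api.mono 6 7 (by decide) (v 6)]
  · simp [evx, om]
  · simp only [map_neg, map_mul, eval_X, Fin.reduceFinMk, Matrix.cons_val]
    exact (k (x 2)).symm ▸ sub_mem (P.tr2 ▸ zero_mem _) (mul_mem api (v 1) (v 6) le_rfl)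

theorem w_mon (P : Par H x) {c : R} (hc : H.T 0 c ∈ Fil (evx H x) om 2) (μ : Fin 7 →₀ ℕ) :
    W H x (Finsupp.weight om μ) (monomial μ c) := by
  induction μ using Finsupp.induction with
  | zero =>
    rw [map_zero]
    exact w_C hc
  | single_add i k μ _ _ ih =>
    clear * - ih api P
    induction k with
    | zero => rwa [Finsupp.single_zero, zero_add]
    | succ k ih' =>
      have := (w_X api P i).mul api ih'
      rwa [X, monomial_mul, one_mul, ← add_assoc, ← Finsupp.single_add, add_comm 1,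
        ← one_smul ℕ (om i), ← Finsupp.weight_single, ← map_add, ← add_assoc,
        ← Finsupp.single_add, add_comm 1] at this

theorem fT (P : Par H x) (d n : ℤ) (z : R) (hz : z ∈ Fil (evx H x) om n) :
    H.T d z ∈ Fil (evx H x) om (n + 1) := by
  have ac : ∀ {d z}, z ∈ Fil (evx H x) om n → H.T d z ∈ Fil (evx H x) om (n + 1) →
      H.act d z ∈ Fil (evx H x) om n := fun a b =>
    H.act_eq _ _ ▸ add_mem a (api.mono _ _ (by omega) b)
  induction hz using Submodule.span_induction with
  | mem z hz =>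
    obtain ⟨μ, h1, rfl⟩ := hz
    have h := w_mon api P (c := 1) (by simp [Tw.T, Tw.act_zero']) μ
    have h2 := api.mono _ _ (add_le_add_left h1 1) (h.T' api)
    have h3 := api.mono _ _ h1 (api.eval_mem _ _ _ h.wh)
    rw [eval_monomial, one_mul] at h2 h3
    have h4 := add_mem (mul_mem api (ac h3 h2) (api.one.symm ▸
      Tw.zpow_sub_one_mem (t_mem P) (d - (Finsupp.weight om μ).2)) le_rfl) h2
    convert h4 using 1
    rw [Tw.T, Tw.T, mul_sub, ← Tw.act_deg, add_sub_cancel]
    ring
  | zero => simp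
  | add a b _ _ ha hb => exact H.T_add d a b ▸ add_mem ha hb
  | smul c z hz h =>
    have := H.T_mul 0 d c z
    rw [zero_add] at this
    rw [smul_eq_mul, this]
    refine add_mem (mul_mem api (n := 1) ?_ (ac hz h) (by omega)) (Ideal.mul_mem_left _ _ h)
    rw [api.one, Tw.T, Tw.act_zero']
    exact P.res c

theorem T_const (hB : Base R) (P : Par H x) (c : R) : H.T 0 c ∈ Fil (evx H x) om 2 := by
  obtain ⟨s, hs⟩ := hB.perf c
  have h1 : H.g s - s ∈ Fil (evx H x) om 1 := api.one ▸ P.res s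
  have h3 : (3 : R) ∈ Fil (evx H x) om 2 := api.mem _ _ _ _ (api.var 1)
  have e : H.T 0 c = H.T 0 (c - s ^ 3) + ((H.g s - s) * (H.g s - s) * (H.g s - s) +
      3 * (s * H.g s * (H.g s - s))) := by
    simp only [Tw.T, Tw.act_zero', map_sub, map_pow]
    ring
  exact e ▸ add_mem (fT api P 0 1 _ (api.one ▸ hs)) (add_mem
    (Ideal.mul_mem_right _ _ (mul_mem api h1 h1 le_rfl)) (Ideal.mul_mem_right _ _ h3))

theorem w_all (hB : Base R) (P : Par H x) {w : ℤ × ℤ} {Q : MvPolynomial (Fin 7) R}
    (h : IsWeightedHomogeneous om Q w) : W H x w Q := by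
  induction h using IsWeightedHomogeneous.induction_on with
  | zero => exact ⟨isWeightedHomogeneous_zero R _ _,
      by rw [map_zero]; exact isWeightedHomogeneous_zero R _ _, by simp⟩
  | add P Q _ _ a b =>
    refine ⟨a.wh.add b.wh, by rw [map_add]; exact a.wd.add b.wd, ?_⟩
    convert add_mem a.T b.T using 1
    simp only [map_add, Tw.T_add]
    ring
  | monomial μ c h => exact h ▸ w_mon api P (T_const api hB P c) μ

theorem lfT (hB : Base R) (P : Par H x) {n D : ℤ} {z : R}
    {Q : MvPolynomial (Fin 7) (ResidueField R)} (h : LF (evx H x) om n D z Q) :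
    LF (evx H x) om (n + 1) D (H.T D z) (dd (ResidueField R) Q) := by
  obtain ⟨Q, h1, rfl, h2⟩ := h
  have h3 := w_all api hB P h1
  refine ⟨_, h3.wd, map_dR _ Q, ?_⟩
  have := add_mem (fT api P D _ _ h2) (api.mono (n + 1 + 1) (n + 2) (by omega) h3.T)
  rwa [Tw.T_sub, sub_add_sub_cancel] at this

theorem lfA (P : Par H x) {n D : ℤ} {z : R} {Q : MvPolynomial (Fin 7) (ResidueField R)}
    (h : LF (evx H x) om n D z Q) : LF (evx H x) om n D (H.act D z) Q :=
  api.congr _ _ _ _ _ h (by
    rw [← neg_sub]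
    exact neg_mem (fT api P D n z (api.mem _ _ _ _ h)))

end LftH

open LftH in
/-- **LFT** -/
theorem lft (hc : QRC) (hb : LFB) : LFT := by
  intro R _ _ hB H x P
  have api := hb R 6 _ _ (adm hc hB P)
  refine ⟨adm hc hB P, ⟨api.top, api.mono, api.mul, api.pow_le, api.le_pow, fT api P,
    fun d n z hz => ?_⟩, fun n D z Q h => lfA api P h, fun n D z Q h => lfT api hB P h,
    fun n D z Q h => ?_⟩
  · have h1 := fT api P d n z hz
    rw [H.tr_eq, H.act_eq]
    exact add_mem (api.mono _ _ (by omega) (fT api P d _ _ h1))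
      (mul_mem api (n := 2) (api.mem _ _ _ _ (api.var 1))
        (add_mem hz (api.mono _ _ (by omega) h1)) (by omega))
  · have h1 := lfT api hB P (lfT api hB P h)
    have h2 : LF (evx H x) om (2 + n) (0 + D) (3 * H.act D z) (X 1 * Q) :=
      api.lmul _ _ _ _ _ _ _ _ (api.var 1) (lfA api P h)
    rw [zero_add, add_comm] at h2
    rw [add_assoc] at h1
    exact H.tr_eq D z ▸ api.add _ _ _ _ _ _ h1 h2

end Vale.Agent.P236Z.Tate
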