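import Vale.Agent.P236Z.Tate.Sk

/-!
# P236, block TATE: the corrected row LIN
-/

namespace Vale.Agent.P236Z.Tate

open IsLocalRing

/-- linear algebra on the cotangent space (`3` is one of six generators of the maximal ideal) -/
def LIN2 : Prop :=
  ∀ (R : Type) [CommRing R] [IsLocalRing R], Base R →
    (∃ u : Fin 5 → R, Ideal.span {3} ⊔ Ideal.span (Set.range u) = maximalIdeal R) →
    ∀ A : Tw R, A.cube.Ord3 → A.J = maximalIdeal R →
    (∀ w, IsUnit w → Ideal.span {3, xw A w 1, xw A w 2, A.cube.T 1 (xw A w 0),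
      A.cube.T 1 (xw A w 1), A.cube.T 1 (xw A w 2)} = maximalIdeal R) ∧
    ∀ τ s, IsUnit τ → A.cube.J ⊔ Ideal.span {A.tr (-2) τ, s} = maximalIdeal R →
      (∀ x₀ v₁ v₂, IsUnit x₀ → IsUnit v₁ → IsUnit v₂ →
        Ideal.span {3, s * v₁, A.tr (-2) τ * v₂, A.cube.T 1 x₀, A.cube.T 1 (s * v₁),
          A.cube.T 1 (A.tr (-2) τ * v₂)} = maximalIdeal R) ∧
      ∀ w, IsUnit w → ∃ c, IsUnit c ∧ A.tr (-2) τ - c * xw A w 2 ∈ A.cube.J ⊔ maximalIdeal R ^ 2

end Vale.Agent.P236Z.Tate
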