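import Vale.Agent.P236Z.Tate.Alg
import Vale.Agent.P236Z.Tate.Sk2

/-!
# P236, block TATE: linear algebra on the cotangent space (LIN)
-/

namespace Vale.Agent.P236Z.Tate

open IsLocalRing

namespace LinH

variable {R : Type} [CommRing R]

/-- `g - 1` -/
def th (A : Tw R) : Module.End ℤ R := (AddMonoidHom.mk' (A.T 0) (A.T_add 0)).toIntLinearMap

theorem th_succ (A : Tw R) (i : ℕ) (z : R) : (th A ^ (i + 1)) z = A.T 0 ((th A ^ i) z) := by
  rw [pow_succ']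
  rfl

theorem th_add (A : Tw R) (i j : ℕ) (z : R) : (th A ^ (i + j)) z = (th A ^ i) ((th A ^ j) z) := by
  rw [pow_add]
  rfl

theorem T0 (A : Tw R) (z : R) : A.T 0 z = A.g z - z := by rw [Tw.T, Tw.act_zero']

variable [IsLocalRing R]

variable (R) in
/-- the sum of the ideal of three and the square of the maximal ideal -/
def K : Ideal R := Ideal.span {3} ⊔ maximalIdeal R ^ 2

theorem K3 (a : R) : 3 * a ∈ K R :=
  Ideal.mem_sup_left (Ideal.mul_mem_right _ _ (Ideal.mem_span_singleton_self _))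

theorem Kmm {a b : R} (ha : a ∈ maximalIdeal R) (hb : b ∈ maximalIdeal R) : a * b ∈ K R :=
  Ideal.mem_sup_right (sq (maximalIdeal R) ▸ Ideal.mul_mem_mul ha hb)

theorem dep {u : Fin 5 → R} (hu : Ideal.span {3} ⊔ Ideal.span (Set.range u) = maximalIdeal R)
    (y : Fin 6 → R) (hy : ∀ i, y i ∈ maximalIdeal R) :
    ∃ c : Fin 6 → R, (∃ i, IsUnit (c i)) ∧ ∑ i, c i * y i ∈ K R := by
  have h : ∀ i, ∃ (b : R) (a : Fin 5 → R), y i = 3 * b + ∑ j, a j * u j := fun i => by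
    obtain ⟨p, hp, q, hq, e⟩ := Submodule.mem_sup.1 (hu ▸ hy i)
    obtain ⟨b, rfl⟩ := Ideal.mem_span_singleton'.1 hp
    obtain ⟨a, rfl⟩ := Ideal.mem_span_range_iff_exists_fun.1 hq
    exact ⟨b, a, by rw [← e, mul_comm]⟩
  choose b a h using h
  obtain ⟨c', h1, i, h2⟩ := Fintype.not_linearIndependent_iff.1
    (fun h : LinearIndependent (ResidueField R) fun i j => residue R (a i j) => by
      simpa using h.fintype_card_le_finrank)
  choose c hc using fun i => residue_surjective (c' i)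
  refine ⟨c, ⟨i, (residue_ne_zero_iff_isUnit _).1 (hc i ▸ h2)⟩, ?_⟩
  have e : ∑ i, c i * y i = 3 * ∑ i, c i * b i + ∑ j, (∑ i, c i * a i j) * u j := by
    simp only [h, mul_add, Finset.sum_add_distrib, Finset.mul_sum, Finset.sum_mul, mul_assoc,
      mul_left_comm _ (3 : R)]
    rw [Finset.sum_comm]
  rw [e]
  refine add_mem (K3 _) (sum_mem fun j _ => Kmm ((residue_eq_zero_iff _).1 ?_)
    (hu ▸ Ideal.mem_sup_right (Ideal.subset_span ⟨j, rfl⟩)))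
  simpa [hc] using congrFun h1 j

/-- the hypotheses -/
structure Hy (A : Tw R) : Prop where
  base : Base R
  J : A.J = maximalIdeal R
  ord : A.cube.Ord3
  five : ∃ u : Fin 5 → R, Ideal.span {3} ⊔ Ideal.span (Set.range u) = maximalIdeal R

variable {A : Tw R} (h : Hy A)
include h

theorem Hy.T_m (d : ℤ) (z : R) : A.T d z ∈ maximalIdeal R := h.J ▸ A.T_mem_J d z

theorem Hy.act_m (d : ℤ) {z : R} (hz : z ∈ maximalIdeal R) : A.act d z ∈ maximalIdeal R :=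
  A.act_eq d z ▸ add_mem hz (h.T_m d z)

theorem Hy.K_le : K R ≤ maximalIdeal R :=
  sup_le ((Ideal.span_singleton_le_iff_mem _).2 h.base.three) (Ideal.pow_le_self two_ne_zero)

theorem Hy.T_K {z : R} (hz : z ∈ K R) : A.T 0 z ∈ K R := by
  obtain ⟨p, hp, q, hq, rfl⟩ := Submodule.mem_sup.1 hz
  obtain ⟨b, rfl⟩ := Ideal.mem_span_singleton'.1 hp
  rw [A.T_add, mul_comm, A.T_three_mul]
  refine add_mem (K3 _) ?_
  rw [sq] at hq
  refine Submodule.mul_induction_on hq (fun a ha c hc => ?_) fun a c ha hc =>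
    A.T_add 0 a c ▸ add_mem ha hc
  exact A.T_mul 0 0 a c ▸ add_mem (Kmm (h.T_m _ _) (h.act_m _ hc)) (Kmm ha (h.T_m _ _))

theorem Hy.th_m (i : ℕ) {z : R} (hz : z ∈ maximalIdeal R) : (th A ^ i) z ∈ maximalIdeal R := by
  rcases i with _ | i
  exacts [hz, th_succ A i z ▸ h.T_m _ _]

theorem Hy.th_K (i : ℕ) {z : R} (hz : z ∈ K R) : (th A ^ i) z ∈ K R := by
  induction i with
  | zero => exact hz
  | succ i ih => exact th_succ A i z ▸ h.T_K ih

theorem Hy.T_mul (r : R) {z : R} (hz : z ∈ maximalIdeal R) : A.T 0 (r * z) - r * A.T 0 z ∈ K R := by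
  have := A.T_mul 0 0 r z
  rw [add_zero] at this
  rw [this, add_sub_cancel_right]
  exact Kmm (h.T_m _ _) (h.act_m _ hz)

theorem Hy.th_mul (i : ℕ) (r : R) {z : R} (hz : z ∈ maximalIdeal R) :
    (th A ^ i) (r * z) - r * (th A ^ i) z ∈ K R := by
  induction i with
  | zero => simp
  | succ i ih =>
    have := add_mem (h.T_K ih) (h.T_mul r (h.th_m i hz))
    rwa [A.T_sub, sub_add_sub_cancel, ← th_succ, ← th_succ] at this

omit h in
theorem cube_th (A : Tw R) (z : R) : A.cube.T 0 z - (th A ^ 3) z ∈ K R := by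
  rw [A.cube_T, th_succ, th_succ, th_succ, pow_zero, Module.End.one_apply, add_sub_cancel_left]
  exact K3 _

theorem Hy.nine (z : R) : (th A ^ 9) z ∈ K R := by
  have h0 := cube_th A.cube z
  rw [Tw.T, Tw.cube_act, h.ord, sub_self, zero_sub, neg_mem_iff, th_succ, th_succ, th_succ,
    pow_zero, Module.End.one_apply] at h0
  have h1 := sub_mem (sub_mem (sub_mem h0 (cube_th A (A.cube.T 0 (A.cube.T 0 z))))
    (h.th_K 3 (cube_th A (A.cube.T 0 z)))) (h.th_K 6 (cube_th A z))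
  simpa only [map_sub, ← th_add, sub_sub_cancel] using h1

theorem Hy.nil {z : R} (hz : z ∈ maximalIdeal R) : (th A ^ 5) z ∈ K R := by
  obtain ⟨u, hu⟩ := h.five
  obtain ⟨c, h1, h2⟩ := dep hu (fun i => (th A ^ (i : ℕ)) z) fun i => h.th_m i hz
  obtain ⟨j, hj, hm⟩ := wellFounded_lt.has_min {i | IsUnit (c i)} h1
  have key : ∀ n l : ℕ, (j : ℕ) ≤ l → 9 ≤ l + n → (th A ^ l) z ∈ K R := by
    intro n
    induction n with
    | zero =>
      intro l _ hl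
      rw [← Nat.sub_add_cancel (show 9 ≤ l from hl), th_add]
      exact h.th_K _ (h.nine z)
    | succ n ih =>
      intro l h3 h4
      have h5 := sub_mem (h.th_K (l - j) h2)
        (sum_mem fun i (_ : i ∈ Finset.univ) => h.th_mul (l - j) (c i) (h.th_m i hz))
      rw [map_sum, Finset.sum_sub_distrib, sub_sub_cancel,
        ← Finset.add_sum_erase _ _ (Finset.mem_univ j), ← th_add, Nat.sub_add_cancel h3] at h5
      refine (Ideal.unit_mul_mem_iff_mem _ hj).1 ((Submodule.add_mem_iff_left _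
        (sum_mem fun i hi => ?_)).1 h5)
      rcases lt_or_gt_of_ne (Finset.ne_of_mem_erase hi) with a | a
      · exact Kmm ((mem_maximalIdeal _).2 fun b => hm i b a) (h.th_m _ (h.th_m _ hz))
      · have : (j : ℕ) < i := a
        exact Ideal.mul_mem_left _ _ (th_add A _ _ z ▸ ih _ (by omega) (by omega))
  exact key 4 5 (Nat.lt_succ_iff.1 j.2) le_rfl

/-- the image of `θ ^ i` -/
def Hy.U (i : ℕ) : Ideal R where
  carrier := {z | ∃ μ ∈ maximalIdeal R, z - (th A ^ i) μ ∈ K R}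
  zero_mem' := ⟨0, zero_mem _, by simp⟩
  add_mem' := fun ⟨μ, a, b⟩ ⟨ν, c, d⟩ => ⟨μ + ν, add_mem a c, by
    rw [map_add, add_sub_add_comm]; exact add_mem b d⟩
  smul_mem' := fun r z ⟨μ, a, b⟩ => ⟨r * μ, Ideal.mul_mem_left _ _ a, by
    have := sub_mem (Ideal.mul_mem_left _ r b) (h.th_mul i r a)
    rwa [mul_sub, sub_sub_sub_cancel_right] at this⟩

theorem Hy.K_U (i : ℕ) : K R ≤ h.U i := fun z hz => ⟨0, zero_mem _, by simpa using hz⟩

theorem Hy.U_m (i : ℕ) : h.U i ≤ maximalIdeal R := fun z ⟨μ, a, b⟩ =>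
  sub_add_cancel z ((th A ^ i) μ) ▸ add_mem (h.K_le b) (h.th_m i a)

theorem Hy.U0 : maximalIdeal R ≤ h.U 0 := fun z hz => ⟨z, hz, by simp⟩

theorem Hy.U5 : h.U 5 ≤ K R := fun z ⟨μ, a, b⟩ =>
  sub_add_cancel z ((th A ^ 5) μ) ▸ add_mem b (h.nil a)

theorem Hy.U_succ (i : ℕ) : h.U (i + 1) ≤ h.U i := fun z ⟨μ, _, b⟩ =>
  ⟨A.T 0 μ, h.T_m _ _, by rwa [th_add] at b⟩

theorem Hy.T_deg (d : ℤ) {z : R} (hz : z ∈ maximalIdeal R) : A.T d z - A.T 0 z ∈ K R := by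
  have e : A.T d z - A.T 0 z = A.act 0 z * (((A.t ^ d : Rˣ) : R) - 1) := by
    rw [mul_sub, ← A.act_deg, zero_add, Tw.T, Tw.T]
    ring
  exact e ▸ Kmm (h.act_m 0 hz) (Tw.zpow_sub_one_mem (h.J ▸ A.t_mem_J) d)

theorem Hy.T_U (d : ℤ) {i : ℕ} {z : R} (hz : z ∈ h.U i) : A.T d z ∈ h.U (i + 1) := by
  obtain ⟨μ, a, b⟩ := id hz
  have := add_mem (h.T_deg d (h.U_m i hz)) (h.T_K b)
  rw [A.T_sub, sub_add_sub_cancel, ← th_succ] at this
  exact ⟨μ, a, this⟩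

theorem Hy.T_one (z : R) : A.T 0 z ∈ h.U 1 := by
  obtain ⟨s, hs⟩ := h.base.perf z
  have e : A.T 0 z = A.T 0 (z - s ^ 3) + (A.T 0 s * (A.T 0 s * A.T 0 s) +
      3 * (s * A.g s * A.T 0 s)) := by
    simp only [T0, map_sub, map_pow]
    ring
  exact e ▸ add_mem (h.T_U 0 (h.U0 hs)) (h.K_U 1 (add_mem
    (Kmm (h.T_m _ _) (Ideal.mul_mem_left _ _ (h.T_m _ _))) (K3 _)))

/-- `y` generates `θ ^ i U / θ ^ (i + 1) U` -/
def Hy.Gen (i : ℕ) (y : R) : Prop := y ∈ h.U i ∧ h.U i ≤ h.U (i + 1) ⊔ Ideal.span {y}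

variable {h} {i : ℕ} {y y' : R}

theorem Hy.Gen.congr (g : h.Gen i y) (e : y' - y ∈ h.U (i + 1)) : h.Gen i y' :=
  ⟨sub_add_cancel y' y ▸ add_mem (h.U_succ i e) g.1, g.2.trans (sup_le le_sup_left
    ((Ideal.span_singleton_le_iff_mem _).2 (sub_sub_cancel y' y ▸ sub_mem
      (Ideal.mem_sup_right (Ideal.mem_span_singleton_self y')) (Ideal.mem_sup_left e))))⟩

theorem Hy.Gen.mul (g : h.Gen i y) {v : R} (hv : IsUnit v) : h.Gen i (y * v) :=
  ⟨Ideal.mul_mem_right _ _ g.1, by rw [Ideal.span_singleton_mul_right_unit hv]; exact g.2⟩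

theorem Hy.Gen.T (g : h.Gen i y) (d : ℤ) : h.Gen (i + 1) (A.T d y) := by
  refine Hy.Gen.congr (y := A.T 0 y) ⟨h.T_U 0 g.1, fun z ⟨μ, a, b⟩ => ?_⟩
    (h.K_U _ (h.T_deg d (h.U_m i g.1)))
  obtain ⟨p, hp, q, hq, e⟩ := Submodule.mem_sup.1 (g.2 ⟨μ, a, by simp⟩ : (th A ^ i) μ ∈ _)
  obtain ⟨c, rfl⟩ := Ideal.mem_span_singleton'.1 hq
  rw [th_succ, ← e, A.T_add] at b
  have := add_mem (add_mem (h.K_U _ (add_mem b (h.T_mul c (h.U_m i g.1)))) (h.T_U 0 hp) |>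
    Ideal.mem_sup_left (T := Ideal.span {A.T 0 y}))
    (Ideal.mem_sup_right (Ideal.mul_mem_left _ c (Ideal.mem_span_singleton_self _)))
  convert this using 1
  ring

theorem Hy.Gen.cube {d : ℤ} (g : h.Gen i (A.T d y)) : h.Gen (i + 2) (A.cube.T d y) :=
  ((g.T d).T d).congr (by rw [A.cube_T, add_sub_cancel_left]; exact h.K_U _ (K3 _))

theorem Hy.Gen.tr {d : ℤ} (g : h.Gen i (A.T d y)) : h.Gen (i + 1) (A.tr d y) :=
  (g.T d).congr (by rw [A.tr_eq, add_sub_cancel_left]; exact h.K_U _ (K3 _))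

variable (h)

theorem Hy.gen_e : h.Gen 0 ((A.t : R) - 1) := by
  refine ⟨h.U0 (h.J ▸ A.t_mem_J), (h.U_m 0).trans (h.J.ge.trans (Ideal.span_le.2 ?_))⟩
  rintro _ ((rfl | rfl) | ⟨r, rfl⟩)
  · exact Ideal.mem_sup_left (h.K_U _ (mul_one (3 : R) ▸ K3 1))
  · exact Ideal.mem_sup_right (Ideal.mem_span_singleton_self _)
  · exact Ideal.mem_sup_left (T0 A r ▸ h.T_one r : A.g r - r ∈ _)

theorem Hy.gen1 {z : R} (hz : IsUnit z) : h.Gen 0 (A.T 1 z) :=
  (h.gen_e.mul (hz.map A.g)).congr (by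
    convert h.T_one z using 1
    rw [T0, Tw.T, Tw.act_one']
    ring)

theorem Hy.gen2 {z : R} (hz : IsUnit z) : h.Gen 0 (A.T (-2) z) := by
  have h1 : IsUnit (1 - (3 + ((A.t : R) - 1))) :=
    isUnit_one_sub_self_of_mem_nonunits _ (add_mem h.base.three (h.J ▸ A.t_mem_J))
  refine (h.gen_e.mul ((A.isUnit_act (-2) hz).mul h1)).congr ?_
  have e : A.g z = A.act (-2) z * (A.t : R) ^ 2 := by
    rw [← A.act_zero', ← Units.val_pow_eq_pow_val, ← zpow_natCast, ← A.act_deg]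
    rfl
  convert h.T_one z using 1
  rw [T0, Tw.T, e]
  ring

theorem Hy.span_eq {y₀ y₁ y₂ y₃ y₄ : R} (g₀ : h.Gen 0 y₀) (g₁ : h.Gen 1 y₁) (g₂ : h.Gen 2 y₂)
    (g₃ : h.Gen 3 y₃) (g₄ : h.Gen 4 y₄) : Ideal.span {3, y₀, y₁, y₂, y₃, y₄} = maximalIdeal R := by
  have := h.base.noeth
  refine le_antisymm (Ideal.span_le.2 ?_) (Submodule.le_of_le_smul_of_le_jacobson_bot
    (IsNoetherian.noetherian _) (maximalIdeal_le_jacobson _) ?_)
  · rintro _ (rfl | rfl | rfl | rfl | rfl | rfl)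
    exacts [h.base.three, h.U_m _ g₀.1, h.U_m _ g₁.1, h.U_m _ g₂.1, h.U_m _ g₃.1, h.U_m _ g₄.1]
  · have k : ∀ y ∈ ({3, y₀, y₁, y₂, y₃, y₄} : Set R), Ideal.span {y} ≤
        Ideal.span {3, y₀, y₁, y₂, y₃, y₄} ⊔ maximalIdeal R • maximalIdeal R := fun y hy =>
      (Ideal.span_mono (Set.singleton_subset_iff.2 hy)).trans le_sup_left
    exact h.U0.trans (g₀.2.trans (sup_le (g₁.2.trans (sup_le (g₂.2.trans (sup_le (g₃.2.trans
      (sup_le (g₄.2.trans (sup_le (h.U5.trans (sup_le (k _ (by simp))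
        ((sq _).le.trans le_sup_right))) (k _ (by simp)))) (k _ (by simp)))) (k _ (by simp))))
      (k _ (by simp)))) (k _ (by simp))))

theorem Hy.gen_t : h.Gen 2 ((A.cube.t : R) - 1) := by
  have := (h.gen1 isUnit_one).cube
  rwa [Tw.T, Tw.act_one', map_one, one_mul] at this

theorem Hy.J_le : A.cube.J ≤ h.U 2 := by
  refine Ideal.span_le.2 ?_
  rintro _ ((rfl | rfl) | ⟨r, rfl⟩)
  · exact h.K_U _ (mul_one (3 : R) ▸ K3 1)
  · exact h.gen_t.1
  · exact ⟨A.T 0 r, h.T_m _ _, (T0 A.cube r ▸ cube_th A r : A.cube.g r - r - (th A ^ 3) r ∈ _)⟩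

theorem Hy.le_J : h.U 2 ≤ A.cube.J ⊔ maximalIdeal R ^ 2 := by
  have k : K R ≤ A.cube.J ⊔ maximalIdeal R ^ 2 :=
    sup_le_sup_right ((Ideal.span_singleton_le_iff_mem _).2 A.cube.three_mem_J) _
  refine h.gen_t.2.trans (sup_le (fun z ⟨μ, _, b⟩ => ?_)
    ((Ideal.span_singleton_le_iff_mem _).2 (Ideal.mem_sup_left A.cube.t_mem_J)))
  have := add_mem (k (sub_mem b (cube_th A μ))) (Ideal.mem_sup_left (A.cube.T_mem_J 0 μ))
  rwa [sub_sub_sub_cancel_right, sub_add_cancel] at this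

end LinH

open LinH in
/-- **LIN** -/
theorem lin : LIN2 := by
  intro R _ _ hB hu A ho hJ
  have h : Hy A := ⟨hB, hJ, ho, hu⟩
  refine ⟨fun w hw => ?_, fun τ s hτ e => ?_⟩
  · have g := h.gen1 hw
    exact h.span_eq g (g.T 1) g.cube (g.T 1).cube ((g.T 1).T 1).cube
  have g := (h.gen2 hτ).tr
  refine ⟨fun x₀ v₁ v₂ h₀ h₁ h₂ => ?_, fun w hw => ?_⟩
  · have gs : h.Gen 0 s := ⟨h.U0 (e ▸ Ideal.mem_sup_right (Ideal.subset_span (by simp))),
      (h.U_m 0).trans (e.ge.trans (sup_le (h.J_le.trans ((h.U_succ 1).trans le_sup_left))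
        (Ideal.span_le.2 (by
          rintro _ (rfl | rfl)
          exacts [Ideal.mem_sup_left g.1, Ideal.mem_sup_right (Ideal.mem_span_singleton_self _)]))))⟩
    exact h.span_eq (gs.mul h₁) (g.mul h₂) (h.gen1 h₀).cube ((gs.mul h₁).T 1).cube
      ((g.mul h₂).T 1).cube
  · have g' := (h.gen1 hw).T 1
    obtain ⟨p, hp, q, hq, e⟩ := Submodule.mem_sup.1 (g'.2 g.1)
    obtain ⟨c, rfl⟩ := Ideal.mem_span_singleton'.1 hq
    by_cases hc : IsUnit c
    · exact ⟨c, hc, h.le_J (eq_sub_of_add_eq e ▸ hp)⟩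
    · have k : A.tr (-2) τ ∈ h.U 2 :=
        e ▸ add_mem hp (h.K_U _ (Kmm ((mem_maximalIdeal _).2 hc) (h.U_m _ g'.1)))
      exact ⟨1, isUnit_one, h.le_J (sub_mem k (Ideal.mul_mem_left _ _
        (g.2.trans (sup_le le_rfl ((Ideal.span_singleton_le_iff_mem _).2 k)) g'.1)))⟩

end Vale.Agent.P236Z.Tate
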