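import Vale.Agent.P236Z.Tate.Cmp

/-!
# P236, block TATE: the normal form up to degree 27
-/

namespace Vale.Agent.P236Z.Tate

open Vale.Agent.P251.F Vale.Agent.P217 IsLocalRing MvPowerSeries Cmp

namespace Nf

section Gen

variable {B : Type} [CommRing B]

theorem ser3_conj (γ : B ≃+* B) (f φ : InvSeries B) :
    ser3 γ (InvSeries.map (γ : B →+* B) φ * f * φ⁻¹) =
      InvSeries.map (γ.trans (γ.trans γ) : B →+* B) φ * ser3 γ f * φ⁻¹ := by
  rw [map_trans]
  simp only [ser3, map_mul, map_inv, mul_assoc, inv_mul_cancel_left]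

/-- the series `x + c x ^ m` -/
noncomputable def mono (c : B) (m : ℕ) : InvSeries B := strictMk fun j => if j + 2 = m then c else 0

theorem coeff_one_mono (c : B) (m : ℕ) : PowerSeries.coeff 1 (mono c m).val = 1 :=
  c_zero_strictMk _

theorem coeff_mono (c : B) (m : ℕ) {j : ℕ} (hj : 2 ≤ j) :
    PowerSeries.coeff j (mono c m).val = if j = m then c else 0 := by
  obtain ⟨k, rfl⟩ : ∃ k, j = k + 2 := ⟨j - 2, by omega⟩
  exact c_succ_strictMk _ k

end Gen

variable {R : Type} [CommRing R] [IsLocalRing R]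

/-- a strict change of coordinates which is trivial up to degree three -/
theorem lt_conj (h3 : (3 : R) ∈ maximalIdeal R) {F : Law R} {γ : R ≃+* R} {f : InvSeries R}
    (h : LT F γ f) {φ : InvSeries R} (h1 : PowerSeries.coeff 1 φ.val = 1)
    (hφ : ∀ j, 2 ≤ j → j < 4 → PowerSeries.coeff j φ.val = 0) :
    LT (φ • F) γ (InvSeries.map (γ : R →+* R) φ * f * φ⁻¹) ∧
      twOf γ (InvSeries.map (γ : R →+* R) φ * f * φ⁻¹) = twOf γ f := by
  set f' := InvSeries.map (γ : R →+* R) φ * f * φ⁻¹ with hf'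
  have e : f' * φ = InvSeries.map (γ : R →+* R) φ * f := by rw [hf', inv_mul_cancel_right]
  have g1 : PowerSeries.coeff 1 (InvSeries.map (γ : R →+* R) φ).val = 1 := by
    rw [InvSeries.map_val, PowerSeries.coeff_map, h1, map_one]
  have gφ : ∀ j, 2 ≤ j → j < 4 → PowerSeries.coeff j (InvSeries.map (γ : R →+* R) φ).val = 0 :=
    fun j a b => by rw [InvSeries.map_val, PowerSeries.coeff_map, hφ j a b, map_zero]
  have c1 : PowerSeries.coeff 1 f'.val = PowerSeries.coeff 1 f.val := by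
    have := congrArg (fun s : InvSeries R => PowerSeries.coeff 1 s.val) e
    simpa only [coeff_one_mul, h1, g1, mul_one, one_mul] using this
  have hact : f' • φ • F = (φ • F).map (γ : R →+* R) := by
    rw [← mul_smul, e, mul_smul, h.act, InvSeries.map_smul]
  have h11 : coeff (e2 1 1) (φ • F).ps = 0 := by
    have := cmp_lt (F := F) rfl (n := 4) (by norm_num) hφ (e2 1 1) (by rw [degree_e2]; norm_num)
    rw [h1, one_pow, one_mul, one_mul] at this
    exact this.symm.trans h.a11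
  have c3 : PowerSeries.coeff 3 f'.val = PowerSeries.coeff 3 f.val := by
    have := congrArg (fun s : InvSeries R => PowerSeries.coeff 3 s.val) e
    rw [coeff_mul φ (by norm_num) (coeff_two h3 hact h11),
      coeff_mul f (by norm_num) (fun j a b => gφ j a (by omega)), hφ 3 (by norm_num) (by norm_num),
      gφ 3 (by norm_num) (by norm_num), h1, g1] at this
    simpa using this
  refine ⟨⟨hact, ?_, h11, h.res, c1 ▸ h.strict, c3 ▸ h.unit, h.ord, ?_⟩, twOf_congr γ c1⟩
  · have : Fact (Nat.Prime 3) := ⟨Nat.prime_three⟩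
    rw [← h.gen]
    exact (IF_eq 3 (InvSeries.isIso_smul φ F) 6).symm
  · rw [hf', ser3_conj, ser3_conj, h.ordf, mul_one, mul_inv_eq_one]
    ext n
    rw [InvSeries.map_val, PowerSeries.coeff_map]
    exact (pow_nine γ _).symm.trans (h.ord _)

theorem exists_choose : ∀ n ≤ 27, 4 ≤ n → n ≠ 9 → n ≠ 27 →
    ∃ i < n, 0 < i ∧ ¬ 3 ∣ n.choose i := by
  intro n h1 h2 h3 h4
  by_cases h : 3 ∣ n
  · by_cases h' : 9 ∣ n
    · obtain rfl : n = 18 := by omega
      exact ⟨9, by norm_num, by norm_num, by decide⟩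
    · refine ⟨3, by omega, by norm_num, ?_⟩
      have : n = 6 ∨ n = 12 ∨ n = 15 ∨ n = 21 ∨ n = 24 := by omega
      rcases this with rfl | rfl | rfl | rfl | rfl <;> decide
  · exact ⟨1, by omega, one_pos, by rwa [Nat.choose_one_right]⟩

theorem step (h3 : (3 : R) ∈ maximalIdeal R) {F : Law R} {γ : R ≃+* R} {f : InvSeries R}
    (h : LT F γ f) (N : ℕ) (hN : N ≤ 24) : ∃ (F' : Law R) (f' : InvSeries R), LT F' γ f' ∧
      twOf γ f' = twOf γ f ∧ ∀ n : ℕ, 2 ≤ n → n ≤ N + 3 → n ≠ 3 → n ≠ 9 → n ≠ 27 →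
        ∃ i, 0 < i ∧ i < n ∧ ¬ 3 ∣ n.choose i ∧ coeff (e2 i (n - i)) F'.ps = 0 := by
  induction N with
  | zero =>
    refine ⟨F, f, h, rfl, fun n a b c _ _ => ?_⟩
    obtain rfl : n = 2 := by omega
    exact ⟨1, one_pos, one_lt_two, by decide, h.a11⟩
  | succ N ih =>
    obtain ⟨F', f', h', ht, hn⟩ := ih (by omega)
    by_cases hm : N + 4 = 9 ∨ N + 4 = 27
    · exact ⟨F', f', h', ht, fun n a b c d e => hn n a (by omega) c d e⟩
    obtain ⟨i, hi, hi0, hc⟩ := exists_choose (N + 4) (by omega) (by omega) (by omega) (by omega)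
    obtain ⟨v, hv⟩ := (isUnit_natCast h3 hc).exists_left_inv
    set φ := mono (-(coeff (e2 i (N + 4 - i)) F'.ps * v)) (N + 4) with hφ
    have h1 : PowerSeries.coeff 1 φ.val = 1 := coeff_one_mono _ _
    have hl : ∀ j, 2 ≤ j → j < N + 4 → PowerSeries.coeff j φ.val = 0 := fun j a b => by
      rw [hφ, coeff_mono _ _ a, if_neg b.ne]
    obtain ⟨k1, k2⟩ := lt_conj h3 h' h1 fun j a b => hl j a (by omega)
    refine ⟨_, _, k1, k2.trans ht, fun n a b c d e => ?_⟩
    rcases Nat.lt_or_ge n (N + 4) with hlt | hge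
    · obtain ⟨j, j0, j1, j2, j3⟩ := hn n a (by omega) c d e
      refine ⟨j, j0, j1, j2, ?_⟩
      have := cmp_lt (F := F') rfl (by omega) hl (e2 j (n - j)) (by rw [degree_e2]; omega)
      rw [h1, one_pow, one_mul, one_mul] at this
      exact this.symm.trans j3
    · obtain rfl : n = N + 4 := by omega
      refine ⟨i, hi0, hi, hc, ?_⟩
      have := cmp_eq (F := F') rfl hl hi0 hi
      rw [h1, one_pow, one_mul, one_mul, hφ, coeff_mono _ _ a, if_pos rfl] at this
      rw [hφ, ← this]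
      linear_combination (-coeff (e2 i (N + 4 - i)) F'.ps) * hv

end Nf

theorem nf : NF := by
  intro R _ _ h3 F γ f h
  obtain ⟨F', f', h1, h2, h4⟩ := Nf.step h3 h 24 le_rfl
  exact ⟨F', f', h1, h4, h2⟩

end Vale.Agent.P236Z.Tate
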