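import Vale.Agent.P236Z.Tate.Sk3
import Vale.Agent.P236Z.Tate.Qr
import Mathlib.RingTheory.Filtration

/-!
# P236, block TATE: the ring of the fixed points
-/

namespace Vale.Agent.P236Z.Tate

open IsLocalRing MvPolynomial

namespace Of

variable {R : Type} [CommRing R]

theorem sup_pow_le (I J : Ideal R) (n : ℕ) : (I ⊔ J) ^ n ≤ I ⊔ J ^ n := by
  induction n with
  | zero => simp
  | succ n ih =>
    rw [pow_succ, pow_succ]
    refine (Ideal.mul_mono_left ih).trans ?_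
    rw [Ideal.sup_mul, Ideal.mul_sup (J ^ n)]
    exact sup_le (le_sup_of_le_left Ideal.mul_le_left)
      (sup_le (le_sup_of_le_left Ideal.mul_le_right) le_sup_right)

variable [IsLocalRing R] {N : ℕ}

/-- quasi-regularity modulo `I` -/
def QRI (I : Ideal R) (s : Fin N → R) : Prop :=
  I ⊔ Ideal.span (Set.range s) = maximalIdeal R ∧ ∀ (n : ℕ) (P : MvPolynomial (Fin N) R),
    P.IsHomogeneous n → eval s P ∈ I ⊔ maximalIdeal R ^ (n + 1) → ∀ μ, P.coeff μ ∈ maximalIdeal R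

variable {I : Ideal R} {s : Fin N → R}

theorem qri_bot (h : QR s) : QRI ⊥ s :=
  ⟨by rw [bot_sup_eq, h.1], fun n P hP hz => h.2 n P hP (by rwa [bot_sup_eq] at hz)⟩

theorem QRI.le (h : QRI I s) : I ≤ maximalIdeal R := h.1 ▸ le_sup_left

theorem QRI.span_le (h : QRI I s) : Ideal.span (Set.range s) ≤ maximalIdeal R :=
  h.1 ▸ le_sup_right

theorem QRI.ex (h : QRI I s) {n : ℕ} {z : R} (hz : z ∈ I ⊔ maximalIdeal R ^ n) :
    ∃ P : MvPolynomial (Fin N) R, P.IsHomogeneous n ∧ z - eval s P ∈ I := by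
  have h1 : I ⊔ maximalIdeal R ^ n ≤ I ⊔ Ideal.span (Set.range s) ^ n :=
    sup_le le_sup_left (h.1 ▸ sup_pow_le _ _ n)
  obtain ⟨i, hi, w, hw, rfl⟩ := Submodule.mem_sup.1 (h1 hz)
  rw [← Qr.II_top] at hw
  obtain ⟨P, hP, rfl⟩ := Qr.exists_of_mem_pow hw
  exact ⟨P, Qr.hs_iff.1 hP, by rwa [add_sub_cancel_right]⟩

theorem QRI.eval_mem (h : QRI I s) {n : ℕ} {P : MvPolynomial (Fin N) R} (hP : P.IsHomogeneous n) :
    eval s P ∈ maximalIdeal R ^ n := by
  have := Qr.eval_mem (s := s) (Qr.hs_iff.2 hP) ⊤ fun _ => Submodule.mem_top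
  rw [Ideal.top_mul, Qr.II_top] at this
  exact Ideal.pow_right_mono h.span_le n this

theorem QRI.eval_mem' (h : QRI I s) {n : ℕ} {P : MvPolynomial (Fin N) R} (hP : P.IsHomogeneous n)
    (hc : ∀ μ, P.coeff μ ∈ maximalIdeal R) : eval s P ∈ maximalIdeal R ^ (n + 1) := by
  have := Qr.eval_mem (s := s) (Qr.hs_iff.2 hP) _ hc
  rw [Qr.II_top] at this
  rw [pow_succ']
  exact Ideal.mul_mono_right (Ideal.pow_right_mono h.span_le n) this

theorem QRI.not_mem (h : QRI I s) (i : Fin N) : s i ∉ I ⊔ maximalIdeal R ^ 2 := fun hi => by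
  have := h.2 1 (X i) (isHomogeneous_X R i) (by rwa [eval_X]) (Finsupp.single i 1)
  rw [coeff_X, if_pos rfl] at this
  exact this isUnit_one

/-- one parameter is moved into the ideal -/
theorem QRI.drop {s₀ : R} (h : QRI I (Fin.cons s₀ s : Fin (N + 1) → R)) :
    QRI (I ⊔ Ideal.span {s₀}) s := by
  refine ⟨by rw [← h.1, Fin.range_cons, Ideal.span_insert, sup_assoc], fun n P hP hz μ => ?_⟩
  set s' : Fin (N + 1) → R := Fin.cons s₀ s with hs'
  have e0 : eval s' (rename Fin.succ P) = eval s P := by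
    rw [eval_rename]; rfl
  have hP' : (rename Fin.succ P).IsHomogeneous n := hP.rename_isHomogeneous
  have hc := coeff_rename_mapDomain Fin.succ (Fin.succ_injective N) P μ
  rw [sup_right_comm] at hz
  obtain ⟨w, hw, u, hu, e⟩ := Submodule.mem_sup.1 hz
  obtain ⟨b, rfl⟩ := Ideal.mem_span_singleton'.1 hu
  have hs0 : s₀ ∈ maximalIdeal R := h.span_le (Ideal.subset_span ⟨0, rfl⟩)
  rcases n with _ | n
  · refine hc ▸ h.2 0 _ hP' ?_ _
    rw [e0, ← e]
    refine add_mem hw (Ideal.mem_sup_right ?_)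
    rw [zero_add, pow_one]
    exact Ideal.mul_mem_left _ _ hs0
  have hb : ∀ j ≤ n, b ∈ I ⊔ maximalIdeal R ^ j := by
    intro j
    induction j with
    | zero => intro _; simp
    | succ j ih =>
      intro hj
      obtain ⟨B, hB, hbB⟩ := h.ex (ih (by omega))
      have h1 : eval s' (X 0 * B) ∈ I ⊔ maximalIdeal R ^ (1 + j + 1) := by
        have e1 : eval s' (X 0 * B) = eval s P - w - s₀ * (b - eval s' B) := by
          rw [map_mul, eval_X, ← e]
          change s₀ * _ = _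
          ring
        rw [e1]
        refine sub_mem (sub_mem (Ideal.mem_sup_right ?_) ?_)
          (Ideal.mem_sup_left (Ideal.mul_mem_left _ _ hbB))
        · exact Ideal.pow_le_pow_right (by omega) (e0 ▸ h.eval_mem hP')
        · have : maximalIdeal R ^ (n + 1 + 1) ≤ maximalIdeal R ^ (1 + j + 1) :=
            Ideal.pow_le_pow_right (by omega)
          exact (sup_le_sup_left this I :) hw
      have h2 := h.2 _ _ ((isHomogeneous_X R 0).mul hB) h1
      have h3 := h.eval_mem' hB fun ν => by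
        have := h2 (Finsupp.single 0 1 + ν)
        rwa [coeff_X_mul] at this
      rw [← sub_add_cancel b (eval s' B)]
      exact add_mem (Ideal.mem_sup_left hbB) (Ideal.mem_sup_right h3)
  obtain ⟨B, hB, hbB⟩ := h.ex (hb n le_rfl)
  have hXB : (X 0 * B).IsHomogeneous (n + 1) := add_comm 1 n ▸ (isHomogeneous_X R 0).mul hB
  have h1 := h.2 _ _ (hP'.sub hXB) (by
    have e1 : eval s' (rename Fin.succ P - X 0 * B) = w + s₀ * (b - eval s' B) := by
      rw [map_sub, e0, map_mul, eval_X, ← e]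
      change _ - s₀ * _ = _
      ring
    rw [e1]
    exact add_mem hw (Ideal.mem_sup_left (Ideal.mul_mem_left _ _ hbB))) (μ.mapDomain Fin.succ)
  classical
  rwa [coeff_sub, hc, coeff_X_mul', if_neg, sub_zero] at h1
  rw [Finsupp.mem_support_iff, not_not]
  exact Finsupp.mapDomain_of_notMem_range _ _ (by simp)

theorem exists_ord (hN : IsNoetherianRing R) {a : R} (ha : a ∉ I) :
    ∃ p, a ∈ I ⊔ maximalIdeal R ^ p ∧ a ∉ I ⊔ maximalIdeal R ^ (p + 1) := by
  by_contra hc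
  push Not at hc
  have h1 : ∀ p, a ∈ I ⊔ maximalIdeal R ^ p := fun p => by
    induction p with
    | zero => simp
    | succ p ih => exact hc p ih
  have h2 := Ideal.iInf_pow_smul_eq_bot_of_isLocalRing (M := R ⧸ I) (maximalIdeal R)
    (maximalIdeal.isMaximal R).ne_top
  refine ha (Ideal.Quotient.eq_zero_iff_mem.1 ((Submodule.eq_bot_iff _).1 h2 _ ?_))
  refine Submodule.mem_iInf _ |>.2 fun p => ?_
  obtain ⟨i, hi, w, hw, rfl⟩ := Submodule.mem_sup.1 (h1 p)
  rw [map_add, Ideal.Quotient.eq_zero_iff_mem.2 hi, zero_add, ← mul_one w, ← smul_eq_mul]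
  exact Submodule.smul_mem_smul hw (Submodule.mem_top (x := Ideal.Quotient.mk I 1))

theorem QRI.lead (hN : IsNoetherianRing R) (h : QRI I s) {a : R} (ha : a ∉ I) :
    ∃ (p : ℕ) (A : MvPolynomial (Fin N) R), A.IsHomogeneous p ∧ a - eval s A ∈ I ∧
      map (residue R) A ≠ 0 := by
  obtain ⟨p, h1, h2⟩ := exists_ord hN ha
  obtain ⟨A, hA, e⟩ := h.ex h1
  refine ⟨p, A, hA, e, fun h0 => h2 ?_⟩
  rw [← sub_add_cancel a (eval s A)]
  refine add_mem (Ideal.mem_sup_left e) (Ideal.mem_sup_right (h.eval_mem' hA fun μ => ?_))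
  rw [← residue_eq_zero_iff, ← coeff_map, h0, coeff_zero]

theorem QRI.isPrime (hN : IsNoetherianRing R) (h : QRI I s) : I.IsPrime := by
  refine ⟨fun ht => (maximalIdeal.isMaximal R).ne_top (top_le_iff.1 (ht ▸ h.le)), ?_⟩
  intro a b hab
  by_contra hc
  rw [not_or] at hc
  obtain ⟨p, A, hA, ea, na⟩ := h.lead hN hc.1
  obtain ⟨q, B, hB, eb, nb⟩ := h.lead hN hc.2
  refine mul_ne_zero na nb ?_
  rw [← map_mul]
  ext μ
  rw [coeff_map, coeff_zero, residue_eq_zero_iff]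
  refine h.2 _ _ (hA.mul hB) (Ideal.mem_sup_left ?_) μ
  have e : eval s (A * B) = a * b - (a - eval s A) * b - eval s A * (b - eval s B) := by
    rw [map_mul]; ring
  rw [e]
  exact sub_mem (sub_mem hab (Ideal.mul_mem_right _ _ ea)) (Ideal.mul_mem_left _ _ eb)

theorem unit_mul_pow (hN : IsNoetherianRing R) {z : R} (h : I ⊔ Ideal.span {z} = maximalIdeal R)
    {a : R} (ha : a ∉ I) : ∃ (p : ℕ) (u : R), IsUnit u ∧ a - u * z ^ p ∈ I := by
  obtain ⟨p, h1, h2⟩ := exists_ord hN ha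
  have h3 : I ⊔ maximalIdeal R ^ p ≤ I ⊔ Ideal.span {z ^ p} :=
    sup_le le_sup_left (by rw [← h, ← Ideal.span_singleton_pow]; exact sup_pow_le _ _ p)
  obtain ⟨i, hi, w, hw, rfl⟩ := Submodule.mem_sup.1 (h3 h1)
  obtain ⟨u, rfl⟩ := Ideal.mem_span_singleton'.1 hw
  refine ⟨p, u, ?_, by rwa [add_sub_cancel_right]⟩
  by_contra hu
  refine h2 (add_mem (Ideal.mem_sup_left hi) (Ideal.mem_sup_right ?_))
  rw [pow_succ']
  exact Ideal.mul_mem_mul hu (Ideal.pow_mem_pow
    (h ▸ Ideal.mem_sup_right (Ideal.mem_span_singleton_self z)) p)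

theorem val (hN : IsNoetherianRing R) {z : R} (h : I ⊔ Ideal.span {z} = maximalIdeal R)
    (a b : R) : ∃ c, a - c * b ∈ I ∨ b - c * a ∈ I := by
  by_cases ha : a ∈ I
  · exact ⟨0, Or.inl (by simpa using ha)⟩
  by_cases hb : b ∈ I
  · exact ⟨0, Or.inr (by simpa using hb)⟩
  have key : ∀ (a b u w : R) (p q : ℕ), q ≤ p → IsUnit w → a - u * z ^ p ∈ I → b - w * z ^ q ∈ I →
      ∃ c, a - c * b ∈ I := fun a b u w p q hpq hw h1 h2 => by
    obtain ⟨w', hw'⟩ := hw.exists_left_inv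
    obtain ⟨k, rfl⟩ := Nat.exists_eq_add_of_le hpq
    refine ⟨u * w' * z ^ k, ?_⟩
    have e : a - u * w' * z ^ k * b = a - u * z ^ (q + k) - u * w' * z ^ k * (b - w * z ^ q) := by
      linear_combination (-(u * z ^ (q + k))) * hw'
    rw [e]
    exact sub_mem h1 (Ideal.mul_mem_left _ _ h2)
  obtain ⟨p, u, hu, h1⟩ := unit_mul_pow hN h ha
  obtain ⟨q, w, hw, h2⟩ := unit_mul_pow hN h hb
  rcases le_total q p with hpq | hpq
  · exact (key a b u w p q hpq hw h1 h2).imp fun _ => Or.inl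
  · exact (key b a w u q p hpq hu h2 h1).imp fun _ => Or.inr

omit [IsLocalRing R] in
theorem dvd_iff (y r : R) :
    Ideal.Quotient.mk I y ∣ Ideal.Quotient.mk I r ↔ r ∈ I ⊔ Ideal.span {y} := by
  rw [← Ideal.mem_span_singleton, ← Set.image_singleton, ← Ideal.map_span,
    Ideal.mem_quotient_iff_mem_sup, sup_comm]

omit [IsLocalRing R] in
theorem mem_iff (y z r : R) : Ideal.Quotient.mk I r ∈
    Ideal.span {Ideal.Quotient.mk I y, Ideal.Quotient.mk I z} ↔ r ∈ I ⊔ Ideal.span {y, z} := by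
  rw [← Set.image_pair, ← Ideal.map_span, Ideal.mem_quotient_iff_mem_sup, sup_comm]

/-- two parameters on the quotient -/
theorem qri_pair (hc : QRC) (hB : Base R) {a b c y z : R} (hI : I = Ideal.span {3, a, b, c})
    (h : I ⊔ Ideal.span {y, z} = maximalIdeal R) : QRI I ![y, z] := by
  obtain ⟨s, hs⟩ := hB.qr
  have e : I = ⊥ ⊔ Ideal.span {3} ⊔ Ideal.span {a} ⊔ Ideal.span {b} ⊔ Ideal.span {c} := by
    rw [hI, bot_sup_eq]
    simp only [Ideal.span_insert, sup_assoc]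
  have h1 : QR ![3, a, b, c, y, z] := hc R 6 s _ hs (by
    rw [← h, e, bot_sup_eq]
    simp only [Matrix.range_cons, Matrix.range_empty, Set.union_empty, Ideal.span_union,
      Ideal.span_insert, sup_assoc])
  rw [e]
  exact (qri_bot h1).drop.drop.drop.drop

end Of

open Of

theorem ofacts (hc : QRC) : OF := by
  intro R _ _ hB a b c y z I hI h
  have hN := hB.noeth
  have h2 := qri_pair hc hB hI h
  have h1 : QRI (I ⊔ Ideal.span {y}) ![z] := QRI.drop h2
  have hz : z ∉ I ⊔ Ideal.span {y} ⊔ maximalIdeal R ^ 2 := h1.not_mem 0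
  refine ⟨hz, fun hres => ⟨fun p q hpq => ?_, ?_, fun h0 => ?_, fun p q hpq => ?_, ?_,
    fun p q => ?_, fun p => ?_, ?_, fun p => ?_⟩⟩
  · have := h2.isPrime hN
    exact mul_eq_zero.1 hpq
  · refine Ideal.Quotient.eq_zero_iff_mem.2 (show (3 : R) ∈ I from ?_)
    rw [hI]
    exact Ideal.subset_span (by simp)
  · exact h2.not_mem 0 (Ideal.mem_sup_left (Ideal.Quotient.eq_zero_iff_mem.1 h0))
  · obtain ⟨p, rfl⟩ := Ideal.Quotient.mk_surjective p
    obtain ⟨q, rfl⟩ := Ideal.Quotient.mk_surjective q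
    rw [← map_mul, dvd_iff] at hpq
    rw [dvd_iff, dvd_iff]
    exact (h1.isPrime hN).mem_or_mem hpq
  · rw [dvd_iff]
    exact fun h0 => hz (Ideal.mem_sup_left h0)
  · obtain ⟨p, rfl⟩ := Ideal.Quotient.mk_surjective p
    obtain ⟨q, rfl⟩ := Ideal.Quotient.mk_surjective q
    obtain ⟨c, hc⟩ := val hN (I := I ⊔ Ideal.span {y}) (z := z)
      (by rw [← h, Ideal.span_insert, sup_assoc]) p q
    refine ⟨Ideal.Quotient.mk I c, ?_⟩
    rwa [← map_mul, ← map_mul, ← map_sub, ← map_sub, dvd_iff, dvd_iff]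
  · obtain ⟨p, rfl⟩ := Ideal.Quotient.mk_surjective p
    rw [mem_iff, h]
    exact (em (IsUnit p)).imp (fun hu => hu.map _) id
  · rw [← map_one (Ideal.Quotient.mk I), mem_iff, h]
    exact fun h0 => h0 isUnit_one
  · obtain ⟨p, rfl⟩ := Ideal.Quotient.mk_surjective p
    obtain ⟨k, hk⟩ := hres p
    refine ⟨k, ?_⟩
    rwa [← map_intCast (Ideal.Quotient.mk I), ← map_sub, mem_iff, h]

end Vale.Agent.P236Z.Tate
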