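import Vale.Agent.P236Z.Tate.Alg
import Vale.Agent.P261Z.KS.Fin

/-!
# P236, block TATE: the quotient group has no cohomology in the degrees prime to three
-/

namespace Vale.Agent.P236Z.Tate

open IsLocalRing MvPolynomial

namespace Qac

theorem grad {M σ : Type} [CommMonoid M] {ω : σ → ℤ × ℤ} {p : ℤ × ℤ → M → Prop} (h1 : p 0 1)
    (hm : ∀ a b x y, p a x → p b y → p (a + b) (x * y)) {v : σ → M} (hv : ∀ i, p (ω i) (v i))
    (μ : σ →₀ ℕ) : p (Finsupp.weight ω μ) (μ.prod fun i k => v i ^ k) := by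
  induction μ using Finsupp.induction_linear with
  | zero => simpa using h1
  | add μ ν a b =>
    rw [map_add, Finsupp.prod_add_index' (fun _ => pow_zero _) fun _ _ _ => pow_add _ _ _]
    exact hm _ _ _ _ a b
  | single i k =>
    rw [Finsupp.weight_single, Finsupp.prod_single_index (h := fun i k => v i ^ k) (pow_zero _)]
    induction k with
    | zero => simpa using h1
    | succ k ih => rw [succ_nsmul, pow_succ]; exact hm _ _ _ _ ih (hv i)

/-- weights and degrees -/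
def w3 : Fin 3 → ℤ × ℤ := ![(0, 1), (1, 1), (2, 1)]

section model

variable {k : Type} [Field k]

/-- the leading form of `g - 1` -/
noncomputable def dl : Derivation k (MvPolynomial (Fin 3) k) (MvPolynomial (Fin 3) k) :=
  (X 1 : MvPolynomial (Fin 3) k) • pderiv 0 + (X 2 : MvPolynomial (Fin 3) k) • pderiv 1

/-- the homotopy -/
noncomputable def et : Derivation k (MvPolynomial (Fin 3) k) (MvPolynomial (Fin 3) k) :=
  (X 0 : MvPolynomial (Fin 3) k) • pderiv 2

variable {n D : ℤ} {P : MvPolynomial (Fin 3) k}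

theorem dl_C (c : k) : dl (C c * P) = C c * dl P := by
  rw [C_mul', C_mul', Derivation.map_smul]

theorem wh_op (h : IsWeightedHomogeneous w3 P (n, D)) (i j : Fin 3) {m : ℤ × ℤ}
    (e : m + w3 j = w3 i + (n, D)) : IsWeightedHomogeneous w3 (X i * pderiv j P) m := by
  have := (isWeightedHomogeneous_X k w3 i).mul (h.pderiv (i := j) (sub_add_cancel _ _))
  rwa [← add_sub_assoc, ← e, add_sub_cancel_right] at this

theorem wh_dl (h : IsWeightedHomogeneous w3 P (n, D)) : IsWeightedHomogeneous w3 (dl P) (n + 1, D) :=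
  (wh_op h 1 0 (by simp [w3, add_comm])).add (wh_op h 2 1 (by simp [w3]; omega))

theorem wh_et (h : IsWeightedHomogeneous w3 P (n, D)) : IsWeightedHomogeneous w3 (et P) (n - 2, D) :=
  wh_op h 0 2 (by simp [w3, add_comm])

theorem euler (h : IsWeightedHomogeneous w3 P (n, D)) : ∑ i, X i * pderiv i P = C (D : k) * P := by
  induction h using IsWeightedHomogeneous.induction_on with
  | zero => simp
  | add p q _ _ a b => simp only [map_add, mul_add, Finset.sum_add_distrib, a, b]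
  | monomial μ r e =>
    have e' := congrArg Prod.snd e
    rw [Finsupp.weight_apply, Finsupp.sum_fintype _ _ (by simp)] at e'
    simp [Fin.sum_univ_three, w3] at e'
    simp only [X_mul_pderiv_monomial, Fin.sum_univ_three, ← e', nsmul_eq_mul]
    push_cast
    simp only [map_add, map_natCast]
    ring

theorem higman (h3 : (3 : k) = 0) (h : IsWeightedHomogeneous w3 P (n, D)) :
    dl (dl (et P)) + dl (et (dl P)) + et (dl (dl P)) = C (D : k) * P := by
  have h3' : (3 : MvPolynomial (Fin 3) k) = 0 := by rw [← map_ofNat C 3, h3, map_zero]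
  have e : ⁅dl (k := k), ⁅dl (k := k), et (k := k)⁆⁆ = (X 0 : MvPolynomial (Fin 3) k) • pderiv 0 +
      (X 1 : MvPolynomial (Fin 3) k) • pderiv 1 + (X 2 : MvPolynomial (Fin 3) k) • pderiv 2 := by
    refine derivation_ext fun i => ?_
    simp only [Derivation.commutator_apply]
    fin_cases i <;> simp [dl, et]
    linear_combination (-X 1) * h3'
  have e' := DFunLike.congr_fun e P
  simp only [Derivation.commutator_apply, map_sub, Derivation.add_apply,
    Derivation.smul_apply, smul_eq_mul] at e'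
  rw [← euler h, Fin.sum_univ_three]
  linear_combination e' + dl (et (dl P)) * h3'

end model

variable {S : Type} [CommRing S] [IsLocalRing S] {B : Tw S} {ev : Fin 3 → S}

/-- the data on the quotient ring -/
structure Dt (B : Tw S) (ev : Fin 3 → S) : Prop where
  three : (3 : S) = 0
  ord : B.Ord3
  res : ∀ r, B.g r - r ∈ maximalIdeal S
  perf : ∀ r : S, ∃ s, r - s ^ 3 ∈ maximalIdeal S
  unit : IsUnit (ev 0)
  api : LFApi ev w3
  t0 : B.T 1 (ev 0) = ev 1
  t1 : B.T 1 (ev 1) = ev 2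
  t2 : B.T 1 (ev 2) = 0

namespace Dt

variable (h : Dt B ev)
include h

theorem tr (d : ℤ) (z : S) : B.tr d z = B.T d (B.T d z) := by
  rw [B.tr_eq, h.three, zero_mul, add_zero]

theorem var (i : Fin 3) : ev i ∈ Fil ev w3 (w3 i).1 := h.api.mem _ _ _ _ (h.api.var i)

theorem T_mem (d : ℤ) (r : S) : B.T d r ∈ Fil ev w3 1 := by
  rw [h.api.one]
  refine (Ideal.span_le.2 ?_ : B.J ≤ _) (B.T_mem_J d r)
  rintro _ ((rfl | rfl) | ⟨r, rfl⟩)
  · rw [h.three]; exact zero_mem _
  · refine (Ideal.unit_mul_mem_iff_mem _ (h.unit.map B.g)).1 ?_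
    have e := h.t0
    rw [Tw.T, Tw.act_one'] at e
    rw [show B.g (ev 0) * (B.t - 1) = ev 1 - (B.g (ev 0) - ev 0) by linear_combination e]
    exact sub_mem (h.api.one ▸ h.var 1) (h.res _)
  · exact h.res r

theorem mul {n n' : ℤ} {a b : S} (ha : a ∈ Fil ev w3 n) (hb : b ∈ Fil ev w3 n') {m : ℤ}
    (e : m ≤ n + n') : a * b ∈ Fil ev w3 m :=
  h.api.mono _ _ e (h.api.mul _ _ (Ideal.mul_mem_mul ha hb))

theorem T_fil (d n : ℤ) (z : S) (hz : z ∈ Fil ev w3 n) : B.T d z ∈ Fil ev w3 (n + 1) := by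
  have key := grad (p := fun a x => x ∈ Fil ev w3 a.1 ∧ B.T a.2 x ∈ Fil ev w3 (a.1 + 1))
    ⟨by simp [h.api.top], by simp [Tw.T, Tw.act]⟩ (fun a b x y hx hy => ⟨h.mul hx.1 hy.1 le_rfl, by
      rw [Prod.snd_add, B.T_mul, B.act_eq, Prod.fst_add]
      exact add_mem (h.mul hx.2 (add_mem hy.1 (h.api.mono _ _ (by omega) hy.2)) (by omega))
        (h.mul hx.1 hy.2 (by omega))⟩) (ω := w3) (v := ev) fun i => ⟨h.var i, by
      fin_cases i
      · exact (h.t0 ▸ h.var 1 : B.T 1 (ev 0) ∈ _)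
      · exact (h.t1 ▸ h.var 2 : B.T 1 (ev 1) ∈ _)
      · exact h.t2.symm.subst (motive := (· ∈ Fil ev w3 3)) (zero_mem _)⟩
  suffices k : ∀ c, B.T d (c * z) ∈ Fil ev w3 (n + 1) by simpa using k 1
  induction hz using Submodule.span_induction with
  | mem _ hz =>
    obtain ⟨μ, h1, rfl⟩ := hz
    intro c
    rw [← sub_add_cancel d (Finsupp.weight w3 μ).2, B.T_mul, B.act_eq]
    exact add_mem (h.mul (h.T_mem _ c) (add_mem (key μ).1 (h.api.mono _ _ (by omega) (key μ).2))
      (by omega)) (Ideal.mul_mem_left _ _ (h.api.mono _ _ (by omega) (key μ).2))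
  | zero => simp
  | add x y _ _ a b => intro c; rw [mul_add, B.T_add]; exact add_mem (a c) (b c)
  | smul a x _ b => intro c; rw [smul_eq_mul, ← mul_assoc]; exact b _

theorem flt : Flt B (Fil ev w3) :=
  ⟨h.api.top, h.api.mono, h.api.mul, h.api.pow_le, h.api.le_pow, h.T_fil, fun d n z hz => by
    rw [h.tr, show n + 2 = n + 1 + 1 by ring]; exact h.T_fil _ _ _ (h.T_fil _ _ _ hz)⟩

theorem T_const (c : S) : B.T 0 c ∈ Fil ev w3 2 := by
  obtain ⟨s, hs⟩ := h.perf c
  have e : B.T 0 (s ^ 3) = (B.g s - s) ^ 3 := by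
    rw [Tw.T, Tw.act_zero', map_pow]
    linear_combination (B.g s * s * (B.g s - s)) * h.three
  rw [← sub_add_cancel c (s ^ 3), B.T_add, e]
  exact add_mem (h.T_fil 0 1 _ (h.api.one ▸ hs))
    (h.api.mono _ _ (by norm_num) (h.api.pow_le 3 (Ideal.pow_mem_pow (h.res s) 3)))

theorem sub_mem {n D : ℤ} {z z' : S} {P} (a : LF ev w3 n D z P) (b : LF ev w3 n D z' P) :
    z - z' ∈ Fil ev w3 (n + 1) := by
  rw [sub_eq_add_neg]
  exact (h.api.zero_iff _ _ _ _ (h.api.add _ _ _ _ _ _ a (h.api.neg _ _ _ _ b))).1 (add_neg_cancel P)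

theorem lf_T {n D : ℤ} {z : S} {P} (a : LF ev w3 n D z P) :
    LF ev w3 (n + 1) D (B.T D z) (dl P) := by
  let p : ℤ × ℤ → MvPolynomial (Fin 3) (ResidueField S) → Prop := fun a P =>
    ∃ z, LF ev w3 a.1 a.2 z P ∧ LF ev w3 (a.1 + 1) a.2 (B.T a.2 z) (dl P)
  have hc : ∀ c, p 0 (C c) := fun c => by
    obtain ⟨c, rfl⟩ := residue_surjective c
    exact ⟨c, h.api.const c, by rw [derivation_C]; exact h.api.of_mem _ _ _ (h.T_const c)⟩
  have hm : ∀ a b x y, p a x → p b y → p (a + b) (x * y) := by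
    rintro a b x y ⟨u, u1, u2⟩ ⟨v, v1, v2⟩
    refine ⟨u * v, h.api.lmul _ _ _ _ _ _ _ _ u1 v1, ?_⟩
    have k1 := h.api.lmul _ _ _ _ _ _ _ _ u1 v2
    have k2 := h.api.lmul _ _ _ _ _ _ _ _ v1 u2
    rw [← add_assoc] at k1
    rw [← add_assoc, add_comm b.1, add_comm b.2] at k2
    rw [Derivation.leibniz]
    refine h.api.congr _ _ _ _ _ (h.api.add _ _ _ _ _ _ k1 k2) ?_
    rw [Prod.snd_add, B.T_mul, B.act_eq, show u * B.T b.2 v + v * B.T a.2 u -
      (B.T a.2 u * (v + B.T b.2 v) + u * B.T b.2 v) = -(B.T a.2 u * B.T b.2 v) by ring]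
    exact neg_mem (h.mul (h.api.mem _ _ _ _ u2) (h.api.mem _ _ _ _ v2) (by simp; omega))
  have hv : ∀ i, p (w3 i) (X i) := fun i => ⟨ev i, h.api.var i, by
    fin_cases i
    · simpa [dl, w3, h.t0] using h.api.var 1
    · simpa [dl, w3, h.t1] using h.api.var 2
    · simpa [dl, w3, h.t2] using h.api.of_mem _ _ _ (zero_mem _)⟩
  have key : ∀ P, IsWeightedHomogeneous w3 P (n, D) → p (n, D) P := fun P hP => by
    induction hP using IsWeightedHomogeneous.induction_on with
    | zero => exact ⟨0, h.api.of_mem _ _ _ (zero_mem _), by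
        rw [map_zero, B.T_zero]; exact h.api.of_mem _ _ _ (zero_mem _)⟩
    | add _ _ _ _ a b =>
      obtain ⟨u, u1, u2⟩ := a
      obtain ⟨v, v1, v2⟩ := b
      exact ⟨u + v, h.api.add _ _ _ _ _ _ u1 v1, by
        rw [B.T_add, map_add]; exact h.api.add _ _ _ _ _ _ u2 v2⟩
    | monomial μ r e =>
      rw [monomial_eq, ← e, ← zero_add (Finsupp.weight w3 μ)]
      exact hm _ _ _ _ (hc r) (grad (p := p) (hc 1) hm hv μ)
  obtain ⟨u, u1, u2⟩ := key P (h.api.wh _ _ _ _ a)
  exact h.api.congr _ _ _ _ _ u2 (B.T_sub D u z ▸ h.T_fil _ _ _ (h.sub_mem u1 a))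

theorem shift (n d : ℤ) : ∃ (u u' : S) (e : ℤ), n ≤ d + e ∧ 3 ∣ e ∧ u * u' = 1 ∧ B.T e u = 0 ∧
    B.T (-e) u' = 0 := by
  have h1 : B.act (((n - d).toNat : ℤ) * (3 * 1)) (B.nm 1 (ev 0) ^ (n - d).toNat) =
      B.nm 1 (ev 0) ^ (n - d).toNat := by rw [B.act_pow, B.T_eq_zero.1 (h.ord.T_nm 1 _)]
  obtain ⟨u', hu⟩ := ((B.isUnit_nm 1 h.unit).pow (n - d).toNat).exists_right_inv
  refine ⟨_, u', _, by omega, by omega, hu, B.T_eq_zero.2 h1, B.T_eq_zero.2 ?_⟩
  have h2 := B.act_mul' (add_neg_cancel (((n - d).toNat : ℤ) * (3 * 1))).symm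
    (B.nm 1 (ev 0) ^ (n - d).toNat) u'
  rw [hu, h1, B.act_zero', map_one] at h2
  rw [← one_mul (B.act _ u'), ← hu, mul_right_comm, ← h2, one_mul]

theorem step {d : ℤ} (hd : ¬ 3 ∣ d) :
    StepG B (Fil ev w3) d 0 (fun i : Empty => i.elim) 0 fun i : Empty => i.elim := by
  have h3 : (3 : ResidueField S) = 0 := by rw [← map_ofNat (residue S) 3, h.three, map_zero]
  have : CharP (ResidueField S) 3 := (CharP.charP_iff_prime_eq_zero Nat.prime_three).2 h3
  have inv : ∀ e, 3 ∣ e → ∀ P : MvPolynomial (Fin 3) (ResidueField S),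
      C ((d + e : ℤ) : ResidueField S)⁻¹ * (C ((d + e : ℤ) : ResidueField S) * P) = P :=
    fun e he P => by
      rw [← mul_assoc, ← map_mul, inv_mul_cancel₀, map_one, one_mul]
      rw [Ne, CharP.intCast_eq_zero_iff _ 3]
      omega
  constructor
  · intro n z hz hT
    obtain ⟨u, u', e, e1, e2, e3, e4, e5⟩ := h.shift n d
    obtain ⟨P, hP⟩ := h.api.ex n _ _ (Ideal.mul_mem_right u _ hz) e1
    have k1 := (h.api.zero_iff _ _ _ _ (h.lf_T hP)).2 (by
      rw [B.T_mul_inv _ _ _ e4, add_assoc]; exact Ideal.mul_mem_right u _ hT)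
    have k2 := higman h3 (h.api.wh _ _ _ _ hP)
    simp only [k1, map_zero, add_zero] at k2
    obtain ⟨q, hq⟩ := h.api.surj _ _ _ ((wh_et (h.api.wh _ _ _ _ hP)).C_mul
      ((d + e : ℤ) : ResidueField S)⁻¹)
    have k3 := h.lf_T (h.lf_T hq)
    rw [dl_C, dl_C, k2, inv e e2, ← h.tr,
      show n - 2 + 1 + 1 = n by ring] at k3
    refine ⟨q * u', Empty.elim, Ideal.mul_mem_right _ _ (h.api.mem _ _ _ _ hq), (·.elim), ?_⟩
    have k4 := B.tr_mul_inv (d + e) (-e) q e5
    rw [add_neg_cancel_right] at k4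
    rw [k4, Finset.univ_eq_empty, Finset.sum_empty, sub_zero, ← mul_one z, ← e3, ← mul_assoc,
      ← sub_mul]
    exact Ideal.mul_mem_right _ _ (h.sub_mem hP k3)
  · intro n z hz hT
    obtain ⟨u, u', e, e1, e2, e3, e4, e5⟩ := h.shift n d
    obtain ⟨P, hP⟩ := h.api.ex n _ _ (Ideal.mul_mem_right u _ hz) e1
    have k1 := (h.api.zero_iff _ _ _ _ (h.lf_T (h.lf_T hP))).2 (by
      rw [← h.tr, B.tr_mul_inv _ _ _ e4, show n + 1 + 1 + 1 = n + 3 by ring]
      exact Ideal.mul_mem_right u _ hT)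
    have hw := h.api.wh _ _ _ _ hP
    have k2 := higman h3 hw
    rw [k1, map_zero, add_zero, ← map_add] at k2
    have w1 := wh_dl (wh_et hw)
    have w2 := wh_et (wh_dl hw)
    rw [show n - 2 + 1 = n - 1 by ring] at w1
    rw [show n + 1 - 2 = n - 1 by ring] at w2
    obtain ⟨q, hq⟩ := h.api.surj _ _ _ ((w1.add w2).C_mul ((d + e : ℤ) : ResidueField S)⁻¹)
    have k3 := h.lf_T hq
    rw [dl_C, k2, inv e e2, sub_add_cancel] at k3
    refine ⟨q * u', Empty.elim, Ideal.mul_mem_right _ _ (h.api.mem _ _ _ _ hq), (·.elim), ?_⟩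
    have k4 := B.T_mul_inv (d + e) (-e) q e5
    rw [add_neg_cancel_right] at k4
    rw [k4, Finset.univ_eq_empty, Finset.sum_empty, sub_zero, ← mul_one z, ← e3, ← mul_assoc,
      ← sub_mul]
    exact Ideal.mul_mem_right _ _ (h.sub_mem hP k3)

end Dt

variable {R : Type} [CommRing R] (A : Tw R)

theorem map_J {r : R} (hr : r ∈ A.cube.J) : A.g r ∈ A.cube.J := by
  have key : ∀ d c, A.g (A.cube.T d c) ∈ A.cube.J := fun d c =>
    (Ideal.mul_unit_mem_iff_mem _ (A.t ^ d).isUnit).1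
      ((A.cube_T_act d c).subst (motive := (· ∈ A.cube.J)) (A.cube.T_mem_J _ _))
  refine (Ideal.span_le.2 ?_ : A.cube.J ≤ A.cube.J.comap A.g) hr
  rintro _ ((rfl | rfl) | ⟨r, rfl⟩)
  · exact (map_ofNat A.g 3).symm.subst (motive := (· ∈ A.cube.J)) A.cube.three_mem_J
  · simpa [Tw.T, Tw.act_one'] using key 1 1
  · simpa [Tw.T, Tw.act_zero'] using key 0 r

/-- the automorphism of the quotient -/
def qg : R ⧸ A.cube.J →+* R ⧸ A.cube.J := Ideal.quotientMap _ (A.g : R →+* R) fun _ => map_J A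

theorem qg3 (r : R ⧸ A.cube.J) : qg A (qg A (qg A r)) = r := by
  obtain ⟨r, rfl⟩ := Ideal.Quotient.mk_surjective r
  exact Ideal.Quotient.eq.2 (A.cube.g_mem_J r)

/-- the action on the quotient -/
def qt : Tw (R ⧸ A.cube.J) where
  g := { qg A with invFun := fun r => qg A (qg A r), left_inv := qg3 A, right_inv := qg3 A }
  t := Units.map (Ideal.Quotient.mk A.cube.J : R →* R ⧸ A.cube.J) A.t

theorem qt_act (d : ℤ) (r : R) :
    (qt A).act d (Ideal.Quotient.mk _ r) = Ideal.Quotient.mk _ (A.act d r) := by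
  simp only [Tw.act, qt, ← map_zpow, map_mul]; rfl

theorem qt_T (d : ℤ) (r : R) :
    (qt A).T d (Ideal.Quotient.mk _ r) = Ideal.Quotient.mk _ (A.T d r) := by
  simp only [Tw.T, qt_act, map_sub]

theorem qt_tr (d : ℤ) (r : R) :
    (qt A).tr d (Ideal.Quotient.mk _ r) = Ideal.Quotient.mk _ (A.tr d r) := by
  simp only [Tw.tr, qt_act, map_add]

/-- quasi-regularity of the quotient -/
theorem qr_quot (h1 : QRW) (h3 : LFB) [IsLocalRing R] {ev : Fin 7 → R} (hu : IsUnit (ev 0))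
    (hq : QR fun i : Fin 6 => ev i.succ) (f : R →+* S) (hf : Function.Surjective f)
    (hk : RingHom.ker f ≤ Ideal.span {ev 1, ev 2, ev 4, ev 6}) (n : ℕ) (P : MvPolynomial (Fin 2) S)
    (hP : P.IsHomogeneous n) (h : eval ![f (ev 3), f (ev 5)] P ∈ maximalIdeal S ^ (n + 1)) (μ) :
    P.coeff μ ∈ maximalIdeal S := by
  let ω : Fin 7 → ℤ × ℤ := ![(0, 1), (n + 1, 0), (n + 1, 0), (1, 0), (n + 1, 0), (1, 0), (n + 1, 0)]
  have hA : Adm ev ω := ⟨hu, rfl, fun i => by fin_cases i <;> simp [ω],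
    fun i => by fin_cases i <;> simp [ω], hq⟩
  have api := h3 R 6 ev ω hA
  let ι : Fin 2 → Fin 7 := ![3, 5]
  obtain ⟨Q₀, rfl⟩ := map_surjective f hf P
  have hQ := homogeneousComponent_isHomogeneous n Q₀
  have e : map f (homogeneousComponent n Q₀) = map f Q₀ := by
    ext ν
    rw [coeff_map, coeff_homogeneousComponent, coeff_map]
    split_ifs with k
    · rfl
    · rw [map_zero, ← coeff_map, hP.coeff_eq_zero k]
  generalize homogeneousComponent n Q₀ = Q at hQ e
  rw [← e] at h ⊢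
  have hW : IsWeightedHomogeneous ω (rename ι Q) (n, 0) := by
    clear h e
    induction hQ using IsWeightedHomogeneous.induction_on with
    | zero => rw [map_zero]; exact isWeightedHomogeneous_zero _ _ _
    | add _ _ _ _ a b => rw [map_add]; exact a.add b
    | monomial ν r e =>
      rw [rename_monomial]
      refine isWeightedHomogeneous_monomial _ _ _ ?_
      rw [Finsupp.weight_apply, Finsupp.sum_fintype _ _ (by simp)] at e
      rw [Finsupp.weight_apply, Finsupp.sum_mapDomain_index (by simp) fun _ _ _ => add_smul _ _ _,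
        Finsupp.sum_fintype _ _ (by simp), ← e]
      simp [ι, ω, Prod.ext_iff]
  have hE : eval ev (rename ι Q) ∈ Fil ev ω (n + 1) := by
    have e1 : eval ![f (ev 3), f (ev 5)] (map f Q) = f (eval ev (rename ι Q)) := by
      rw [eval_rename, eval_map, eval, coe_eval₂Hom, eval₂_comp_left, RingHom.comp_id]
      congr 1
      funext i
      fin_cases i <;> rfl
    rw [e1, ← map_maximalIdeal_of_surjective f hf, ← Ideal.map_pow, ← Ideal.mem_comap,
      Ideal.comap_map_of_surjective f hf] at h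
    refine (sup_le (by exact_mod_cast api.pow_le (n + 1)) (hk.trans (Ideal.span_le.2 ?_))) h
    have v := fun i => api.mem _ _ _ _ (api.var i)
    rintro _ (rfl | rfl | rfl | rfl)
    exacts [v 1, v 2, v 4, v 6]
  have := h1 R 6 ev ω hA n 0 _ hW hE (μ.mapDomain ι)
  rw [coeff_rename_mapDomain ι (by decide)] at this
  rw [coeff_map, ← map_maximalIdeal_of_surjective f hf]
  exact Ideal.mem_map_of_mem f this

end Qac

open Qac

theorem qac (h1 : QRW) (h2 : QRC) (h3 : LFB) (h4 : APX) : QAC := by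
  intro R _ _ hB A w hr hP hJ d hd
  have := hB.noeth
  have := hB.cpl
  have hle : A.cube.J ≤ maximalIdeal R := by
    rw [hJ, ← hP.gen]
    exact Ideal.span_mono (by simp [Set.insert_subset_iff])
  have : Nontrivial (R ⧸ A.cube.J) :=
    Ideal.Quotient.nontrivial_iff.2 (ne_top_of_le_ne_top (maximalIdeal.isMaximal R).ne_top hle)
  have hs := Ideal.Quotient.mk_surjective (I := A.cube.J)
  have := IsLocalRing.of_surjective' _ hs
  have hm := map_maximalIdeal_of_surjective _ hs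
  set f := Ideal.Quotient.mk A.cube.J
  have z : ∀ {r}, r ∈ A.cube.J → f r = 0 := Ideal.Quotient.eq_zero_iff_mem.2
  obtain ⟨s, hs'⟩ := hB.qr
  have hq : QR fun i : Fin 6 => evx A.cube (xw A w) i.succ := h2 R 6 s _ hs' (by
    rw [← hP.gen]
    congr 1
    ext r
    simp [evx]
    tauto)
  have hA : Adm (fun i => f (xw A w i)) w3 := by
    refine ⟨hP.unit.map f, rfl, fun i => by fin_cases i <;> simp [w3],
      fun i => by fin_cases i <;> simp [w3], ?_, fun n P a b => qr_quot h1 h3 hP.unit hq f hs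
        ((Ideal.mk_ker.trans hJ).le) n P a ?_⟩
    · rw [← hm, ← hP.gen, Ideal.map_span]
      simp only [Set.image_insert_eq, Set.image_singleton, z A.cube.three_mem_J,
        z (A.cube.T_mem_J _ _), Ideal.span_insert, Ideal.span_singleton_zero, bot_sup_eq,
        sup_bot_eq]
      rw [← Ideal.span_insert]
      congr 1
      ext r
      simp [Fin.exists_fin_succ, eq_comm]
    · refine Eq.subst (motive := fun v => eval v P ∈ _) (funext fun i => ?_) b
      fin_cases i <;> rfl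
  have hD : Dt (qt A) fun i => f (xw A w i) := by
    refine ⟨(map_ofNat f 3).symm.trans (z A.cube.three_mem_J), fun d r => ?_, fun r => ?_,
      fun r => ?_, hA.unit, h3 _ 2 _ _ hA, qt_T A 1 _, qt_T A 1 _, (qt_T A 1 _).trans (z ?_)⟩
    · obtain ⟨r, rfl⟩ := hs r
      rw [qt_act, qt_act, qt_act, ← A.cube_act]
      exact Ideal.Quotient.eq.2 (A.cube.T_mem_J d r)
    · obtain ⟨r, rfl⟩ := hs r
      exact hm ▸ Ideal.mem_map_of_mem f (hr r)
    · obtain ⟨r, rfl⟩ := hs r
      obtain ⟨c, hc⟩ := hB.perf r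
      exact ⟨f c, hm ▸ Ideal.mem_map_of_mem f hc⟩
    · exact (eq_sub_of_add_eq (A.cube_T 1 w).symm).symm.subst (motive := (· ∈ A.cube.J))
        (sub_mem (A.cube.T_mem_J _ _) (Ideal.mul_mem_right _ _ A.cube.three_mem_J))
  have hC := (h4 _ (hm ▸ P261Z.KS.complete_map (maximalIdeal R)) _ _ hD.ord hD.flt d).2 _ _ _ _ _ _
    (·.elim) (·.elim) (hD.step hd) ⟨fun _ ⟨i, _⟩ => i.elim, fun _ ⟨i, _⟩ => i.elim⟩
  refine ⟨fun r h => ?_, fun r h => ?_⟩
  · obtain ⟨_, q, e⟩ := hC.gen1 (f r) ((qt_tr A d r).trans (z h))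
    obtain ⟨q, rfl⟩ := hs q
    exact ⟨q, Ideal.Quotient.eq.1 (Eq.trans (by simpa using e) (qt_T A d q))⟩
  · obtain ⟨_, q, e⟩ := hC.gen0 (f r) ((qt_T A d r).trans (z h))
    obtain ⟨q, rfl⟩ := hs q
    exact ⟨q, Ideal.Quotient.eq.1 (Eq.trans (by simpa using e) (qt_tr A d q))⟩

end Vale.Agent.P236Z.Tate
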