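import Vale.Agent.P236Z.Tate.Qr

/-!
# P236, block TATE: weighted quasi-regularity
-/

namespace Vale.Agent.P236Z.Tate

open IsLocalRing MvPolynomial

namespace Qrw

open Qr

variable {R : Type} [CommRing R] {N : ℕ}

theorem weight_fin {M : Type} [AddCommMonoid M] (ω : Fin N → M) (μ : Fin N →₀ ℕ) :
    Finsupp.weight ω μ = ∑ i, μ i • ω i := by
  rw [Finsupp.weight_apply]
  exact Finsupp.sum_fintype _ _ (fun i => by simp)

theorem mem_Fil_iff (ev : Fin (N + 1) → R) (ω : Fin (N + 1) → ℤ × ℤ) (n : ℤ) (z : R) :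
    z ∈ Fil ev ω n ↔ ∃ Q : MvPolynomial (Fin (N + 1)) R,
      (∀ μ, coeff μ Q ≠ 0 → n ≤ (Finsupp.weight ω μ).1) ∧ eval ev Q = z := by
  constructor
  · intro hz
    induction hz using Submodule.span_induction with
    | mem z hz =>
      obtain ⟨μ, hμ, rfl⟩ := hz
      refine ⟨monomial μ 1, fun ν hν => ?_, by rw [eval_monomial, one_mul]⟩
      rw [coeff_monomial] at hν
      split_ifs at hν with h
      · rwa [← h]
      · exact absurd rfl hν
    | zero => exact ⟨0, fun _ h => absurd rfl h, map_zero _⟩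
    | add x y _ _ hx hy =>
      obtain ⟨Q, hQ, rfl⟩ := hx
      obtain ⟨Q', hQ', rfl⟩ := hy
      refine ⟨Q + Q', fun μ h => ?_, map_add _ _ _⟩
      rw [coeff_add] at h
      by_cases h1 : coeff μ Q = 0
      · exact hQ' μ (by rwa [h1, zero_add] at h)
      · exact hQ μ h1
    | smul c x _ hx =>
      obtain ⟨Q, hQ, rfl⟩ := hx
      exact ⟨C c * Q, fun μ h => hQ μ fun h0 => h (by rw [coeff_C_mul, h0, mul_zero]), by simp⟩
  · rintro ⟨Q, hQ, rfl⟩
    rw [Q.as_sum, map_sum]
    refine Ideal.sum_mem _ fun μ hμ => ?_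
    rw [eval_monomial]
    exact Ideal.mul_mem_left _ _ (Ideal.subset_span ⟨μ, hQ μ (mem_support_iff.1 hμ), rfl⟩)

theorem eval_mem_pow (s : Fin N → R) {j : ℕ} {G : MvPolynomial (Fin N) R}
    (h : ∀ ν, coeff ν G ≠ 0 → j ≤ ν.degree) : eval s G ∈ Ideal.span (Set.range s) ^ j := by
  rw [G.as_sum, map_sum]
  refine Ideal.sum_mem _ fun μ hμ => ?_
  rw [eval_monomial]
  exact Ideal.mul_mem_left _ _ (Ideal.pow_le_pow_right (h μ (mem_support_iff.1 hμ))
    (prod_mem_pow _ _ _ fun i _ => Ideal.subset_span ⟨i, rfl⟩))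

theorem raise (s : Fin N → R) (H : MvPolynomial (Fin N) R)
    (h : ∀ ν, coeff ν H ∈ Ideal.span (Set.range s)) : ∃ H', eval s H' = eval s H ∧
      ∀ κ, coeff κ H' ≠ 0 → ∃ ν i, coeff ν H ≠ 0 ∧ κ = ν + Finsupp.single i 1 := by
  choose b hb using fun ν => Ideal.mem_span_range_iff_exists_fun.1 (h ν)
  refine ⟨∑ ν ∈ H.support, ∑ i, monomial (ν + Finsupp.single i 1) (b ν i), ?_, fun κ hκ => ?_⟩
  · conv_rhs => rw [H.as_sum]
    rw [map_sum, map_sum]
    refine Finset.sum_congr rfl fun ν _ => ?_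
    rw [map_sum, ← hb ν, map_sum, map_sum]
    refine Finset.sum_congr rfl fun i _ => ?_
    rw [monomial_add_single, map_mul, pow_one, eval_X, eval_monomial, eval_monomial]
    ring
  · rw [coeff_sum] at hκ
    obtain ⟨ν, hν, h1⟩ := Finset.exists_ne_zero_of_sum_ne_zero hκ
    rw [coeff_sum] at h1
    obtain ⟨i, -, h2⟩ := Finset.exists_ne_zero_of_sum_ne_zero h1
    rw [coeff_monomial] at h2
    split_ifs at h2 with h3
    · exact ⟨ν, i, mem_support_iff.1 hν, h3.symm⟩
    · exact absurd rfl h2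

variable [IsLocalRing R]

theorem comp_mem {s : Fin N → R} (hs : QR s) {j : ℕ} {G : MvPolynomial (Fin N) R}
    (h0 : eval s G = 0) (h : ∀ ν, coeff ν G ≠ 0 → j ≤ ν.degree) (ν) :
    coeff ν (homogeneousComponent j G) ∈ maximalIdeal R := by
  refine hs.2 j _ (homogeneousComponent_isHomogeneous j G) ?_ ν
  have h1 := eval_mem_pow s (j := j + 1) (G := G - homogeneousComponent j G) fun ν hν => by
    rw [coeff_sub, coeff_homogeneousComponent] at hν
    split_ifs at hν with h2
    · exact absurd (sub_self _) hν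
    · have := h ν (by rwa [sub_zero] at hν)
      omega
  rw [map_sub, h0, zero_sub, hs.1] at h1
  exact (Ideal.neg_mem_iff _).1 h1

theorem lemmaA {s : Fin N → R} (hs : QR s) (μ : Fin N →₀ ℕ) (G : MvPolynomial (Fin N) R)
    (h0 : eval s G = 0) (hm : ∀ ν, coeff ν G ≠ 0 → ν ≤ μ → ν = μ) :
    coeff μ G ∈ maximalIdeal R := by
  have key : ∀ j ≤ μ.degree, ∃ G' : MvPolynomial (Fin N) R, eval s G' = 0 ∧
      (∀ ν, coeff ν G' ≠ 0 → j ≤ ν.degree) ∧ (∀ ν, ν ≤ μ → ν ≠ μ → coeff ν G' = 0) ∧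
      coeff μ G' = coeff μ G := by
    intro j hj
    induction j with
    | zero =>
      exact ⟨G, h0, fun _ _ => Nat.zero_le _, fun ν h1 h2 => by
        by_contra hc; exact h2 (hm ν hc h1), rfl⟩
    | succ j ih =>
      obtain ⟨G', e0, hd, hz, hc⟩ := ih (by omega)
      obtain ⟨H', e1, hH⟩ := raise s (homogeneousComponent j G') fun ν => by
        rw [hs.1]; exact comp_mem hs e0 hd ν
      have hH' : ∀ κ, coeff κ H' ≠ 0 → κ.degree = j + 1 ∧ ¬ κ ≤ μ := fun κ hκ => by
        obtain ⟨ν, i, h1, rfl⟩ := hH κ hκ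
        rw [coeff_homogeneousComponent] at h1
        split_ifs at h1 with h2
        · refine ⟨by rw [map_add, h2, Finsupp.degree_single], fun h3 => h1 (hz ν
            (le_self_add.trans h3) ?_)⟩
          rintro rfl
          omega
        · exact absurd rfl h1
      have hle : ∀ ν, ν ≤ μ → coeff ν H' = 0 := fun ν h1 => by
        by_contra hc; exact (hH' ν hc).2 h1
      refine ⟨G' - homogeneousComponent j G' + H', by rw [map_add, map_sub, e0, e1]; ring,
        fun ν hν => ?_, fun ν h1 h2 => ?_, ?_⟩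
      · by_cases h1 : coeff ν H' = 0
        · rw [coeff_add, h1, add_zero, coeff_sub, coeff_homogeneousComponent] at hν
          split_ifs at hν with h2
          · exact absurd (sub_self _) hν
          · have := hd ν (by rwa [sub_zero] at hν)
            omega
        · exact (hH' ν h1).1.ge
      · rw [coeff_add, hle ν h1, coeff_sub, coeff_homogeneousComponent, hz ν h1 h2]
        simp
      · rw [coeff_add, hle μ le_rfl, coeff_sub, coeff_homogeneousComponent, if_neg (by omega), hc]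
        simp
  obtain ⟨G', e0, hd, -, hc⟩ := key _ le_rfl
  have := comp_mem hs e0 hd μ
  rwa [coeff_homogeneousComponent, if_pos rfl, hc] at this

omit [IsLocalRing R]

/-- dehomogenization -/
noncomputable def dh (a : R) (Q : MvPolynomial (Fin (N + 1)) R) : MvPolynomial (Fin N) R :=
  ∑ μ ∈ Q.support, monomial μ.tail (coeff μ Q * a ^ μ 0)

theorem eval_dh (ev : Fin (N + 1) → R) (Q : MvPolynomial (Fin (N + 1)) R) :
    eval (fun i : Fin N => ev i.succ) (dh (ev 0) Q) = eval ev Q := by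
  conv_rhs => rw [Q.as_sum]
  rw [dh, map_sum, map_sum]
  refine Finset.sum_congr rfl fun μ _ => ?_
  rw [eval_monomial, eval_monomial, Finsupp.prod_fintype _ _ (fun _ => pow_zero _),
    Finsupp.prod_fintype _ _ (fun _ => pow_zero _), Fin.prod_univ_succ, mul_assoc]
  rfl

theorem coeff_dh_ne {a : R} {Q : MvPolynomial (Fin (N + 1)) R} {ν : Fin N →₀ ℕ}
    (h : coeff ν (dh a Q) ≠ 0) : ∃ μ, coeff μ Q ≠ 0 ∧ μ.tail = ν := by
  rw [dh, coeff_sum] at h
  obtain ⟨μ, hμ, h1⟩ := Finset.exists_ne_zero_of_sum_ne_zero h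
  rw [coeff_monomial] at h1
  split_ifs at h1 with h2
  · exact ⟨μ, mem_support_iff.1 hμ, h2⟩
  · exact absurd rfl h1

theorem weight_tail {ω : Fin (N + 1) → ℤ × ℤ} (h0 : ω 0 = (0, 1)) (μ : Fin (N + 1) →₀ ℕ) :
    Finsupp.weight ω μ = (0, (μ 0 : ℤ)) + Finsupp.weight (fun i : Fin N => ω i.succ) μ.tail := by
  rw [weight_fin, weight_fin, Fin.sum_univ_succ, h0]
  congr 1
  simp

theorem eq_zero_of_weight {ω : Fin N → ℤ × ℤ} (h : ∀ i, 0 < (ω i).1) {κ : Fin N →₀ ℕ}
    (hκ : (Finsupp.weight ω κ).1 ≤ 0) : κ = 0 := by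
  rw [weight_fin, Prod.fst_sum] at hκ
  ext i
  have h1 : ∀ j ∈ Finset.univ, 0 ≤ (κ j • ω j).1 := fun j _ => by
    rw [Prod.smul_fst]; exact nsmul_nonneg (h j).le _
  have h2 := (Finset.single_le_sum h1 (Finset.mem_univ i)).trans hκ
  rw [Prod.smul_fst, nsmul_eq_mul] at h2
  have := h i
  by_contra hc
  have h3 : (0 : ℤ) < κ i := by exact_mod_cast Nat.pos_of_ne_zero hc
  nlinarith

end Qrw

open Qrw

theorem qrw : QRW := by
  intro R _ _ N ev ω hA n D Q hQ hz μ
  by_cases hμ : coeff μ Q = 0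
  · rw [hμ]; exact zero_mem _
  obtain ⟨Q2, hQ2, e⟩ := (mem_Fil_iff ev ω _ _).1 hz
  have w1 : ∀ μ : Fin (N + 1) →₀ ℕ, (Finsupp.weight ω μ).1 =
      (Finsupp.weight (fun i : Fin N => ω i.succ) μ.tail).1 := fun μ => by
    rw [weight_tail hA.w0]; simp
  have hn : (Finsupp.weight (fun i : Fin N => ω i.succ) μ.tail).1 = n := by
    rw [← w1, hQ hμ]
  have h2 : coeff μ.tail (dh (ev 0) Q2) = 0 := by
    by_contra hc
    obtain ⟨μ', h1, h2⟩ := coeff_dh_ne hc
    have := hQ2 μ' h1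
    rw [w1, h2, hn] at this
    omega
  have h3 : coeff μ.tail (dh (ev 0) Q) = coeff μ Q * ev 0 ^ μ 0 := by
    rw [dh, coeff_sum, Finset.sum_eq_single μ, coeff_monomial, if_pos rfl]
    · intro μ' hμ' hne
      rw [coeff_monomial, if_neg]
      intro ht
      have e1 := (hQ (mem_support_iff.1 hμ')).trans (hQ hμ).symm
      rw [weight_tail hA.w0, weight_tail hA.w0, ht, add_left_inj, Prod.mk.injEq] at e1
      refine hne ?_
      rw [← Finsupp.cons_tail μ', ← Finsupp.cons_tail μ, ht, Nat.cast_injective e1.2]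
    · intro h
      exact absurd (mem_support_iff.2 hμ) h
  have h4 := lemmaA hA.qr μ.tail (dh (ev 0) Q - dh (ev 0) Q2)
    (by rw [map_sub, eval_dh, eval_dh, e, sub_self]) fun ν hν hle => by
      have h5 : n ≤ (Finsupp.weight (fun i : Fin N => ω i.succ) ν).1 := by
        by_cases h6 : coeff ν (dh (ev 0) Q) = 0
        · rw [coeff_sub, h6, zero_sub, neg_ne_zero] at hν
          obtain ⟨μ', h1, rfl⟩ := coeff_dh_ne hν
          have := hQ2 μ' h1
          rw [w1] at this
          omega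
        · obtain ⟨μ', h1, rfl⟩ := coeff_dh_ne h6
          rw [← w1, hQ h1]
      obtain ⟨κ, hκ⟩ := exists_add_of_le hle
      rw [hκ, map_add, Prod.fst_add] at hn
      rw [hκ, eq_zero_of_weight hA.pos (κ := κ) (by omega), add_zero]
  rw [coeff_sub, h2, sub_zero, h3] at h4
  exact (Ideal.mul_unit_mem_iff_mem _ (hA.unit.pow _)).1 h4

end Vale.Agent.P236Z.Tate
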