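import Vale.Agent.P236Z.Tate.Sk3
import Vale.Agent.P236Z.Tate.Ht

/-!
# P236, block TATE: `s₉` is invariant modulo `s₃`
-/

namespace Vale.Agent.P236Z.Tate

open Vale.Agent.P251.F Vale.Agent.P217 IsLocalRing Ht

namespace S9i

variable {B : Type} [CommRing B]

/-- conjugation of a strict automorphism -/
theorem conj [CharP B 3] {G G' : FormalGroup B} [G.IsComm] [G'.IsComm] {l l' f : InvSeries B}
    (hl : IsHom G G l.val) (hf : IsHom G G' f.val) (h1 : PowerSeries.coeff 1 l.val = 1)
    (h3 : PowerSeries.coeff 3 l.val = 0) (h : l' * f = f * l) :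
    PowerSeries.coeff 1 l'.val = 1 ∧
      PowerSeries.coeff 9 l'.val * PowerSeries.coeff 1 f.val ^ 8 = PowerSeries.coeff 9 l.val := by
  obtain ⟨π, hπ, ⟨u, hd⟩, hZ⟩ := exists_pi hl
  have hv := pi_vanish hπ hd h1 2 fun i h1 h2 => by
    obtain rfl : i = 1 := by omega
    exact h3
  have h9 : PowerSeries.coeff 9 π = PowerSeries.coeff 9 l.val := pi_coeff hπ hd two_pos hv
  have hdv : PowerSeries.X ^ 9 ∣ π := dvd_of_vanish hπ 2 hv
  have eX : ∀ g : PowerSeries B, (PowerSeries.subst (MvPowerSeries.X () : MvPowerSeries Unit B) g :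
      PowerSeries B) = g := fun g => PowerSeries.X_subst g
  have df : ∀ g : InvSeries B, (PowerSeries.X : PowerSeries B) ^ 1 ∣ g.val := fun g => by
    rw [pow_one]
    exact PowerSeries.X_dvd_iff.2 g.cc
  obtain ⟨w, hw⟩ := pt_add (homPt _ hf (homPt π hπ (ptX G ()))) (homPt _ hf (ptX G ()))
  rw [← map_add, ← hZ] at hw
  simp only [homPt_val, ptX_val, eX] at hw
  obtain ⟨d1, c1⟩ := subst_ord (by norm_num) hdv (df f)
  have e1 : (PowerSeries.subst f.val (l'.val - PowerSeries.X) : PowerSeries B) =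
      PowerSeries.subst π f.val + PowerSeries.subst π f.val * f.val * w := by
    rw [PowerSeries.subst_sub f.hs, PowerSeries.subst_X f.hs, ← InvSeries.mul_val, h,
      InvSeries.mul_val, hw]
    ring
  have d2 : (PowerSeries.X : PowerSeries B) ^ (9 * 1 + 1) ∣
      PowerSeries.subst π f.val * f.val * w := by
    rw [pow_add]
    exact (mul_dvd_mul d1 (df f)).mul_right w
  have d3 : (PowerSeries.X : PowerSeries B) ^ (1 * 9) ∣ l'.val - PowerSeries.X := by
    have := (subst_ord one_pos (df f⁻¹) (d1.add ((pow_dvd_pow _ (by norm_num)).trans d2))).1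
    rwa [← e1, PowerSeries.subst_comp_subst_apply f.hs f⁻¹.hs, f.inv_subst_val,
      PowerSeries.X_subst] at this
  have c2 := (subst_ord one_pos (df f) d3).2
  rw [e1, map_add, PowerSeries.X_pow_dvd_iff.1 d2 _ (by norm_num), add_zero, map_sub,
    PowerSeries.coeff_X, if_neg (by norm_num), sub_zero] at c2
  have c3 := PowerSeries.X_pow_dvd_iff.1 d3 1 (by norm_num)
  rw [map_sub, PowerSeries.coeff_one_X, sub_eq_zero] at c3
  refine ⟨c3, f.isUnit.mul_right_cancel ?_⟩
  rw [← h9]
  norm_num at c1 c2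
  linear_combination c1 - c2

end S9i

theorem s9i : S9I := by
  intro R _ _ F γ f h
  set K := (twOf γ f).cube.J ⊔ Ideal.span {sc (ser3 γ f) 3}
  by_cases hK : K = ⊤
  · rw [hK]; trivial
  have := Ideal.Quotient.nontrivial_iff.2 hK
  have h3' : ((3 : ℕ) : R ⧸ K) = 0 := by
    rw [← map_natCast (Ideal.Quotient.mk K)]
    exact Ideal.Quotient.eq_zero_iff_mem.2
      (by exact_mod_cast Ideal.mem_sup_left (three_mem (twOf γ f).cube))
  have : CharP (R ⧸ K) 3 := (CharP.charP_iff_prime_eq_zero Nat.prime_three).2 h3'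
  set φ := Ideal.Quotient.mk K
  have hδ : ∀ r, φ (((γ : R →+* R).comp ((γ : R →+* R).comp (γ : R →+* R))) r) = φ r := fun r =>
    Ideal.Quotient.eq.2 (Ideal.mem_sup_left (g_mem (twOf γ f).cube r))
  have h1 : φ (PowerSeries.coeff 1 (ser3 γ f).val) = 1 := by
    have e := congrArg φ (coeff_one_ser3 γ f)
    have e1 : φ (twOf γ f).cube.t = 1 := Ideal.Quotient.eq.2 (Ideal.mem_sup_left (t_mem _))
    rwa [map_mul, e1, one_mul, map_one] at e
  have e : InvSeries.map φ (InvSeries.map (γ : R →+* R) (ser3 γ f)) * InvSeries.map φ f =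
      InvSeries.map φ f * InvSeries.map φ (ser3 γ f) := by
    have e1 : InvSeries.map φ (InvSeries.map (γ : R →+* R) (InvSeries.map (γ : R →+* R)
        (InvSeries.map (γ : R →+* R) f))) = InvSeries.map φ f := by
      rw [InvSeries.map_map, InvSeries.map_map, InvSeries.map_map]
      exact congrArg (fun ψ => InvSeries.map ψ f) (RingHom.ext hδ)
    simp only [ser3, map_mul, e1, mul_assoc]
  obtain ⟨k1, k2⟩ := S9i.conj (f := InvSeries.map φ f) (isHom_map (ser3_smul h.act) φ hδ)
    ((InvSeries.isHom_smul f F).mapL φ) h1 (by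
      rw [InvSeries.map_val, PowerSeries.coeff_map, coeff_eq_sc]
      exact Ideal.Quotient.eq_zero_iff_mem.2 (Ideal.mul_mem_left _ _
        (Ideal.mem_sup_right (Ideal.mem_span_singleton_self _)))) e
  simp only [InvSeries.map_val, PowerSeries.coeff_map] at k1 k2
  rw [coeff_eq_sc, map_mul, map_mul, map_mul, k1, h1, one_mul, one_mul] at k2
  have e2 : (((twOf γ f).t ^ (-8 : ℤ) : Rˣ) : R) = PowerSeries.coeff 1 f.val ^ 8 := by
    change (((f.isUnit.unit⁻¹) ^ (-8 : ℤ) : Rˣ) : R) = _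
    rw [inv_zpow', neg_neg, zpow_ofNat, Units.val_pow_eq_pow_val, IsUnit.unit_spec]
  rw [Tw.T, Tw.act, e2, ← Ideal.Quotient.eq, map_mul, map_pow]
  exact k2

end Vale.Agent.P236Z.Tate
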