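import Vale.Agent.P236Z.Tate.Alg

/-!
# P236, block TATE: from the graded model to the ring, generators (SG)
-/

namespace Vale.Agent.P236Z.Tate

open IsLocalRing MvPolynomial

variable {R : Type} [CommRing R] [IsLocalRing R]

theorem LFApi.sg_sum {N : ℕ} {ev : Fin (N + 1) → R} {ω : Fin (N + 1) → ℤ × ℤ} (api : LFApi ev ω)
    {ι : Type} (s : Finset ι) {n D : ℤ} {z : ι → R}
    {P : ι → MvPolynomial (Fin (N + 1)) (ResidueField R)} (h : ∀ i, LF ev ω n D (z i) (P i)) :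
    LF ev ω n D (∑ i ∈ s, z i) (∑ i ∈ s, P i) := by
  classical
  induction s using Finset.induction_on with
  | empty => exact api.of_mem n D _ (zero_mem _)
  | insert a s ha ih =>
    rw [Finset.sum_insert ha, Finset.sum_insert ha]
    exact api.add _ _ _ _ _ _ (h a) ih

/-- the step for a pair of operators -/
theorem sg_gen {H : Tw R} {x : Fin 3 → R} (par : Par H x) (api : LFApi (evx H x) om)
    (ha : LFAct H x) {ι : Type} [Fintype ι] {δ ε a₁ a₂ : ℤ} {O₁ O₂ : ℤ → R → R}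
    {o₁ o₂ : MvPolynomial (Fin 7) (ResidueField R) → MvPolynomial (Fin 7) (ResidueField R)}
    (h1 : ∀ n D z P, LF (evx H x) om n D z P → LF (evx H x) om (n + a₁) D (O₁ D z) (o₁ P))
    (h2 : ∀ n D z P, LF (evx H x) om n D z P → LF (evx H x) om (n + a₂) D (O₂ D z) (o₂ P))
    (m1 : ∀ d e a b, H.T e b = 0 → O₁ (d + e) (a * b) = O₁ d a * b)
    (m2 : ∀ d e a b, H.T e b = 0 → O₂ (d + e) (a * b) = O₂ d a * b)
    {g : ι → R} {G : ι → MvPolynomial (Fin 7) (ResidueField R)} {c : ι → ℤ}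
    (hg : ∀ i, c i ≤ 10 ∧ LF (evx H x) om (c i) (δ - 3 * ε) (g i) (G i))
    (gen : ∀ e n P, IsWeightedHomogeneous om P (n, 3 * e + δ) → o₁ P = 0 →
      ∃ (Q : MvPolynomial (Fin 7) (ResidueField R)) (ρ : ι → MvPolynomial (Fin 3) (ResidueField R))
        (m : ι → ℤ), IsWeightedHomogeneous om Q (n - a₂, 3 * e + δ) ∧
        (∀ i, IsWeightedHomogeneous om (px _ (ρ i)) (m i, e + ε) ∧ (3 * m i + c i = n ∨ ρ i = 0)) ∧
        P = o₂ Q + ∑ i, px _ (ρ i) ^ 3 * G i)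
    (e n : ℤ) (z : R) (hz : z ∈ Fil (evx H x) om n)
    (hz' : O₁ (3 * e + δ) z ∈ Fil (evx H x) om (n + a₁ + 1)) :
    ∃ (q : R) (r : ι → R), q ∈ Fil (evx H x) om (n - a₂) ∧
      (∀ i, r i ∈ Fil (evx H x) om ((n - 10) / 3)) ∧
      z - O₂ (3 * e + δ) q - ∑ i, H.nm (e + ε) (r i) * g i ∈ Fil (evx H x) om (n + 1) := by
  obtain ⟨k, hk⟩ : ∃ k : ℤ, n ≤ 3 * (e + k) + δ := ⟨|n - 3 * e - δ|, by
    have := le_abs_self (n - 3 * e - δ)
    have := abs_nonneg (n - 3 * e - δ)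
    omega⟩
  have hν : IsUnit (H.nm k 1) := H.isUnit_nm k isUnit_one
  have hT : H.T (3 * k) (H.nm k 1) = 0 := par.ord.T_nm k 1
  have hD : 3 * (e + k) + δ = 3 * e + δ + 3 * k := by ring
  obtain ⟨P, hP⟩ := api.ex n _ _ (Ideal.mul_mem_right (H.nm k 1) _ hz) hk
  obtain ⟨Q, ρ, m, hQ, hρ, rfl⟩ := gen (e + k) n P (api.wh _ _ _ _ hP)
    ((api.zero_iff _ _ _ _ (h1 _ _ _ _ hP)).2 (by
      rw [hD, m1 _ _ _ _ hT]
      exact Ideal.mul_mem_right _ _ hz'))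
  obtain ⟨q', hq⟩ := api.surj _ _ _ hQ
  obtain ⟨q, rfl⟩ := exists_eq_mul_left_of_dvd (hν.dvd (a := q'))
  have key : ∀ i, ∃ r, r ∈ Fil (evx H x) om ((n - 10) / 3) ∧
      LF (evx H x) om n (3 * (e + k) + δ) (H.nm (e + k + ε) r * g i) (px _ (ρ i) ^ 3 * G i) := by
    intro i
    rcases (hρ i).2 with h | h
    · obtain ⟨r, hr⟩ := api.surj _ _ _ (hρ i).1
      have hc := (hg i).1
      refine ⟨r, api.mono _ _ (by omega) (api.mem _ _ _ _ hr), ?_⟩
      have h3 := api.lmul _ _ _ _ _ _ _ _ (api.lmul _ _ _ _ _ _ _ _ (api.lmul _ _ _ _ _ _ _ _ hr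
        (ha.act _ _ _ _ hr)) (ha.act _ _ _ _ (ha.act _ _ _ _ hr))) (hg i).2
      rwa [show m i + m i + m i + c i = n by omega, show e + k + ε + (e + k + ε) + (e + k + ε) +
        (δ - 3 * ε) = 3 * (e + k) + δ by ring, ← pow_three'] at h3
    · refine ⟨0, zero_mem _, ?_⟩
      rw [h, map_zero, zero_pow three_ne_zero, zero_mul, H.nm_zero, zero_mul]
      exact api.of_mem _ _ _ (zero_mem _)
  choose r hr hr' using key
  have h3 := h2 _ _ _ _ hq
  rw [sub_add_cancel] at h3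
  have h4 := (api.zero_iff _ _ _ _ (api.add _ _ _ _ _ _ hP (api.neg _ _ _ _
    (api.add _ _ _ _ _ _ h3 (api.sg_sum Finset.univ hr'))))).1 (add_neg_cancel _)
  refine ⟨q, r, (Ideal.mul_unit_mem_iff_mem _ hν).1 (api.mem _ _ _ _ hq), hr,
    (Ideal.mul_unit_mem_iff_mem _ hν).1 ?_⟩
  have e1 : ∀ i, H.nm (e + k + ε) (r i) * g i = H.nm (e + ε) (r i) * g i * H.nm k 1 := fun i => by
    rw [mul_right_comm, ← H.nm_mul, mul_one, add_right_comm]
  simp only [e1] at h4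
  rw [hD, m2 _ _ _ _ hT, ← Finset.sum_mul] at h4
  rwa [sub_mul, sub_mul, sub_sub, sub_eq_add_neg]

theorem sgen : SG := fun _ _ _ H _ par api ha _ _ _ _ _ _ _ _ _ _ _ _ _ h0 h1 hG e =>
  ⟨fun n z hz hz' => sg_gen par api ha ha.T ha.tr (fun d e a _ => H.T_mul_inv d e a)
      (fun d e a _ => H.tr_mul_inv d e a) h0 (fun e => (hG e).gen0) e n z hz
      (by rwa [add_assoc, one_add_one_eq_two]),
    fun n z hz hz' => sg_gen par api ha ha.tr ha.T (fun d e a _ => H.tr_mul_inv d e a)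
      (fun d e a _ => H.T_mul_inv d e a) h1 (fun e => (hG e).gen1) e n z hz
      (by rwa [add_assoc, two_add_one_eq_three])⟩

end Vale.Agent.P236Z.Tate
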