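import Vale.Agent.P236Z.Tate.Alg
import Mathlib.RingTheory.Filtration

/-!
# P236, block TATE: from the graded model to the ring, independence
-/

namespace Vale.Agent.P236Z.Tate

open IsLocalRing MvPolynomial

namespace Si

variable {R : Type} [CommRing R]

theorem wh_aeval {σ M : Type} [AddCommMonoid M] {w : σ → M} {f : σ → MvPolynomial σ R}
    (hf : ∀ i, IsWeightedHomogeneous w (f i) (w i)) {Q : MvPolynomial σ R} {m : M}
    (hQ : IsWeightedHomogeneous w Q m) : IsWeightedHomogeneous w (aeval f Q) m := by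
  induction hQ using IsWeightedHomogeneous.induction_on with
  | zero =>
    rw [map_zero]
    exact isWeightedHomogeneous_zero R w m
  | add p q _ _ hp hq =>
    rw [map_add]
    exact hp.add hq
  | monomial d r hr =>
    rw [aeval_monomial, ← hr, Finsupp.weight_apply]
    exact (IsWeightedHomogeneous.prod _ _ _ fun i _ => (hf i).pow _).C_mul r

theorem eval_sub_mem {σ : Type} {I : Ideal R} {a b : σ → R} (h : ∀ i, a i - b i ∈ I)
    (Q : MvPolynomial σ R) : eval a Q - eval b Q ∈ I := by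
  induction Q using MvPolynomial.induction_on with
  | C c => simp
  | add p q hp hq =>
    rw [map_add, map_add, add_sub_add_comm]
    exact add_mem hp hq
  | mul_X p i hp =>
    rw [map_mul, map_mul, eval_X, eval_X, show eval a p * a i - eval b p * b i =
      (eval a p - eval b p) * a i + eval b p * (a i - b i) by ring]
    exact add_mem (I.mul_mem_right _ hp) (I.mul_mem_left _ (h i))

variable [IsLocalRing R] {H : Tw R} {x : Fin 3 → R}

theorem krull [IsNoetherianRing R] {J : Ideal R} {r : R} (hr : r ∉ J) :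
    ∃ i : ℕ, r ∉ J ⊔ maximalIdeal R ^ i := by
  by_contra! h
  refine hr (Ideal.Quotient.eq_zero_iff_mem.1 ((Submodule.mem_bot R).1 ?_))
  rw [← Ideal.iInf_pow_smul_eq_bot_of_isLocalRing (M := R ⧸ J) (maximalIdeal R)
    (maximalIdeal.isMaximal R).ne_top, Submodule.mem_iInf]
  intro i
  obtain ⟨j, hj, y, hy, rfl⟩ := Submodule.mem_sup.1 (h i)
  rw [map_add, Ideal.Quotient.eq_zero_iff_mem.2 hj, zero_add, ← mul_one y, ← smul_eq_mul]
  exact Submodule.smul_mem_smul hy (n := Ideal.Quotient.mk J 1) trivial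

/-- reduction modulo `J` -/
theorem red [IsNoetherianRing R] (hJ : ∀ j, H.T 1 (x j) ∈ H.J) (A : LFApi (evx H x) om) {r : R}
    (hr : r ∉ H.J) : ∃ n : ℤ, ∀ D, n ≤ D → ∀ u, IsUnit u → ∃ r' ρ, r - r' ∈ H.J ∧ ρ ≠ 0 ∧
      LF (evx H x) om n D (r' * u) (px (ResidueField R) ρ) := by
  obtain ⟨i, hi⟩ := krull hr
  obtain ⟨b, hb⟩ := A.le_pow i
  obtain ⟨n, h1, h2⟩ := Int.exists_greatest_of_bdd (P := fun n => r ∈ H.J ⊔ Fil (evx H x) om n)
    ⟨b, fun z hz => not_lt.1 fun h => hi (sup_le_sup_left ((A.mono _ _ h.le).trans hb) _ hz)⟩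
    ⟨0, by rw [A.top 0 le_rfl, sup_top_eq]; trivial⟩
  refine ⟨n, fun D hD u hu => ?_⟩
  obtain ⟨u, rfl⟩ := hu
  obtain ⟨j, hj, r₁, hr₁, rfl⟩ := Submodule.mem_sup.1 h1
  obtain ⟨-, Q, q1, -, q2⟩ := A.ex n D (r₁ * u) (Ideal.mul_mem_right _ _ hr₁) hD
  let f : Fin 7 → MvPolynomial (Fin 7) R := ![X 0, 0, 0, X 3, 0, X 5, 0]
  have h3 : eval (evx H x) Q - eval (evx H x) (aeval f Q) ∈ H.J := by
    have h := aeval_bind₁ (evx H x) f Q
    rw [aeval_eq_eval, aeval_eq_eval] at h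
    rw [aeval_eq_bind₁, h]
    refine eval_sub_mem (fun i => ?_) Q
    fin_cases i <;> simp [f, evx, hJ, H.three_mem_J]
  have h4 : LF (evx H x) om n D ((r₁ - (eval (evx H x) Q - eval (evx H x) (aeval f Q)) * ↑u⁻¹) * u)
      (px (ResidueField R) (aeval ![X 0, 0, 0, X 1, 0, X 2, 0] (map (residue R) Q))) := by
    refine ⟨aeval f Q, wh_aeval (fun i => ?_) q1, ?_, ?_⟩
    · fin_cases i
      all_goals first | exact isWeightedHomogeneous_X R _ _ | exact isWeightedHomogeneous_zero R _ _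
    · rw [aeval_eq_bind₁, map_bind₁, px, ← AlgHom.comp_apply, comp_aeval, aeval_eq_bind₁]
      refine congrArg (fun g => bind₁ g (map (residue R) Q)) (funext fun i => ?_)
      fin_cases i <;> simp [f, xx]
    · rwa [sub_mul, mul_assoc, u.inv_mul, mul_one, sub_sub, sub_add_cancel]
  refine ⟨_, _, ?_, fun h0 => ?_, h4⟩
  · rw [add_sub_assoc, sub_sub_cancel]
    exact add_mem hj (Ideal.mul_mem_right _ _ h3)
  · rw [h0, map_zero] at h4
    have h5 := (Ideal.mul_unit_mem_iff_mem _ u.isUnit).1 ((A.zero_iff _ _ _ _ h4).1 rfl)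
    refine absurd (h2 (n + 1) (Submodule.mem_sup.2 ⟨_, add_mem hj
      (Ideal.mul_mem_right (↑u⁻¹ : R) _ h3), _, h5, by ring⟩)) (by omega)

theorem lf_sum {N : ℕ} {ev : Fin (N + 1) → R} {ω : Fin (N + 1) → ℤ × ℤ} (A : LFApi ev ω) {ι : Type}
    (s : Finset ι) {n D : ℤ} {z : ι → R} {P : ι → MvPolynomial (Fin (N + 1)) (ResidueField R)}
    (h : ∀ i, LF ev ω n D (z i) (P i)) : LF ev ω n D (∑ i ∈ s, z i) (∑ i ∈ s, P i) := by
  classical
  induction s using Finset.induction_on with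
  | empty => exact A.of_mem _ _ _ (zero_mem _)
  | insert i s hi ih =>
    rw [Finset.sum_insert hi, Finset.sum_insert hi]
    exact A.add _ _ _ _ _ _ (h i) ih

theorem main [IsNoetherianRing R] (hP : Par H x) (A : LFApi (evx H x) om) (B : LFAct H x)
    {ι : Type} [Fintype ι] {δ E s : ℤ} {g : ι → R} {G : ι → MvPolynomial (Fin 7) (ResidueField R)}
    {c : ι → ℤ} (hg : ∀ i, LF (evx H x) om (c i) δ (g i) (G i)) {op : ℤ → R → R}
    {OP : MvPolynomial (Fin 7) (ResidueField R) → MvPolynomial (Fin 7) (ResidueField R)}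
    (h1 : ∀ n D z P, LF (evx H x) om n D z P → LF (evx H x) om (n + s) D (op D z) (OP P))
    (h2 : ∀ d e a b, H.T e b = 0 → op (d + e) (a * b) = op d a * b)
    (h3 : ∀ Q (ρ : ι → MvPolynomial (Fin 3) (ResidueField R)),
      ∑ i, px _ (ρ i) ^ 3 * G i = OP Q → ∀ i, ρ i = 0) (r : ι → R) (hr : ∃ i, r i ∉ H.J) :
    ∃ (r' : ι → R) (n : ℤ), (∀ i, r i - r' i ∈ H.J) ∧
      ∑ i, H.nm E (r' i) * g i ∈ Fil (evx H x) om n ∧ ∀ q ∈ Fil (evx H x) om (n - s),
        ∑ i, H.nm E (r' i) * g i - op (3 * E + δ) q ∉ Fil (evx H x) om (n + 1) := by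
  classical
  choose! m hm using fun i (hi : r i ∉ H.J) => red (fun j => H.T_mem_J 1 (x j)) A hi
  obtain ⟨i₀, i1, i2⟩ := (Finset.univ.filter fun i => r i ∉ H.J).exists_min_image
    (fun i => 3 * m i + c i) (hr.imp fun i hi => by simpa using hi)
  set n := 3 * m i₀ + c i₀ with hn
  obtain ⟨b, hb⟩ := (Set.finite_range m).bddAbove
  obtain ⟨k, k1, k2⟩ : ∃ k : ℕ, b ≤ E + k ∧ n - s ≤ 3 * E + δ + 3 * k :=
    ⟨(b - E).toNat + (n - s - (3 * E + δ)).toNat, by omega, by omega⟩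
  have hu : IsUnit (x 0 ^ k) := hP.unit.pow k
  have hν := H.isUnit_nm k hu
  have h4 : ∀ i, ∃ r' ρ, r i - r' ∈ H.J ∧ (i = i₀ → ρ ≠ 0) ∧ LF (evx H x) om n (3 * E + δ + 3 * k)
      (H.nm E r' * g i * H.nm k (x 0 ^ k)) (px _ ρ ^ 3 * G i) := fun i => by
    by_cases hi : r i ∈ H.J
    · refine ⟨0, 0, by rwa [sub_zero], fun h => absurd (h ▸ hi) (Finset.mem_filter.1 i1).2, ?_⟩
      simpa using A.of_mem _ _ _ (zero_mem _)
    obtain ⟨r', ρ, a1, a2, a3⟩ := hm i hi (E + k) ((hb ⟨i, rfl⟩).trans k1) _ hu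
    have a4 := A.lmul _ _ _ _ _ _ _ _ (A.lmul _ _ _ _ _ _ _ _ (A.lmul _ _ _ _ _ _ _ _ a3
      (B.act _ _ _ _ a3)) (B.act _ _ _ _ (B.act _ _ _ _ a3))) (hg i)
    rw [← Tw.nm, H.nm_mul, mul_right_comm, ← pow_three', show m i + m i + m i = 3 * m i by ring,
      show E + k + (E + k) + (E + k) + δ = 3 * E + δ + 3 * k by ring] at a4
    rcases (i2 i (Finset.mem_filter.2 ⟨Finset.mem_univ _, hi⟩)).eq_or_lt with h | h
    · exact ⟨r', ρ, a1, fun _ => a2, h ▸ a4⟩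
    · refine ⟨r', 0, a1, fun h' => absurd h (h' ▸ lt_irrefl n), ?_⟩
      simpa using A.of_mem _ _ _ (A.mono _ _ h (A.mem _ _ _ _ a4))
  choose r' ρ a1 a2 a3 using h4
  have a4 := lf_sum A Finset.univ a3
  rw [← Finset.sum_mul] at a4
  refine ⟨r', n, a1, (Ideal.mul_unit_mem_iff_mem _ hν).1 (A.mem _ _ _ _ a4), fun q hq h => ?_⟩
  obtain ⟨Q, hQ⟩ := A.ex _ _ (q * H.nm k (x 0 ^ k)) (Ideal.mul_mem_right _ _ hq) k2
  have a5 := h1 _ _ _ _ hQ
  rw [sub_add_cancel, h2 _ _ _ _ (hP.ord.T_nm _ _)] at a5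
  have a6 := (A.zero_iff _ _ _ _ (A.add _ _ _ _ _ _ a4 (A.neg _ _ _ _ a5))).2 (by
    rw [← sub_eq_add_neg, ← sub_mul]
    exact Ideal.mul_mem_right _ _ h)
  exact a2 i₀ rfl (h3 Q ρ (add_neg_eq_zero.1 a6) i₀)

end Si

/-- **SI** -/
theorem sind : SI := by
  intro R _ _ _ H x hP _ A B ι κ _ _ δ ε ε' g0 g1 G0 G1 c0 c1 h0 h1 hG e
  refine ⟨fun r hr => ?_, fun r hr => ?_⟩
  · have := Si.main (E := e + ε) hP A B h0 B.tr (fun d e a _ hb => H.tr_mul_inv d e a hb)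
      (hG e).ind0 r hr
    rwa [show 3 * (e + ε) + (δ - 3 * ε) = 3 * e + δ by ring] at this
  · have := Si.main (E := e + ε') hP A B h1 B.T (fun d e a _ hb => H.T_mul_inv d e a hb)
      (hG e).ind1 r hr
    rwa [show 3 * (e + ε') + (δ - 3 * ε') = 3 * e + δ by ring] at this

end Vale.Agent.P236Z.Tate
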