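import Vale.Agent.P236Z.Tate.Sk
import Mathlib.Algebra.TrivSqZeroExt.Basic

/-!
# P236, block TATE: the cohomology of the extension `A[x, a]`
-/

namespace Vale.Agent.P236Z.Tate

open MvPolynomial

namespace Step

variable {A : Type} [CommRing A]

theorem D_mul {B : Type} [CommRing B] (D : Derivation ℤ B B) (u v : B) :
    D (u * v) = D u * v + u * D v := by
  rw [Derivation.leibniz, smul_eq_mul, smul_eq_mul]; ring

theorem D_pow {B : Type} [CommRing B] (D : Derivation ℤ B B) (u : B) (n : ℕ) :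
    D (u ^ (n + 1)) = (n + 1 : ℕ) * u ^ n * D u := by
  rw [Derivation.leibniz_pow, Nat.add_sub_cancel, smul_eq_mul, nsmul_eq_mul, mul_assoc]

/-- the ring homomorphism `P ↦ P + ε D' P` -/
noncomputable def tw (S : DR A) : MvPolynomial (Fin 2) A →+*
    TrivSqZeroExt (MvPolynomial (Fin 2) A) (MvPolynomial (Fin 2) A) :=
  eval₂Hom
    { toFun := fun c => TrivSqZeroExt.inl (C c) + TrivSqZeroExt.inr (C (S.D c))
      map_one' := by ext <;> simp
      map_mul' := fun u v => by
        ext1
        · simp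
        · simp [mul_comm]
      map_zero' := by ext <;> simp
      map_add' := fun u v => by ext1 <;> simp }
    ![TrivSqZeroExt.inl (X 0) + TrivSqZeroExt.inr (X 1),
      TrivSqZeroExt.inl (X 1) + TrivSqZeroExt.inr (- (C S.p * X 0))]

theorem tw_fst (S : DR A) (P : MvPolynomial (Fin 2) A) : (tw S P).fst = P := by
  induction P using MvPolynomial.induction_on with
  | C a => simp [tw]
  | add P Q hP hQ => rw [map_add, TrivSqZeroExt.fst_add, hP, hQ]
  | mul_X P i hP =>
    rw [map_mul, TrivSqZeroExt.fst_mul, hP]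
    fin_cases i <;> simp [tw]

/-- a derivation from an additive map -/
def mkD {B : Type} [CommRing B] (f : B →+ B) (h : ∀ u v, f (u * v) = f u * v + u * f v) :
    Derivation ℤ B B :=
  Derivation.mk' f.toIntLinearMap fun u v => by
    change f (u * v) = u • f v + v • f u
    rw [h, smul_eq_mul, smul_eq_mul]
    ring

theorem mkD_apply {B : Type} [CommRing B] (f : B →+ B) (h) (u : B) : mkD f h u = f u := rfl

theorem exists_extD (S : DR A) : ∃ (f : MvPolynomial (Fin 2) A →+ MvPolynomial (Fin 2) A)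
    (_ : ∀ u v, f (u * v) = f u * v + u * f v), (∀ a, f (C a) = C (S.D a)) ∧ f (X 0) = X 1 ∧
      f (X 1) = - (C S.p * X 0) := by
  refine ⟨AddMonoidHom.mk' (fun P => (tw S P).snd)
    (fun P Q => by rw [map_add, TrivSqZeroExt.snd_add]), fun P Q => ?_, fun a => ?_, ?_, ?_⟩
  · change (tw S (P * Q)).snd = (tw S P).snd * Q + P * (tw S Q).snd
    rw [map_mul, TrivSqZeroExt.snd_mul, tw_fst, tw_fst]
    simp [mul_comm, add_comm]
  · simp [tw]
  · simp [tw]
  · simp [tw]

theorem three' (S : DR A) : (3 : MvPolynomial (Fin 2) A) = 0 := by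
  rw [← map_ofNat (C : A →+* MvPolynomial (Fin 2) A) 3, S.three, map_zero]

theorem cube_mul {B : Type} [CommRing B] (D : Derivation ℤ B B) (h3 : (3 : B) = 0) (p u v : B)
    (hu : D (D (D u)) + p * D u = 0) (hv : D (D (D v)) + p * D v = 0) :
    D (D (D (u * v))) + p * D (u * v) = 0 := by
  simp only [D_mul, map_add]
  linear_combination v * hu + u * hv + (D (D u) * D v + D u * D (D v)) * h3

end Step

open Step

theorem ext : EXT := by
  intro A _ S
  obtain ⟨f, hf, hc, hx, ha⟩ := exists_extD S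
  have hp : f (C S.p) = 0 := by rw [hc, S.Dp, map_zero]
  refine ⟨⟨C S.p, mkD f hf, three' S, hp, fun P => ?_⟩, rfl, hc, hx, ha⟩
  induction P using MvPolynomial.induction_on with
  | C a =>
    simp only [mkD_apply]
    rw [hc, hc, hc, ← map_mul, ← map_add, S.cube, map_zero]
  | add P Q hP hQ =>
    simp only [mkD_apply, map_add] at hP hQ ⊢
    linear_combination hP + hQ
  | mul_X P i hP =>
    refine cube_mul _ (three' S) _ _ _ hP ?_
    fin_cases i
    · simp only [mkD_apply, Fin.zero_eta, hx, ha, map_neg, hf, hp]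
      ring
    · simp only [mkD_apply, Fin.mk_one, hx, ha, map_neg, hf, hp, zero_mul, zero_add]
      ring

namespace Step

variable {A : Type} [CommRing A]

/-- the coefficientwise action on polynomials -/
noncomputable def dP (S : DR A) (u : Polynomial A) : Polynomial A :=
  ∑ n ∈ u.support, Polynomial.monomial n (S.D (u.coeff n))

theorem coeff_dP (S : DR A) (u : Polynomial A) (i : ℕ) : (dP S u).coeff i = S.D (u.coeff i) := by
  rw [dP, Polynomial.finsetSum_coeff]
  simp only [Polynomial.coeff_monomial]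
  rw [Finset.sum_ite_eq']
  split_ifs with h
  · rfl
  · rw [Polynomial.notMem_support_iff.1 h, map_zero]

theorem dP_add (S : DR A) (u v : Polynomial A) : dP S (u + v) = dP S u + dP S v := by
  ext i; simp only [coeff_dP, Polynomial.coeff_add, map_add]

theorem dP_sub (S : DR A) (u v : Polynomial A) : dP S (u - v) = dP S u - dP S v := by
  ext i; simp only [coeff_dP, Polynomial.coeff_sub, map_sub]

theorem dP_neg (S : DR A) (u : Polynomial A) : dP S (-u) = - dP S u := by
  ext i; simp only [coeff_dP, Polynomial.coeff_neg, map_neg]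

theorem dP_p (S : DR A) (u : Polynomial A) :
    dP S (Polynomial.C S.p * u) = Polynomial.C S.p * dP S u := by
  ext i; simp only [coeff_dP, Polynomial.coeff_C_mul, D_mul, S.Dp, zero_mul, zero_add]

theorem cu_C (c : A) : cu (Polynomial.C c) = (C c : MvPolynomial (Fin 2) A) := by simp [cu]

theorem cu_X : cu (Polynomial.X : Polynomial A) = (X 0 ^ 3 : MvPolynomial (Fin 2) A) := by
  simp [cu]

theorem cu_monomial (k : ℕ) (c : A) :
    cu (Polynomial.monomial k c) = (C c * X 0 ^ (3 * k) : MvPolynomial (Fin 2) A) := by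
  rw [← Polynomial.C_mul_X_pow_eq_monomial, map_mul, map_pow, cu_C, cu_X, pow_mul]

/-- the generators -/
noncomputable def ga (u : Polynomial A) (i m : ℕ) : MvPolynomial (Fin 2) A :=
  cu u * X 0 ^ i * X 1 ^ m

theorem coeff_ga (u : Polynomial A) {i j : ℕ} (hi : i ≤ 2) (hj : j ≤ 2) (m l k : ℕ) :
    coeff (Finsupp.single 0 (3 * k + j) + Finsupp.single 1 l) (ga u i m) =
      if j = i ∧ l = m then u.coeff k else 0 := by
  induction u using Polynomial.induction_on' with
  | add u v hu hv =>
    rw [ga, map_add, add_mul, add_mul, coeff_add, ← ga, ← ga, hu, hv, Polynomial.coeff_add]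
    split_ifs <;> simp
  | monomial k' c =>
    rw [ga, cu_monomial, mul_assoc (C c), ← pow_add, X_pow_eq_monomial, X_pow_eq_monomial,
      C_mul_monomial, monomial_mul, mul_one, mul_one, coeff_monomial, Polynomial.coeff_monomial]
    have key : (Finsupp.single (0 : Fin 2) (3 * k' + i) + Finsupp.single 1 m =
        Finsupp.single 0 (3 * k + j) + Finsupp.single 1 l) ↔ (j = i ∧ l = m) ∧ k' = k := by
      constructor
      · intro h
        have h0 := DFunLike.congr_fun h 0
        have h1 := DFunLike.congr_fun h 1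
        simp at h0 h1
        omega
      · rintro ⟨⟨rfl, rfl⟩, rfl⟩
        rfl
    by_cases h1 : j = i ∧ l = m
    · by_cases h2 : k' = k
      · rw [if_pos (key.2 ⟨h1, h2⟩), if_pos h1, if_pos h2]
      · rw [if_neg (fun h => h2 (key.1 h).2), if_pos h1, if_neg h2]
    · rw [if_neg (fun h => h1 (key.1 h).1), if_neg h1]

/-- the filtration by the level -/
noncomputable def W (A : Type) [CommRing A] (L : ℕ) : AddSubgroup (MvPolynomial (Fin 2) A) :=
  AddSubgroup.closure {P | ∃ u i m, i ≤ 2 ∧ i + m ≤ L ∧ P = ga u i m}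

theorem ga_mem (u : Polynomial A) {i m L : ℕ} (hi : i ≤ 2) (h : i + m ≤ L) : ga u i m ∈ W A L :=
  AddSubgroup.subset_closure ⟨u, i, m, hi, h, rfl⟩

theorem W_mono {L L' : ℕ} (h : L ≤ L') : W A L ≤ W A L' :=
  AddSubgroup.closure_mono fun _ ⟨u, i, m, hi, hm, e⟩ => ⟨u, i, m, hi, hm.trans h, e⟩

theorem exists_W (P : MvPolynomial (Fin 2) A) : ∃ L, P ∈ W A L := by
  induction P using MvPolynomial.induction_on' with
  | add P Q hP hQ =>
    obtain ⟨L, hL⟩ := hP
    obtain ⟨L', hL'⟩ := hQ
    exact ⟨max L L', add_mem (W_mono (le_max_left _ _) hL) (W_mono (le_max_right _ _) hL')⟩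
  | monomial μ c =>
    refine ⟨μ 0 % 3 + μ 1, ?_⟩
    have : monomial μ c = ga (Polynomial.monomial (μ 0 / 3) c) (μ 0 % 3) (μ 1) := by
      rw [ga, cu_monomial, mul_assoc (C c), ← pow_add, Nat.div_add_mod, monomial_eq,
        Finsupp.prod_fintype _ _ (by simp), Fin.prod_univ_two, mul_assoc]
    rw [this]
    exact ga_mem _ (by omega) le_rfl

theorem coeff_W {L : ℕ} {P : MvPolynomial (Fin 2) A} (hP : P ∈ W A L) {j l : ℕ} (hj : j ≤ 2)
    (h : L < j + l) (k : ℕ) :
    coeff (Finsupp.single 0 (3 * k + j) + Finsupp.single 1 l) P = 0 := by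
  induction hP using AddSubgroup.closure_induction with
  | mem P hP =>
    obtain ⟨u, i, m, hi, hm, rfl⟩ := hP
    rw [coeff_ga u hi hj, if_neg (by omega)]
  | zero => rfl
  | add P Q _ _ hP hQ => rw [coeff_add, hP, hQ, add_zero]
  | neg P _ hP => rw [coeff_neg, hP, neg_zero]

theorem top_indep {L : ℕ} {u v w : Polynomial A}
    (h : ga u 2 L + ga v 1 (L + 1) + ga w 0 (L + 2) ∈ W A (L + 1)) : u = 0 ∧ v = 0 ∧ w = 0 := by
  refine ⟨Polynomial.ext fun k => ?_, Polynomial.ext fun k => ?_, Polynomial.ext fun k => ?_⟩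
  · have := coeff_W h (j := 2) (l := L) le_rfl (by omega) k
    rw [coeff_add, coeff_add, coeff_ga _ (by omega) (by omega), coeff_ga _ (by omega) (by omega),
      coeff_ga _ (by omega) (by omega)] at this
    simpa using this
  · have := coeff_W h (j := 1) (l := L + 1) (by omega) (by omega) k
    rw [coeff_add, coeff_add, coeff_ga _ (by omega) (by omega), coeff_ga _ (by omega) (by omega),
      coeff_ga _ (by omega) (by omega)] at this
    simpa using this
  · have := coeff_W h (j := 0) (l := L + 2) (by omega) (by omega) k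
    rw [coeff_add, coeff_add, coeff_ga _ (by omega) (by omega), coeff_ga _ (by omega) (by omega),
      coeff_ga _ (by omega) (by omega)] at this
    simpa using this

theorem top_span {L : ℕ} {P : MvPolynomial (Fin 2) A} (hP : P ∈ W A (L + 2)) :
    ∃ u v w, P - (ga u 2 L + ga v 1 (L + 1) + ga w 0 (L + 2)) ∈ W A (L + 1) := by
  induction hP using AddSubgroup.closure_induction with
  | mem P hP =>
    obtain ⟨u, i, m, hi, hm, rfl⟩ := hP
    by_cases h : i + m ≤ L + 1
    · exact ⟨0, 0, 0, by simpa [ga] using ga_mem u hi h⟩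
    · interval_cases i
      · obtain rfl : m = L + 2 := by omega
        exact ⟨0, 0, u, by simp [ga]⟩
      · obtain rfl : m = L + 1 := by omega
        exact ⟨0, u, 0, by simp [ga]⟩
      · obtain rfl : m = L := by omega
        exact ⟨u, 0, 0, by simp [ga]⟩
  | zero => exact ⟨0, 0, 0, by simp [ga]⟩
  | add P Q _ _ hP hQ =>
    obtain ⟨u, v, w, h⟩ := hP
    obtain ⟨u', v', w', h'⟩ := hQ
    refine ⟨u + u', v + v', w + w', ?_⟩
    have := add_mem h h'
    simp only [ga, map_add] at this ⊢
    ring_nf at this ⊢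
    exact this
  | neg P _ hP =>
    obtain ⟨u, v, w, h⟩ := hP
    refine ⟨-u, -v, -w, ?_⟩
    have := neg_mem h
    simp only [ga, map_neg] at this ⊢
    ring_nf at this ⊢
    exact this

/-- the essential part -/
noncomputable def es (k m l : Polynomial A) : MvPolynomial (Fin 2) A :=
  cu k + cu m * X 0 + cu l * X 1

theorem es_mem (k m l : Polynomial A) : es k m l ∈ W A 1 := by
  have := add_mem (add_mem (ga_mem k (i := 0) (m := 0) (L := 1) (by omega) (by omega))
    (ga_mem m (i := 1) (m := 0) (by omega) (by omega)))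
    (ga_mem l (i := 0) (m := 1) (by omega) (by omega))
  simpa [ga, es] using this

theorem exists_es {P : MvPolynomial (Fin 2) A} (hP : P ∈ W A 1) : ∃ k m l, P = es k m l := by
  induction hP using AddSubgroup.closure_induction with
  | mem P hP =>
    obtain ⟨u, i, m, hi, hm, rfl⟩ := hP
    rcases i with _ | _ | i
    · rcases m with _ | _ | m
      · exact ⟨u, 0, 0, by simp [ga, es]⟩
      · exact ⟨0, 0, u, by simp [ga, es]⟩
      · omega
    · obtain rfl : m = 0 := by omega
      exact ⟨0, u, 0, by simp [ga, es]⟩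
    · omega
  | zero => exact ⟨0, 0, 0, by simp [es]⟩
  | add P Q _ _ hP hQ =>
    obtain ⟨u, v, w, rfl⟩ := hP
    obtain ⟨u', v', w', rfl⟩ := hQ
    exact ⟨u + u', v + v', w + w', by simp only [es, map_add]; ring⟩
  | neg P _ hP =>
    obtain ⟨u, v, w, rfl⟩ := hP
    exact ⟨-u, -v, -w, by simp only [es, map_neg]; ring⟩

theorem es_inj {k m l k' m' l' : Polynomial A} (h : es k m l = es k' m' l') :
    k = k' ∧ m = m' ∧ l = l' := by
  have e : ∀ k m l : Polynomial A, es k m l = ga k 0 0 + ga m 1 0 + ga l 0 1 := fun k m l => by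
    simp [ga, es]
  rw [e, e] at h
  have key : ∀ j l0 n, j ≤ 2 → _ := fun j l0 n hj => by
    have := congrArg (coeff (Finsupp.single 0 (3 * n + j) + Finsupp.single 1 l0)) h
    simp only [coeff_add] at this
    rw [coeff_ga _ (by omega) hj, coeff_ga _ (by omega) hj, coeff_ga _ (by omega) hj,
      coeff_ga _ (by omega) hj, coeff_ga _ (by omega) hj, coeff_ga _ (by omega) hj] at this
    exact this
  refine ⟨Polynomial.ext fun n => ?_, Polynomial.ext fun n => ?_, Polynomial.ext fun n => ?_⟩
  · simpa using key 0 0 n (by omega)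
  · simpa using key 1 0 n (by omega)
  · simpa using key 0 1 n (by omega)

section Ext

variable {S : DR A} {S' : DR (MvPolynomial (Fin 2) A)} (E : Ext S S')
include E

theorem D_cu (u : Polynomial A) : S'.D (cu u) = cu (dP S u) := by
  induction u using Polynomial.induction_on' with
  | add u v hu hv => rw [map_add, map_add, hu, hv, dP_add, map_add]
  | monomial k c =>
    have h1 : dP S (Polynomial.monomial k c) = Polynomial.monomial k (S.D c) := by
      ext i
      rw [coeff_dP, Polynomial.coeff_monomial, Polynomial.coeff_monomial]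
      split_ifs <;> simp
    have h2 : S'.D (X 0 ^ (3 * k)) = 0 := by
      rw [Derivation.leibniz_pow, nsmul_eq_mul, Nat.cast_mul, Nat.cast_ofNat, S'.three, zero_mul,
        zero_mul]
    rw [h1, cu_monomial, cu_monomial, D_mul, h2, E.c, mul_zero, add_zero]

theorem D_mem {L : ℕ} {P : MvPolynomial (Fin 2) A} (hP : P ∈ W A L) : S'.D P ∈ W A L := by
  induction hP using AddSubgroup.closure_induction with
  | mem P hP =>
    obtain ⟨u, i, m, hi, hm, rfl⟩ := hP
    have h1 : cu u * S'.D (X 0 ^ i) * X 1 ^ m ∈ W A L := by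
      rcases i with _ | i
      · simp
      · have := ga_mem (((i + 1 : ℕ) : Polynomial A) * u) (i := i) (m := m + 1) (L := L)
          (by omega) (by omega)
        rwa [D_pow, E.x, show cu u * (((i + 1 : ℕ) : MvPolynomial (Fin 2) A) * X 0 ^ i * X 1) * X 1 ^ m =
          ga (((i + 1 : ℕ) : Polynomial A) * u) i (m + 1) by
            rw [ga, map_mul, map_natCast]; ring]
    have h2 : cu u * X 0 ^ i * S'.D (X 1 ^ m) ∈ W A L := by
      rcases m with _ | m
      · simp
      · rw [D_pow, E.a]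
        by_cases h : i = 2
        · subst h
          have := ga_mem (- (((m + 1 : ℕ) : Polynomial A) * Polynomial.C S.p * Polynomial.X * u))
            (i := 0) (m := m) (L := L) (by omega) (by omega)
          rwa [show cu u * X 0 ^ 2 * 
            (((m + 1 : ℕ) : MvPolynomial (Fin 2) A) * X 1 ^ m * - (C S.p * X 0)) =
            ga (- (((m + 1 : ℕ) : Polynomial A) * Polynomial.C S.p * Polynomial.X * u)) 0 m by
              rw [ga, map_neg, map_mul, map_mul, map_mul, map_natCast, cu_C, cu_X]; ring]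
        · have := ga_mem (- (((m + 1 : ℕ) : Polynomial A) * Polynomial.C S.p * u))
            (i := i + 1) (m := m) (L := L) (by omega) (by omega)
          rwa [show cu u * X 0 ^ i * 
            (((m + 1 : ℕ) : MvPolynomial (Fin 2) A) * X 1 ^ m * - (C S.p * X 0)) =
            ga (- (((m + 1 : ℕ) : Polynomial A) * Polynomial.C S.p * u)) (i + 1) m by
              rw [ga, map_neg, map_mul, map_mul, map_natCast, cu_C]; ring]
    have := add_mem (add_mem (ga_mem (dP S u) hi hm) h1) h2
    rwa [ga, D_mul, D_mul, D_cu E, add_mul]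
  | zero => simp
  | add P Q _ _ hP hQ => rw [map_add]; exact add_mem hP hQ
  | neg P _ hP => rw [map_neg]; exact neg_mem hP

theorem N_mem {L : ℕ} {P : MvPolynomial (Fin 2) A} (hP : P ∈ W A L) : S'.N P ∈ W A L := by
  refine add_mem (D_mem E (D_mem E hP)) ?_
  rw [E.p]
  induction hP using AddSubgroup.closure_induction with
  | mem P hP =>
    obtain ⟨u, i, m, hi, hm, rfl⟩ := hP
    have := ga_mem (Polynomial.C S.p * u) hi hm
    rwa [ga, map_mul, cu_C, mul_assoc, mul_assoc, ← mul_assoc (cu u)] at this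
  | zero => simp
  | add P Q _ _ hP hQ => rw [mul_add]; exact add_mem hP hQ
  | neg P _ hP => rw [mul_neg]; exact neg_mem hP

end Ext

/-- the free summand -/
noncomputable def fr (S' : DR (MvPolynomial (Fin 2) A)) (L : ℕ) (u v w : Polynomial A) :
    MvPolynomial (Fin 2) A :=
  cu u * (X 0 ^ 2 * X 1 ^ L) + cu v * S'.D (X 0 ^ 2 * X 1 ^ L) +
    cu w * S'.D (S'.D (X 0 ^ 2 * X 1 ^ L))

section Ext

variable {S : DR A} {S' : DR (MvPolynomial (Fin 2) A)} (E : Ext S S')
include E

theorem D_fr (L : ℕ) (u v w : Polynomial A) : S'.D (fr S' L u v w) =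
    fr S' L (dP S u) (u + dP S v - Polynomial.C S.p * w) (v + dP S w) := by
  have h := S'.cube (X 0 ^ 2 * X 1 ^ L)
  rw [E.p] at h
  rw [fr, fr]
  generalize (X 0 ^ 2 * X 1 ^ L : MvPolynomial (Fin 2) A) = g at h ⊢
  simp only [map_add, map_sub, map_mul, D_mul, D_cu E, cu_C]
  linear_combination cu w * h

theorem fr_sub (L : ℕ) (u v w : Polynomial A) : fr S' L u v w -
    (ga (u - 2 * (((L + 1 : ℕ) : Polynomial A) * Polynomial.C S.p * w)) 2 L + ga (2 * v) 1 (L + 1) +
      ga (2 * w) 0 (L + 2)) ∈ W A (L + 1) := by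
  obtain ⟨ρ, hρ⟩ : ∃ ρ : Polynomial A, X 0 ^ 2 * S'.D (X 1 ^ L) = ga ρ 0 (L - 1) := by
    refine ⟨- ((L : Polynomial A) * Polynomial.C S.p * Polynomial.X), ?_⟩
    rw [Derivation.leibniz_pow, E.a, ga, map_neg, map_mul, map_mul, map_natCast, cu_C, cu_X,
      nsmul_eq_mul, smul_eq_mul]
    ring
  have h1 : S'.D (X 0 ^ 2 * X 1 ^ L) = 2 * (X 0 * X 1 ^ (L + 1)) + ga ρ 0 (L - 1) := by
    rw [D_mul, hρ, D_pow, E.x]
    push_cast
    ring
  have h2 : S'.D (2 * (X 0 * X 1 ^ (L + 1))) = 2 * X 1 ^ (L + 2) -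
      2 * (((L + 1 : ℕ) : MvPolynomial (Fin 2) A) * C S.p * (X 0 ^ 2 * X 1 ^ L)) := by
    rw [two_mul, map_add, D_mul, D_pow, E.x, E.a]
    ring
  have m1 : ∀ z : Polynomial A, cu z * ga ρ 0 (L - 1) ∈ W A (L + 1) := fun z => by
    have := ga_mem (z * ρ) (i := 0) (m := L - 1) (L := L + 1) (by omega) (by omega)
    rwa [ga, map_mul, mul_assoc, mul_assoc, ← mul_assoc (cu ρ)] at this
  have := add_mem (m1 v) (sub_mem (D_mem E (m1 w)) (m1 (dP S w)))
  rw [D_mul, D_cu E] at this
  rw [fr, h1, map_add, h2]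
  generalize ga ρ 0 (L - 1) = r at this ⊢
  simp only [ga, map_sub, map_mul, map_natCast, map_ofNat, cu_C]
  ring_nf at this ⊢
  exact this

theorem fr_indep {L : ℕ} {u v w : Polynomial A} (h : fr S' L u v w ∈ W A (L + 1)) :
    u = 0 ∧ v = 0 ∧ w = 0 := by
  have h3 : (3 : Polynomial A) = 0 := by
    rw [← map_ofNat (Polynomial.C : A →+* Polynomial A) 3, S.three, map_zero]
  have := sub_mem h (fr_sub E L u v w)
  rw [sub_sub_cancel] at this
  obtain ⟨h1, h2, h4⟩ := top_indep this
  have hw : w = 0 := by linear_combination w * h3 - h4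
  refine ⟨?_, by linear_combination v * h3 - h2, hw⟩
  rw [hw] at h1
  simpa using h1

theorem fr_span {L : ℕ} {P : MvPolynomial (Fin 2) A} (hP : P ∈ W A (L + 2)) :
    ∃ u v w, P - fr S' L u v w ∈ W A (L + 1) := by
  have h3 : (3 : Polynomial A) = 0 := by
    rw [← map_ofNat (Polynomial.C : A →+* Polynomial A) 3, S.three, map_zero]
  obtain ⟨u, v, w, h⟩ := top_span hP
  refine ⟨u + 2 * (((L + 1 : ℕ) : Polynomial A) * Polynomial.C S.p * (-w)), -v, -w, ?_⟩
  have := sub_mem h (fr_sub E L (u + 2 * (((L + 1 : ℕ) : Polynomial A) * Polynomial.C S.p * (-w))) (-v) (-w))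
  rw [add_sub_cancel_right, show 2 * -v = v by linear_combination (-v) * h3,
    show 2 * -w = w by linear_combination (-w) * h3] at this
  rwa [sub_sub_sub_cancel_right] at this

theorem N_fr (L : ℕ) (u v w : Polynomial A) : ∃ u' v', S'.N (fr S' L u v w) =
    fr S' L u' v' (u + 2 * dP S v + dP S (dP S w)) := by
  refine ⟨dP S (dP S u) + Polynomial.C S.p * u, dP S u + dP S (u + dP S v - Polynomial.C S.p * w) -
    Polynomial.C S.p * (v + dP S w) + Polynomial.C S.p * v, ?_⟩
  rw [DR.N, D_fr E, D_fr E, E.p]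
  simp only [fr, dP_add, map_add, map_sub, map_mul, map_ofNat, cu_C]
  ring

omit E in
theorem D_N (P : MvPolynomial (Fin 2) A) : S'.D (S'.N P) = 0 := by
  rw [DR.N, map_add, D_mul, S'.Dp, zero_mul, zero_add, S'.cube]

omit E in
theorem N_D (P : MvPolynomial (Fin 2) A) : S'.N (S'.D P) = 0 := S'.cube P

omit E in
theorem N_add (P Q : MvPolynomial (Fin 2) A) : S'.N (P + Q) = S'.N P + S'.N Q := by
  simp only [DR.N, map_add]; ring

omit E in
theorem N_sub (P Q : MvPolynomial (Fin 2) A) : S'.N (P - Q) = S'.N P - S'.N Q := by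
  simp only [DR.N, map_sub]; ring

theorem redD (P : MvPolynomial (Fin 2) A) (h : S'.D P ∈ W A 1) : ∃ Q, P - S'.N Q ∈ W A 1 := by
  have h3 : (3 : Polynomial A) = 0 := by
    rw [← map_ofNat (Polynomial.C : A →+* Polynomial A) 3, S.three, map_zero]
  obtain ⟨L, hL⟩ := exists_W P
  replace hL := W_mono (Nat.le_succ L) hL
  induction L generalizing P with
  | zero => exact ⟨0, by simpa [DR.N] using hL⟩
  | succ L ih =>
    obtain ⟨u, v, w, h1⟩ := fr_span E hL
    have h2 : S'.D (fr S' L u v w) ∈ W A (L + 1) := by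
      have := sub_mem (W_mono (by omega) h) (D_mem E h1)
      rwa [map_sub, sub_sub_cancel] at this
    rw [D_fr E] at h2
    obtain ⟨-, e2, e3⟩ := fr_indep E h2
    have e4 : fr S' L u v w = S'.N (fr S' L w 0 0) := by
      have hv : v = - dP S w := by linear_combination e3
      have hu : u = dP S (dP S w) + Polynomial.C S.p * w := by
        rw [hv, dP_neg] at e2
        linear_combination e2
      have h0 : dP S 0 = 0 := by simp [dP]
      rw [DR.N, D_fr E, D_fr E, E.p, hu, hv]
      simp only [fr, dP_add, dP_sub, h0, map_add, map_sub, map_mul, map_neg, map_zero, cu_C,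
        mul_zero]
      linear_combination (- cu (dP S w) * S'.D (X 0 ^ 2 * X 1 ^ L)) * S'.three
    obtain ⟨Q, hQ⟩ := ih (P - fr S' L u v w) (by rw [map_sub, e4, D_N, sub_zero]; exact h) h1
    exact ⟨fr S' L w 0 0 + Q, by rwa [N_add, ← e4, ← sub_sub]⟩

theorem redN (P : MvPolynomial (Fin 2) A) (h : S'.N P ∈ W A 1) : ∃ Q, P - S'.D Q ∈ W A 1 := by
  have h3 : (3 : Polynomial A) = 0 := by
    rw [← map_ofNat (Polynomial.C : A →+* Polynomial A) 3, S.three, map_zero]
  obtain ⟨L, hL⟩ := exists_W P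
  replace hL := W_mono (Nat.le_succ L) hL
  induction L generalizing P with
  | zero => exact ⟨0, by simpa using hL⟩
  | succ L ih =>
    obtain ⟨u, v, w, h1⟩ := fr_span E hL
    have h2 : S'.N (fr S' L u v w) ∈ W A (L + 1) := by
      have := sub_mem (W_mono (by omega) h) (N_mem E h1)
      rwa [N_sub, sub_sub_cancel] at this
    obtain ⟨u', v', e1⟩ := N_fr E L u v w
    rw [e1] at h2
    obtain ⟨-, -, e3⟩ := fr_indep E h2
    have e4 : fr S' L u v w = S'.D (fr S' L (v - dP S w) w 0) := by
      have h0 : dP S 0 = 0 := by simp [dP]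
      rw [D_fr E, dP_sub, h0, mul_zero, sub_zero, sub_add_cancel, add_zero,
        show u = dP S v - dP S (dP S w) by linear_combination e3 - dP S v * h3]
    obtain ⟨Q, hQ⟩ := ih (P - fr S' L u v w) (by rw [N_sub, e4, N_D, sub_zero]; exact h) h1
    exact ⟨fr S' L (v - dP S w) w 0 + Q, by rwa [map_add, ← e4, ← sub_sub]⟩

theorem D_es (k m l : Polynomial A) : S'.D (es k m l) =
    es (dP S k) (dP S m - Polynomial.C S.p * l) (dP S l + m) := by
  simp only [es, map_add, map_sub, map_mul, D_mul, D_cu E, E.x, E.a, cu_C]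
  ring

theorem N_es (k m l : Polynomial A) : ∃ m', S'.N (es k m l) =
    es (dP S (dP S k) + Polynomial.C S.p * k) m' (dP S (dP S l - m)) := by
  refine ⟨dP S (dP S m - Polynomial.C S.p * l) - Polynomial.C S.p * (dP S l + m) +
    Polynomial.C S.p * m, ?_⟩
  rw [DR.N, D_es E, D_es E, E.p]
  simp only [es, dP_add, dP_sub, map_add, map_sub, map_mul, cu_C]
  linear_combination (cu (dP S m) * X 1) * S'.three

end Ext

theorem coeff_N (S : DR A) (k : Polynomial A) (i : ℕ) :
    (dP S (dP S k) + Polynomial.C S.p * k).coeff i = S.N (k.coeff i) := by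
  rw [Polynomial.coeff_add, coeff_dP, coeff_dP, Polynomial.coeff_C_mul, DR.N]

end Step

theorem step : STEP := by
  intro A _ S S' E
  have z : es (0 : Polynomial A) 0 0 = 0 := by simp [es]
  refine ⟨fun P hP => ?_, fun P hP => ?_, fun Q κ n h i => ?_, fun Q κ n h i => ?_⟩
  · obtain ⟨Q, hQ⟩ := redD E P (by rw [hP]; exact zero_mem _)
    obtain ⟨k, m, l, e⟩ := exists_es hQ
    have h1 := congrArg S'.D e
    rw [map_sub, hP, D_N, sub_zero, D_es E, ← z] at h1
    obtain ⟨e1, e2, e3⟩ := es_inj h1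
    have hm : m = - dP S l := by linear_combination (-1 : Polynomial A) * e3
    refine ⟨Q, k, l, fun i => by rw [← coeff_dP, ← e1]; rfl, fun i => ?_, ?_⟩
    · rw [hm, dP_neg] at e2
      rw [← coeff_N, show dP S (dP S l) + Polynomial.C S.p * l = 0 by linear_combination e2]
      rfl
    · rw [D_cu E]
      rw [es, hm, map_neg] at e
      linear_combination e
  · obtain ⟨Q, hQ⟩ := redN E P (by rw [hP]; exact zero_mem _)
    obtain ⟨k, m, l, e⟩ := exists_es hQ
    have h1 := congrArg S'.N e
    obtain ⟨m', e0⟩ := N_es E k m l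
    rw [N_sub, hP, N_D, sub_zero, e0, ← z] at h1
    obtain ⟨e1, -, e3⟩ := es_inj h1
    refine ⟨Q + cu l * X 0, m - dP S l, k, fun i => ?_, fun i => by rw [← coeff_N, ← e1]; rfl, ?_⟩
    · rw [← coeff_dP, ← neg_sub, dP_neg, ← e3, neg_zero]
      rfl
    · rw [map_add, D_mul, D_cu E, E.x, map_sub]
      rw [es] at e
      linear_combination e
  · have h1 : S'.N Q = es κ (- dP S n) n := by
      rw [← h, D_cu E, es, map_neg]; ring
    obtain ⟨Q', hQ⟩ := redN E Q (by rw [h1]; exact es_mem _ _ _)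
    obtain ⟨k, m, l, e⟩ := exists_es hQ
    have h2 := congrArg S'.N e
    obtain ⟨m', e0⟩ := N_es E k m l
    rw [N_sub, N_D, sub_zero, e0, h1] at h2
    obtain ⟨e1, -, e3⟩ := es_inj h2
    exact ⟨⟨_, by rw [e1, coeff_N]⟩, ⟨_, by rw [e3, coeff_dP]⟩⟩
  · have h1 : S'.D Q = es n κ 0 := by
      rw [← h, es, map_zero]; ring
    obtain ⟨Q', hQ⟩ := redD E Q (by rw [h1]; exact es_mem _ _ _)
    obtain ⟨k, m, l, e⟩ := exists_es hQ
    have h2 := congrArg S'.D e
    rw [map_sub, D_N, sub_zero, D_es E, h1] at h2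
    obtain ⟨e1, e2, e3⟩ := es_inj h2
    refine ⟨⟨(-l).coeff i, ?_⟩, ⟨_, by rw [e1, coeff_dP]⟩⟩
    have hm : m = dP S (-l) := by rw [dP_neg]; linear_combination (-1 : Polynomial A) * e3
    rw [← coeff_N, e2, hm, mul_neg, sub_eq_add_neg]

end Vale.Agent.P236Z.Tate
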