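import Vale.Agent.P236Z.Tate.All
import Vale.Agent.P236Z.Tate.Br2
import Vale.Agent.P236Z.Tate.Qr
import Vale.Agent.P236Z.Tate.Qrw
import Vale.Agent.P236Z.Tate.Lf
import Vale.Agent.P236Z.Tate.Lft
import Vale.Agent.P236Z.Tate.Step
import Vale.Agent.P236Z.Tate.Gr
import Vale.Agent.P236Z.Tate.Grh
import Vale.Agent.P236Z.Tate.Sg
import Vale.Agent.P236Z.Tate.Si
import Vale.Agent.P236Z.Tate.Apx
import Vale.Agent.P236Z.Tate.Jeq
import Vale.Agent.P236Z.Tate.Nf
import Vale.Agent.P236Z.Tate.Trs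
import Vale.Agent.P236Z.Tate.Ht
import Vale.Agent.P236Z.Tate.Lin
import Vale.Agent.P236Z.Tate.Qac
import Vale.Agent.P236Z.Tate.Of
import Vale.Agent.P236Z.Tate.S9i
import Vale.Agent.P236Z.Tate.Inv
import Vale.Agent.P236Z.Tate.Bra

/-!
# P236, block TATE: the result
-/

namespace Vale.Agent.P236Z.Tate

theorem tate : TATE :=
  tate_of ⟨lfb qrw, lft qrc (lfb qrw), grh (gr ext step), sgen, sind, apx, jeq, nf, trs, ht, fix,
    lin, qac qrw qrc (lfb qrw) apx⟩

theorem of_all : OF := ofacts qrc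

theorem inv_all : INV := inv of_all s9i

end Vale.Agent.P236Z.Tate
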