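import Vale.Agent.P236Z.Tate.Cmp
import Vale.Agent.P236Z.Tate.Dic
import Mathlib.RingTheory.Henselian

/-!
# P236, block TATE: rescaling to degree zero
-/

namespace Vale.Agent.P236Z.Tate

open Vale.Agent.P251.F Vale.Agent.P217 IsLocalRing Cmp

namespace Rsc

section Gen

variable {B : Type} [CommRing B]

theorem coeff_lin_mul (l : Bˣ) (a : InvSeries B) (n : ℕ) :
    PowerSeries.coeff n (InvSeries.lin l * a).val = l * PowerSeries.coeff n a.val := by
  have e : (PowerSeries.subst a.val (PowerSeries.C (l : B) * PowerSeries.X) : PowerSeries B) =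
      PowerSeries.C (l : B) * a.val := subst_C_mul_X a.hs _
  rw [InvSeries.mul_val, InvSeries.lin_val, e, PowerSeries.coeff_C_mul]

theorem coeff_mul_lin (l : Bˣ) (a : InvSeries B) (n : ℕ) :
    PowerSeries.coeff n (a * InvSeries.lin l).val = l ^ n * PowerSeries.coeff n a.val := by
  rw [InvSeries.mul_val, InvSeries.lin_val, ← PowerSeries.smul_eq_C_mul,
    ← PowerSeries.rescale_eq_subst, PowerSeries.coeff_rescale]

theorem exists_sqrt [IsLocalRing B] (hc : IsAdicComplete (maximalIdeal B) B)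
    (h3 : (3 : B) ∈ maximalIdeal B) {τ : B} (hτ : τ - 1 ∈ maximalIdeal B) :
    ∃ s : Bˣ, (s : B) ^ 2 = τ ∧ (s : B) - 1 ∈ maximalIdeal B := by
  obtain ⟨a, ha, h1⟩ := (IsAdicComplete.henselianRing B (maximalIdeal B)).is_henselian
    (Polynomial.X ^ 2 - Polynomial.C τ) (Polynomial.monic_X_pow_sub_C τ two_ne_zero) 1
    (by simpa using neg_mem hτ) (by
      have : IsUnit ((2 : ℕ) : B) := isUnit_natCast h3 (by decide)
      refine IsUnit.map _ ?_
      simpa [one_add_one_eq_two] using this)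
  have hu : IsUnit a := by
    by_contra hn
    have : a - (a - 1) ∈ maximalIdeal B := sub_mem hn h1
    rw [sub_sub_cancel] at this
    exact (maximalIdeal.isMaximal B).ne_top ((Ideal.eq_top_iff_one _).2 this)
  refine ⟨hu.unit, ?_, h1⟩
  rw [IsUnit.unit_spec]
  simpa [sub_eq_zero] using ha

end Gen

variable {R : Type} [CommRing R] {R₀ : Type} [CommRing R₀] {deg : ℤ → AddSubgroup R}
  {ι : R₀ →+* R} {ev : R →+* R₀} {v : Rˣ} {g : R ≃+* R} {A : Tw R₀}

theorem key (L : Lau deg ι ev v) (T : Tra ι v g A) {n : ℤ} {a : R} (ha : a ∈ deg (2 * n)) :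
    ev (g a) = A.act (-n) (ev a) := by
  rcases Int.even_or_odd' n with ⟨m, rfl | rfl⟩
  · obtain ⟨r, rfl⟩ := El.ex L (m := m) (by ring) ha
    rw [El.act' T (d := -(2 * m)) (by ring), El.ev_el L, El.ev_el L]
  · rw [L.sparse _ a (by omega) ha]
    simp

theorem map_ser (L : Lau deg ι ev v) (T : Tra ι v g A) {ψ : InvSeries R}
    (hψ : ∀ n : ℕ, ψ.c n ∈ deg (2 * n)) :
    InvSeries.map ev (InvSeries.map (g : R →+* R) ψ) = InvSeries.lin A.t *
      InvSeries.map (A.g : R₀ →+* R₀) (InvSeries.map ev ψ) * (InvSeries.lin A.t)⁻¹ := by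
  rw [eq_mul_inv_iff_mul_eq]
  refine InvSeries.ext_c fun n => ?_
  have e := key L T (hψ n)
  have e1 : ((A.t ^ (-(n : ℤ)) : R₀ˣ) : R₀) * (A.t : R₀) ^ n = 1 := by
    rw [← Units.val_pow_eq_pow_val, ← Units.val_mul, zpow_neg, zpow_natCast, inv_mul_cancel,
      Units.val_one]
  rw [InvSeries.c, InvSeries.c, coeff_lin_mul, coeff_mul_lin]
  change _ * (InvSeries.map ev (InvSeries.map (g : R →+* R) ψ)).c n =
    _ * (InvSeries.map (A.g : R₀ →+* R₀) (InvSeries.map ev ψ)).c n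
  simp only [InvSeries.c_map, RingHom.coe_coe]
  rw [e, Tw.act]
  linear_combination ((A.t : R₀) * A.g (ev (ψ.c n))) * e1

theorem map_ser3 (L : Lau deg ι ev v) (T : Tra ι v g A) (hg : ∀ t a, a ∈ deg t → g a ∈ deg t)
    {ψ : InvSeries R} (hψ : ∀ n : ℕ, ψ.c n ∈ deg (2 * n)) :
    InvSeries.map ev (ser3 g ψ) = InvSeries.lin A.cube.t *
      ser3 A.g ((InvSeries.lin A.t)⁻¹ * InvSeries.map ev ψ) := by
  have h2 := map_ser L T (ψ := InvSeries.map (g : R →+* R) ψ) fun n => by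
    rw [InvSeries.c_map]
    exact hg _ _ (hψ n)
  have e : InvSeries.lin A.cube.t = InvSeries.lin A.t *
      InvSeries.map (A.g : R₀ →+* R₀) (InvSeries.lin A.t) * InvSeries.map (A.g : R₀ →+* R₀)
        (InvSeries.map (A.g : R₀ →+* R₀) (InvSeries.lin A.t)) := by
    rw [InvSeries.map_lin, InvSeries.map_lin, ← map_mul, ← map_mul]
    rfl
  rw [ser3, map_mul, map_mul, h2, map_ser L T hψ, e]
  simp only [ser3, map_mul, map_inv, mul_assoc, inv_mul_cancel_left, mul_inv_cancel_left]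

theorem map_law (L : Lau deg ι ev v) (T : Tra ι v g A) {G : Law R}
    (hG : ∀ d : Fin 2 →₀ ℕ, MvPowerSeries.coeff d G.ps ∈ deg (2 * ((d 0 : ℤ) + d 1 - 1))) :
    (InvSeries.lin A.t)⁻¹ • (G.map (g : R →+* R)).map ev = (G.map ev).map (A.g : R₀ →+* R₀) := by
  refine Law.ext_ps (MvPowerSeries.ext fun d => (Units.mul_right_inj A.t).1 ?_)
  have e1 : (A.t : R₀) ^ (d 0 + d 1) * ((A.t ^ (-((d 0 : ℤ) + d 1 - 1)) : R₀ˣ) : R₀) = A.t := by
    rw [← Units.val_pow_eq_pow_val, ← Units.val_mul, ← zpow_natCast, ← zpow_add]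
    simp
  rw [coeff_lin_inv_smul, e2_degree_eta]
  simp only [Law.map_ps, MvPowerSeries.coeff_map, RingHom.coe_coe]
  rw [key L T (hG d), Tw.act]
  linear_combination A.g (ev (MvPowerSeries.coeff d G.ps)) * e1

theorem exists_gamma (L : Lau deg ι ev v) (hg : ∀ t a, a ∈ deg t → g a ∈ deg t)
    (g9 : ∀ a, (g ^ 9) a = a) :
    ∃ γ : R₀ ≃+* R₀, (∀ r, g (ι r) = ι (γ r)) ∧ ∀ r, (γ ^ 9) r = r := by
  set γ₀ : R₀ →+* R₀ := ev.comp ((g : R →+* R).comp ι) with hγ
  have h0 : ∀ r, El ι v 0 r = ι r := fun r => by simp [El]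
  have h1 : ∀ r, g (ι r) = ι (γ₀ r) := fun r => by
    rw [← h0 (γ₀ r)]
    exact El.eq_el L rfl (hg _ _ (h0 r ▸ El.mem L 0 r))
  have h2 : ∀ r, γ₀ (γ₀ (γ₀ (γ₀ (γ₀ (γ₀ (γ₀ (γ₀ (γ₀ r)))))))) = r := fun r => by
    have := g9 (ι r)
    rw [pow_nine] at this
    simp only [h1] at this
    have e := congrArg ev this
    rwa [L.ev_ι, L.ev_ι] at e
  have hb : Function.Bijective γ₀ :=
    ⟨fun a b h => by rw [← h2 a, h, h2 b], fun r => ⟨_, h2 r⟩⟩
  exact ⟨RingEquiv.ofBijective γ₀ hb, h1, fun r => (pow_nine _ r).trans (h2 r)⟩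

end Rsc

open Rsc

theorem rsc : RSC := by
  intro R _ R₀ _ _ deg ι ev v g G φ D
  have L := D.lau
  have h3 := D.base.three
  obtain ⟨γ, hγ, h9⟩ := exists_gamma L D.g_mem D.g9
  obtain ⟨s, hs, hs1⟩ := exists_sqrt D.base.cpl h3 D.gv
  set f : InvSeries R₀ := InvSeries.lin s * InvSeries.map ev φ with hf
  have c : ∀ n, PowerSeries.coeff (n + 1) f.val = s * ev (φ.c n) := fun n => by
    rw [hf, coeff_lin_mul, ← InvSeries.c_map]; rfl
  have c1 : PowerSeries.coeff 1 f.val = s := by rw [c 0, D.strict, map_one, mul_one]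
  have ht : (twOf γ f).t = s⁻¹ := congrArg (·⁻¹) (Units.ext c1 : f.isUnit.unit = s)
  have hf' : f = (InvSeries.lin (twOf γ f).t)⁻¹ * InvSeries.map ev φ := by
    rw [ht, map_inv, inv_inv]
  have hv : Units.map (g : R →* R) v = Units.map (ι : R₀ →* R) (s ^ 2) * v := by
    have e : (v : R) = El ι v 1 1 := by simp [El]
    have e1 := El.eq_el L (m := 1) rfl (D.g_mem _ _ (e ▸ El.mem L 1 1 : (v : R) ∈ deg (4 * 1)))
    refine Units.ext (e1.trans ?_)
    rw [← hs]
    simp [El]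
  have T : Tra ι v g (twOf γ f) := fun m r => by
    have e : g ((v ^ m : Rˣ) : R) = ι (((s ^ 2) ^ m : R₀ˣ) : R₀) * (v ^ m : Rˣ) := by
      have := congrArg Units.val (map_zpow (Units.map (g : R →* R)) v m)
      rw [hv, mul_zpow, ← map_zpow] at this
      exact this
    rw [map_mul, hγ, e, Tw.act, ht, map_mul, mul_assoc, inv_zpow', ← zpow_natCast, ← zpow_mul]
    simp only [neg_mul, neg_neg]
    rfl
  have hres : ∀ r, γ r - r ∈ maximalIdeal R₀ := fun r => by
    obtain ⟨k, hk⟩ := D.res r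
    have e : γ r - r = γ (r - k) - (r - k) := by simp
    rw [e]
    exact sub_mem (fun hu => hk ((isUnit_map_iff γ _).1 hu)) hk
  have e3 := map_ser3 L T D.g_mem D.φ_mem
  rw [← hf'] at e3
  refine ⟨γ, f, ⟨?_, D.gen, ?_, hres, c1 ▸ hs1, ?_, h9, ?_⟩, T, fun n => ?_⟩
  · rw [hf', mul_smul, ← InvSeries.map_smul, D.act]
    exact map_law L T D.G_mem
  · rw [Law.map_ps, MvPowerSeries.coeff_map, L.sparse _ _ _ (D.G_mem _), map_zero]
    simp
  · rw [c 2]
    exact s.isUnit.mul D.unit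
  · have T3 : Tra ι v (g.trans (g.trans g)) (twOf γ f).cube := El.cube T fun _ => rfl
    have T9 : Tra ι v (g ^ 9) (twOf γ f).cube.cube := El.cube T3 fun a => (pow_nine g a).symm
    have e9 := map_ser3 L T3 (fun t a h => D.g_mem t _ (D.g_mem t _ (D.g_mem t _ h))) D.ψ_mem
    rw [D.ordf, map_one, e3, inv_mul_cancel_left] at e9
    set N := (twOf γ f).cube.cube.t with hN
    have n1 : (N : R₀) - 1 ∈ maximalIdeal R₀ := by
      refine Ht.J_le (twOf γ f) h3 ?_ hres (Ht.cube_J_le _ (Ht.cube_J_le _ (Ht.t_mem _)))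
      have := Tw.zpow_sub_one_mem hs1 (-1)
      rwa [zpow_neg_one, ← ht] at this
    have n2 : N ^ (2 : ℕ) = 1 := by
      have := El.act' T9 (m := -1) (d := (2 : ℕ)) (by norm_num) 1
      rw [D.g9] at this
      have e := El.inj L this
      rw [Tw.act, map_one, one_mul, zpow_natCast] at e
      exact Units.ext e.symm
    have n3 : IsUnit ((N : R₀) + 1) := by
      by_contra hn
      have : (N : R₀) + 1 - (N - 1) ∈ maximalIdeal R₀ := sub_mem hn n1
      exact this (by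
        rw [show (N : R₀) + 1 - (N - 1) = ((2 : ℕ) : R₀) by push_cast; ring]
        exact isUnit_natCast h3 (by decide))
    have n4 : N = 1 := by
      refine Units.ext (sub_eq_zero.1 (n3.mul_right_eq_zero.1 ?_))
      have := congrArg Units.val n2
      rw [Units.val_pow_eq_pow_val] at this
      simp only [Units.val_one] at this ⊢
      linear_combination this
    rw [n4, map_one, one_mul] at e9
    exact e9.symm
  · rw [← PowerSeries.coeff_map, ← InvSeries.map_val, e3, coeff_lin_mul, ← twOf_ser3]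
    rfl

end Vale.Agent.P236Z.Tate
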