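import Vale.Agent.P236Z.Tate.Defs
import Mathlib.RingTheory.Regular.RegularSequence

/-!
# P236, block TATE: the rows
-/

namespace Vale.Agent.P236Z.Tate

open Vale.Agent.P251.F Vale.Agent.P217 IsLocalRing MvPolynomial

/-- a regular sequence which generates the maximal ideal is quasi-regular -/
def QRS : Prop :=
  ∀ (R : Type) [CommRing R] [IsLocalRing R] (N : ℕ) (s : Fin N → R),
    Ideal.span (Set.range s) = maximalIdeal R →
    RingTheory.Sequence.IsWeaklyRegular R (List.ofFn s) → QR s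

/-- change of the parameters -/
def QRC : Prop :=
  ∀ (R : Type) [CommRing R] [IsLocalRing R] (N : ℕ) (s s' : Fin N → R), QR s →
    Ideal.span (Set.range s') = maximalIdeal R → QR s'

/-- weighted quasi-regularity -/
def QRW : Prop :=
  ∀ (R : Type) [CommRing R] [IsLocalRing R] (N : ℕ) (ev : Fin (N + 1) → R)
    (ω : Fin (N + 1) → ℤ × ℤ), Adm ev ω → ∀ (n D : ℤ) (Q : MvPolynomial (Fin (N + 1)) R),
    IsWeightedHomogeneous ω Q (n, D) → eval ev Q ∈ Fil ev ω (n + 1) →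
    ∀ μ, Q.coeff μ ∈ maximalIdeal R

section
variable {R : Type} [CommRing R] [IsLocalRing R]

/-- the calculus of leading forms -/
structure LFApi {N : ℕ} (ev : Fin (N + 1) → R) (ω : Fin (N + 1) → ℤ × ℤ) : Prop where
  top : ∀ n, n ≤ 0 → Fil ev ω n = ⊤
  mono : ∀ n n', n ≤ n' → Fil ev ω n' ≤ Fil ev ω n
  mul : ∀ n n', Fil ev ω n * Fil ev ω n' ≤ Fil ev ω (n + n')
  one : Fil ev ω 1 = maximalIdeal R
  pow_le : ∀ n : ℕ, maximalIdeal R ^ n ≤ Fil ev ω n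
  le_pow : ∀ n : ℕ, ∃ n', Fil ev ω n' ≤ maximalIdeal R ^ n
  eval_mem : ∀ n D Q, IsWeightedHomogeneous ω Q (n, D) → eval ev Q ∈ Fil ev ω n
  ex : ∀ n D z, z ∈ Fil ev ω n → n ≤ D → ∃ P, LF ev ω n D z P
  mem : ∀ n D z P, LF ev ω n D z P → z ∈ Fil ev ω n
  wh : ∀ n D z P, LF ev ω n D z P → IsWeightedHomogeneous ω P (n, D)
  zero_iff : ∀ n D z P, LF ev ω n D z P → (P = 0 ↔ z ∈ Fil ev ω (n + 1))
  of_mem : ∀ n D z, z ∈ Fil ev ω (n + 1) → LF ev ω n D z 0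
  congr : ∀ n D z z' P, LF ev ω n D z P → z - z' ∈ Fil ev ω (n + 1) → LF ev ω n D z' P
  add : ∀ n D z z' P P', LF ev ω n D z P → LF ev ω n D z' P' → LF ev ω n D (z + z') (P + P')
  neg : ∀ n D z P, LF ev ω n D z P → LF ev ω n D (-z) (-P)
  lmul : ∀ n D n' D' z z' P P', LF ev ω n D z P → LF ev ω n' D' z' P' →
    LF ev ω (n + n') (D + D') (z * z') (P * P')
  surj : ∀ n D P, IsWeightedHomogeneous ω P (n, D) → ∃ z, LF ev ω n D z P
  var : ∀ i, LF ev ω (ω i).1 (ω i).2 (ev i) (X i)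
  const : ∀ c : R, LF ev ω 0 0 c (C (residue R c))

/-- a filtration which is compatible with `H` -/
structure Flt (H : Tw R) (Fl : ℤ → Ideal R) : Prop where
  top : ∀ n, n ≤ 0 → Fl n = ⊤
  mono : ∀ n n', n ≤ n' → Fl n' ≤ Fl n
  mul : ∀ n n', Fl n * Fl n' ≤ Fl (n + n')
  pow_le : ∀ n : ℕ, maximalIdeal R ^ n ≤ Fl n
  le_pow : ∀ n : ℕ, ∃ n', Fl n' ≤ maximalIdeal R ^ n
  T : ∀ d n z, z ∈ Fl n → H.T d z ∈ Fl (n + 1)
  tr : ∀ d n z, z ∈ Fl n → H.tr d z ∈ Fl (n + 2)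

/-- the action on leading forms -/
structure LFAct (H : Tw R) (x : Fin 3 → R) : Prop where
  adm : Adm (evx H x) om
  flt : Flt H (Fil (evx H x) om)
  act : ∀ n D z P, LF (evx H x) om n D z P → LF (evx H x) om n D (H.act D z) P
  T : ∀ n D z P, LF (evx H x) om n D z P →
    LF (evx H x) om (n + 1) D (H.T D z) (dd (ResidueField R) P)
  tr : ∀ n D z P, LF (evx H x) om n D z P →
    LF (evx H x) om (n + 2) D (H.tr D z) (nn (ResidueField R) P)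

/-- one step of the approximation: generators -/
structure StepG (H : Tw R) (Fl : ℤ → Ideal R) (d : ℤ) {ι κ : Type} [Fintype ι] [Fintype κ] (e : ℤ)
    (g0 : ι → R) (e' : ℤ) (g1 : κ → R) : Prop where
  sg0 : ∀ n z, z ∈ Fl n → H.T d z ∈ Fl (n + 2) → ∃ (q : R) (r : ι → R), q ∈ Fl (n - 2) ∧
    (∀ i, r i ∈ Fl ((n - 10) / 3)) ∧ z - H.tr d q - ∑ i, H.nm e (r i) * g0 i ∈ Fl (n + 1)
  sg1 : ∀ n z, z ∈ Fl n → H.tr d z ∈ Fl (n + 3) → ∃ (q : R) (r : κ → R), q ∈ Fl (n - 1) ∧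
    (∀ i, r i ∈ Fl ((n - 10) / 3)) ∧ z - H.T d q - ∑ i, H.nm e' (r i) * g1 i ∈ Fl (n + 1)

/-- one step of the approximation: independence -/
structure StepI (H : Tw R) (Fl : ℤ → Ideal R) (d : ℤ) {ι κ : Type} [Fintype ι] [Fintype κ] (e : ℤ)
    (g0 : ι → R) (e' : ℤ) (g1 : κ → R) : Prop where
  si0 : ∀ r : ι → R, (∃ i, r i ∉ H.J) → ∃ (r' : ι → R) (n : ℤ), (∀ i, r i - r' i ∈ H.J) ∧
    ∑ i, H.nm e (r' i) * g0 i ∈ Fl n ∧
    ∀ q ∈ Fl (n - 2), ∑ i, H.nm e (r' i) * g0 i - H.tr d q ∉ Fl (n + 1)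
  si1 : ∀ r : κ → R, (∃ i, r i ∉ H.J) → ∃ (r' : κ → R) (n : ℤ), (∀ i, r i - r' i ∈ H.J) ∧
    ∑ i, H.nm e' (r' i) * g1 i ∈ Fl n ∧
    ∀ q ∈ Fl (n - 1), ∑ i, H.nm e' (r' i) * g1 i - H.T d q ∉ Fl (n + 1)

end

def LFB : Prop :=
  ∀ (R : Type) [CommRing R] [IsLocalRing R] (N : ℕ) (ev : Fin (N + 1) → R)
    (ω : Fin (N + 1) → ℤ × ℤ), Adm ev ω → LFApi ev ω

def LFT : Prop :=
  ∀ (R : Type) [CommRing R] [IsLocalRing R], Base R → ∀ (H : Tw R) (x : Fin 3 → R), Par H x →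
    LFAct H x

/-- existence of the extension -/
def EXT : Prop :=
  ∀ (A : Type) [CommRing A] (S : DR A), ∃ S' : DR (MvPolynomial (Fin 2) A), Ext S S'

/-- the cohomology of the extension -/
def STEP : Prop :=
  ∀ (A : Type) [CommRing A] (S : DR A) (S' : DR (MvPolynomial (Fin 2) A)), Ext S S' →
    (∀ P, S'.D P = 0 → ∃ (Q : MvPolynomial (Fin 2) A) (κ n : Polynomial A),
      (∀ i, S.D (κ.coeff i) = 0) ∧ (∀ i, S.N (n.coeff i) = 0) ∧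
      P = S'.N Q + cu κ + (cu n * X 1 - S'.D (cu n) * X 0)) ∧
    (∀ P, S'.N P = 0 → ∃ (Q : MvPolynomial (Fin 2) A) (κ n : Polynomial A),
      (∀ i, S.D (κ.coeff i) = 0) ∧ (∀ i, S.N (n.coeff i) = 0) ∧ P = S'.D Q + cu n + cu κ * X 0) ∧
    (∀ (Q : MvPolynomial (Fin 2) A) (κ n : Polynomial A),
      cu κ + (cu n * X 1 - S'.D (cu n) * X 0) = S'.N Q →
      ∀ i, (∃ b, κ.coeff i = S.N b) ∧ ∃ b, n.coeff i = S.D b) ∧
    (∀ (Q : MvPolynomial (Fin 2) A) (κ n : Polynomial A), cu n + cu κ * X 0 = S'.D Q →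
      ∀ i, (∃ b, κ.coeff i = S.N b) ∧ ∃ b, n.coeff i = S.D b)

/-- the cohomology of the graded model -/
def GR : Prop :=
  ∀ (k : Type) [Field k] [CharP k 3] [PerfectRing k 3],
    (∀ P, dd k P = 0 → ∃ (Q : MvPolynomial (Fin 7) k) (b : MvPolynomial (Fin 3) k)
      (c : Fin 3 → MvPolynomial (Fin 3) k),
      P = nn k Q + px k b ^ 3 + ∑ j, px k (c j) ^ 3 * sg k j) ∧
    (∀ P, nn k P = 0 → ∃ (Q : MvPolynomial (Fin 7) k) (b : MvPolynomial (Fin 3) k)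
      (c : Fin 3 → MvPolynomial (Fin 3) k),
      P = dd k Q + px k b ^ 3 * (X 0 * sg k 0) + ∑ j, px k (c j) ^ 3 * xx k j) ∧
    (∀ (Q : MvPolynomial (Fin 7) k) (b : MvPolynomial (Fin 3) k)
      (c : Fin 3 → MvPolynomial (Fin 3) k),
      px k b ^ 3 + ∑ j, px k (c j) ^ 3 * sg k j = nn k Q → b = 0 ∧ ∀ j, c j = 0) ∧
    (∀ (Q : MvPolynomial (Fin 7) k) (b : MvPolynomial (Fin 3) k)
      (c : Fin 3 → MvPolynomial (Fin 3) k),
      px k b ^ 3 * (X 0 * sg k 0) + ∑ j, px k (c j) ^ 3 * xx k j = dd k Q → b = 0 ∧ ∀ j, c j = 0)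

/-- the cohomology of the graded model in degree `D` -/
structure GCoh (k : Type) [Field k] (D : ℤ) {ι κ : Type} [Fintype ι] [Fintype κ] (e : ℤ)
    (g0 : ι → MvPolynomial (Fin 7) k) (c0 : ι → ℤ) (e' : ℤ) (g1 : κ → MvPolynomial (Fin 7) k)
    (c1 : κ → ℤ) : Prop where
  gen0 : ∀ n P, IsWeightedHomogeneous om P (n, D) → dd k P = 0 →
    ∃ (Q : MvPolynomial (Fin 7) k) (ρ : ι → MvPolynomial (Fin 3) k) (m : ι → ℤ),
      IsWeightedHomogeneous om Q (n - 2, D) ∧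
      (∀ i, IsWeightedHomogeneous om (px k (ρ i)) (m i, e) ∧ (3 * m i + c0 i = n ∨ ρ i = 0)) ∧
      P = nn k Q + ∑ i, px k (ρ i) ^ 3 * g0 i
  gen1 : ∀ n P, IsWeightedHomogeneous om P (n, D) → nn k P = 0 →
    ∃ (Q : MvPolynomial (Fin 7) k) (ρ : κ → MvPolynomial (Fin 3) k) (m : κ → ℤ),
      IsWeightedHomogeneous om Q (n - 1, D) ∧
      (∀ i, IsWeightedHomogeneous om (px k (ρ i)) (m i, e') ∧ (3 * m i + c1 i = n ∨ ρ i = 0)) ∧
      P = dd k Q + ∑ i, px k (ρ i) ^ 3 * g1 i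
  ind0 : ∀ (Q : MvPolynomial (Fin 7) k) (ρ : ι → MvPolynomial (Fin 3) k),
    ∑ i, px k (ρ i) ^ 3 * g0 i = nn k Q → ∀ i, ρ i = 0
  ind1 : ∀ (Q : MvPolynomial (Fin 7) k) (ρ : κ → MvPolynomial (Fin 3) k),
    ∑ i, px k (ρ i) ^ 3 * g1 i = dd k Q → ∀ i, ρ i = 0

def GRH : Prop :=
  ∀ (k : Type) [Field k] [CharP k 3] [PerfectRing k 3] (e : ℤ),
    GCoh k (3 * e) e (fun _ : Unit => 1) (fun _ => 0) (e - 1) (fun _ : Unit => X 0 * sg k 0)
      (fun _ => 10) ∧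
    GCoh k (3 * e + 1) e (fun i : Empty => i.elim) (fun _ => 0) e (xx k) ![0, 3, 6] ∧
    GCoh k (3 * e + 2) e (sg k) ![10, 7, 4] e (fun i : Empty => i.elim) (fun _ => 0)

/-- from the graded model to the ring: generators (`δ` is the degree modulo three) -/
def SG : Prop :=
  ∀ (R : Type) [CommRing R] [IsLocalRing R] (H : Tw R) (x : Fin 3 → R), Par H x →
    LFApi (evx H x) om → LFAct H x → ∀ (ι κ : Type) [Fintype ι] [Fintype κ] (δ ε ε' : ℤ)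
    (g0 : ι → R) (g1 : κ → R) (G0 : ι → MvPolynomial (Fin 7) (ResidueField R))
    (G1 : κ → MvPolynomial (Fin 7) (ResidueField R)) (c0 : ι → ℤ) (c1 : κ → ℤ),
    (∀ i, c0 i ≤ 10 ∧ LF (evx H x) om (c0 i) (δ - 3 * ε) (g0 i) (G0 i)) →
    (∀ i, c1 i ≤ 10 ∧ LF (evx H x) om (c1 i) (δ - 3 * ε') (g1 i) (G1 i)) →
    (∀ e, GCoh (ResidueField R) (3 * e + δ) (e + ε) G0 c0 (e + ε') G1 c1) →
    ∀ e, StepG H (Fil (evx H x) om) (3 * e + δ) (e + ε) g0 (e + ε') g1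

/-- from the graded model to the ring: independence -/
def SI : Prop :=
  ∀ (R : Type) [CommRing R] [IsLocalRing R], IsNoetherianRing R → ∀ (H : Tw R) (x : Fin 3 → R),
    Par H x → H.J = Ideal.span {3, H.T 1 (x 0), H.T 1 (x 1), H.T 1 (x 2)} →
    LFApi (evx H x) om → LFAct H x → ∀ (ι κ : Type) [Fintype ι] [Fintype κ] (δ ε ε' : ℤ)
    (g0 : ι → R) (g1 : κ → R) (G0 : ι → MvPolynomial (Fin 7) (ResidueField R))
    (G1 : κ → MvPolynomial (Fin 7) (ResidueField R)) (c0 : ι → ℤ) (c1 : κ → ℤ),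
    (∀ i, LF (evx H x) om (c0 i) (δ - 3 * ε) (g0 i) (G0 i)) →
    (∀ i, LF (evx H x) om (c1 i) (δ - 3 * ε') (g1 i) (G1 i)) →
    (∀ e, GCoh (ResidueField R) (3 * e + δ) (e + ε) G0 c0 (e + ε') G1 c1) →
    ∀ e, StepI H (Fil (evx H x) om) (3 * e + δ) (e + ε) g0 (e + ε') g1

/-- successive approximation -/
def APX : Prop :=
  ∀ (R : Type) [CommRing R] [IsLocalRing R], IsAdicComplete (maximalIdeal R) R →
    ∀ (H : Tw R) (Fl : ℤ → Ideal R), H.Ord3 → Flt H Fl → ∀ (d : ℤ),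
    (∀ (κ : Type) [Fintype κ] (e e' : ℤ) (g1 : κ → R),
      StepG H Fl d e (fun i : Empty => i.elim) e' g1 →
      ∀ n z, z ∈ Fl n → H.T d z = 0 → ∃ f ∈ Fl (n - 2), z = H.tr d f) ∧
    ∀ (ι κ : Type) [Fintype ι] [Fintype κ] (e e' : ℤ) (g0 : ι → R) (g1 : κ → R),
      (∀ i, H.T (d - 3 * e) (g0 i) = 0) → (∀ i, H.tr (d - 3 * e') (g1 i) = 0) →
      StepG H Fl d e g0 e' g1 → StepI H Fl d e g0 e' g1 → Coh H d e g0 e' g1

/-- the ideal of the fixed points -/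
def JEQ : Prop :=
  ∀ (R : Type) [CommRing R] [IsLocalRing R], Base R → ∀ (H : Tw R) (x : Fin 3 → R), Par H x →
    (∀ j, H.tr 1 (x j) = 0) → H.J = Ideal.span {3, H.T 1 (x 0), H.T 1 (x 1), H.T 1 (x 2)}

/-- normal form up to degree `27` -/
def Nrm {R : Type} [CommRing R] (G : Law R) : Prop :=
  ∀ n : ℕ, 2 ≤ n → n ≤ 27 → n ≠ 3 → n ≠ 9 → n ≠ 27 → ∃ i, 0 < i ∧ i < n ∧ ¬ 3 ∣ n.choose i ∧
    MvPowerSeries.coeff (Finsupp.single 0 i + Finsupp.single 1 (n - i)) G.ps = 0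

/-- existence of a normal form -/
def NF : Prop :=
  ∀ (R : Type) [CommRing R] [IsLocalRing R], (3 : R) ∈ maximalIdeal R → ∀ (F : Law R)
    (γ : R ≃+* R) (f : InvSeries R), LT F γ f → ∃ (F' : Law R) (f' : InvSeries R), LT F' γ f' ∧
      Nrm F' ∧ twOf γ f' = twOf γ f

/-- the traces of the coefficients -/
def TRS : Prop :=
  ∀ (R : Type) [CommRing R] [IsLocalRing R], (3 : R) ∈ maximalIdeal R → ∀ (F : Law R)
    (γ : R ≃+* R) (f : InvSeries R), LT F γ f →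
    (twOf γ f).cube.Ord3 ∧ sc (ser3 γ f) 3 = (twOf γ f).tr (-2) (sc f 3) ∧
    (twOf γ f).cube.tr (-2) (sc (ser3 γ f) 3) = 0 ∧ (Nrm F →
      (twOf γ f).cube.tr (-8) (sc (ser3 γ f) 9) ∈
        Ideal.span {sc (ser3 γ f) 3, (twOf γ f).cube.act (-2) (sc (ser3 γ f) 3)} ∧
      (twOf γ f).cube.tr (-26) (sc (ser3 γ f) 27) ∈
        Ideal.span {sc (ser3 γ f) 3, (twOf γ f).cube.act (-2) (sc (ser3 γ f) 3),
          sc (ser3 γ f) 9, (twOf γ f).cube.act (-8) (sc (ser3 γ f) 9)})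

/-- the height of `ζ₃ - 1` is three -/
def HT : Prop :=
  ∀ (R : Type) [CommRing R] [IsLocalRing R] (F : Law R) (γ : R ≃+* R) (f : InvSeries R),
    LT F γ f → sc (ser3 γ f) 3 ∈ maximalIdeal R ∧ sc (ser3 γ f) 9 ∈ maximalIdeal R ∧
      IsUnit (sc (ser3 γ f) 27)

/-- the fixed points of `C₉` and of `C₃` -/
def FIX : Prop :=
  ∀ (R : Type) [CommRing R] [IsLocalRing R], IsNoetherianRing R → ∀ (F : Law R) (γ : R ≃+* R)
    (f : InvSeries R), LT F γ f → sc (ser3 γ f) 3 ∈ maximalIdeal R →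
    sc (ser3 γ f) 9 ∈ maximalIdeal R → IsUnit (sc (ser3 γ f) 27) →
    (twOf γ f).J = maximalIdeal R ∧
      (twOf γ f).cube.J ⊔ Ideal.span {sc (ser3 γ f) 3, sc (ser3 γ f) 9} = maximalIdeal R

/-- linear algebra on the cotangent space -/
def LIN : Prop :=
  ∀ (R : Type) [CommRing R] [IsLocalRing R], Base R → ∀ A : Tw R, A.cube.Ord3 →
    A.J = maximalIdeal R →
    (∀ w, IsUnit w → Ideal.span {3, xw A w 1, xw A w 2, A.cube.T 1 (xw A w 0),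
      A.cube.T 1 (xw A w 1), A.cube.T 1 (xw A w 2)} = maximalIdeal R) ∧
    ∀ τ s, IsUnit τ → A.cube.J ⊔ Ideal.span {A.tr (-2) τ, s} = maximalIdeal R →
      (∀ x₀ v₁ v₂, IsUnit x₀ → IsUnit v₁ → IsUnit v₂ →
        Ideal.span {3, s * v₁, A.tr (-2) τ * v₂, A.cube.T 1 x₀, A.cube.T 1 (s * v₁),
          A.cube.T 1 (A.tr (-2) τ * v₂)} = maximalIdeal R) ∧
      ∀ w, IsUnit w → ∃ c, IsUnit c ∧ A.tr (-2) τ - c * xw A w 2 ∈ A.cube.J ⊔ maximalIdeal R ^ 2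

/-- the quotient group has no cohomology in the degrees prime to three -/
def QAC : Prop :=
  ∀ (R : Type) [CommRing R] [IsLocalRing R], Base R → ∀ (A : Tw R) (w : R),
    (∀ r, A.g r - r ∈ maximalIdeal R) → Par A.cube (xw A w) →
    A.cube.J = Ideal.span {3, A.cube.T 1 (xw A w 0), A.cube.T 1 (xw A w 1),
      A.cube.T 1 (xw A w 2)} → ∀ d : ℤ, ¬ 3 ∣ d →
    (∀ r, A.tr d r ∈ A.cube.J → ∃ q, r - A.T d q ∈ A.cube.J) ∧
    (∀ r, A.T d r ∈ A.cube.J → ∃ q, r - A.tr d q ∈ A.cube.J)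

end Vale.Agent.P236Z.Tate
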