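import Vale.Agent.P236Z.Tate.Sk2
import Vale.Agent.P236Z.Force.Tate

/-!
# P236, block TATE: from the graded ring to the input of the forcing block

`R` is the homotopy ring, `deg n` its part of degree `n`, `v` a unit of degree four, `R₀` the part
of degree zero, `ev` the evaluation `v ↦ 1`.
-/

namespace Vale.Agent.P236Z.Tate

open Vale.Agent.P251.F Vale.Agent.P217 IsLocalRing

section

variable {R : Type} [CommRing R] {R₀ : Type} [CommRing R₀]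

/-- `R = R₀[v, v⁻¹]` with `v` in degree four -/
structure Lau (deg : ℤ → AddSubgroup R) (ι : R₀ →+* R) (ev : R →+* R₀) (v : Rˣ) : Prop where
  ev_ι : ∀ r, ev (ι r) = r
  ev_v : ev v = 1
  mem : ∀ (m : ℤ) a, a ∈ deg (4 * m) ↔ ∃ r, a = ι r * (v ^ m : Rˣ)
  sparse : ∀ t a, t % 4 ≠ 0 → a ∈ deg t → a = 0
  span : ∀ S : AddSubgroup R, (∀ t, deg t ≤ S) → S = ⊤

/-- **The input of the block.** `G` is the law of the orientation, `φ` the strict isomorphism from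
`G` to `g G`. -/
structure GDat [IsLocalRing R₀] (deg : ℤ → AddSubgroup R) (ι : R₀ →+* R) (ev : R →+* R₀) (v : Rˣ)
    (g : R ≃+* R) (G : Law R) (φ : InvSeries R) : Prop where
  lau : Lau deg ι ev v
  base : Base R₀
  res : ∀ r : R₀, ∃ c : ℤ, r - c ∈ maximalIdeal R₀
  g_mem : ∀ t a, a ∈ deg t → g a ∈ deg t
  g9 : ∀ a, (g ^ 9) a = a
  gv : ev (g v) - 1 ∈ maximalIdeal R₀
  G_mem : ∀ d : Fin 2 →₀ ℕ, MvPowerSeries.coeff d G.ps ∈ deg (2 * ((d 0 : ℤ) + d 1 - 1))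
  φ_mem : ∀ n : ℕ, φ.c n ∈ deg (2 * n)
  ψ_mem : ∀ n : ℕ, (ser3 g φ).c n ∈ deg (2 * n)
  strict : φ.c 0 = 1
  act : φ • G = G.map (g : R →+* R)
  ordf : ser3 (g.trans (g.trans g)) (ser3 g φ) = 1
  gen : IF 3 (G.map ev).toFG 6 = maximalIdeal R₀
  unit : IsUnit (ev (φ.c 2))

/-- the action on `R` is the twisted action on `R₀` -/
def Tra (ι : R₀ →+* R) (v : Rˣ) (g : R ≃+* R) (A : Tw R₀) : Prop :=
  ∀ (m : ℤ) (r : R₀), g (ι r * (v ^ m : Rˣ)) = ι (A.act (-2 * m) r) * (v ^ m : Rˣ)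

end

/-- rescaling -/
def RSC : Prop :=
  ∀ (R : Type) [CommRing R] (R₀ : Type) [CommRing R₀] [IsLocalRing R₀] (deg : ℤ → AddSubgroup R)
    (ι : R₀ →+* R) (ev : R →+* R₀) (v : Rˣ) (g : R ≃+* R) (G : Law R) (φ : InvSeries R),
    GDat deg ι ev v g G φ → ∃ (γ : R₀ ≃+* R₀) (f : InvSeries R₀), LT (G.map ev) γ f ∧
      Tra ι v g (twOf γ f) ∧ ∀ n, ev (PowerSeries.coeff n (ser3 g φ).val) = sc (ser3 γ f) n

/-- the ring of the fixed points -/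
def OF : Prop :=
  ∀ (R : Type) [CommRing R] [IsLocalRing R], Base R → ∀ (a b c y z : R) (I : Ideal R),
    I = Ideal.span {3, a, b, c} → I ⊔ Ideal.span {y, z} = maximalIdeal R →
    z ∉ I ⊔ Ideal.span {y} ⊔ maximalIdeal R ^ 2 ∧ ((∀ r : R, ∃ c : ℤ, r - c ∈ maximalIdeal R) →
      Force.OFacts (Ideal.Quotient.mk I y) (Ideal.Quotient.mk I z))

/-- `s₉` is invariant modulo `s₃` -/
def S9I : Prop :=
  ∀ (R : Type) [CommRing R] [IsLocalRing R] (F : Law R) (γ : R ≃+* R) (f : InvSeries R),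
    LT F γ f → (twOf γ f).T (-8) (sc (ser3 γ f) 9) ∈
      (twOf γ f).cube.J ⊔ Ideal.span {sc (ser3 γ f) 3}

/-- units are not invariant in the degrees prime to three -/
def INV : Prop :=
  ∀ (R : Type) [CommRing R] [IsLocalRing R], Base R → (∀ r : R, ∃ c : ℤ, r - c ∈ maximalIdeal R) →
    ∀ (F : Law R) (γ : R ≃+* R) (f : InvSeries R) (w : R), LT F γ f → Out γ f w →
    (∀ (d : ℤ) (z : R), ¬ 3 ∣ d → IsUnit z → (twOf γ f).T d z ∉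
      (twOf γ f).cube.J ⊔ Ideal.span {sc (ser3 γ f) 3}) ∧
    (∀ b z : R, IsUnit b → z - b * sc (ser3 γ f) 9 ^ 2 ∈ (twOf γ f).cube.J →
      (twOf γ f).T (-8) z ∉ (twOf γ f).cube.J ⊔ Ideal.span {sc (ser3 γ f) 3}) ∧
    (∃ (r : Fin 3 → R) (q : R), sc (ser3 γ f) 3 = ∑ i, (twOf γ f).cube.nm (-1) (r i) *
      xw (twOf γ f) w i + (twOf γ f).cube.T (-2) q ∧ ∃ l, IsUnit (r l)) ∧
    ∀ a q : R, (twOf γ f).cube.tr 0 a = 0 → (twOf γ f).tr 0 a = (twOf γ f).cube.T 0 q →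
      ∃ b q' : R, (twOf γ f).cube.tr 0 b = 0 ∧ a = (twOf γ f).T 0 b + (twOf γ f).cube.T 0 q'

/-- the generators of the cohomology of `R` -/
def xt {R R₀ : Type} [CommRing R] [CommRing R₀] (ι : R₀ →+* R) (v : Rˣ) (H : Tw R₀) (x : Fin 3 → R₀)
    (i : Fin 3) : R := ι (x i * H.nm (-1) 1) * v

/-- the cohomology of `R` -/
def BRA : Prop :=
  ∀ (R : Type) [CommRing R] (R₀ : Type) [CommRing R₀] (deg : ℤ → AddSubgroup R) (ι : R₀ →+* R)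
    (ev : R →+* R₀) (v : Rˣ) (h : R ≃+* R) (H : Tw R₀) (x : Fin 3 → R₀), Lau deg ι ev v →
    Tra ι v h H → H.Ord3 → (∀ j, H.tr 1 (x j) = 0) → CohAll H x →
    (∀ i, xt ι v H x i ∈ deg 4 ∧ SS.tr h (xt ι v H x i) = 0) ∧
    (∀ (m : ℤ) c, c ∈ deg (4 * m) → ev c ∈ H.J → ∃ f ∈ deg (12 * m), SS.nm h c = SS.tr h f) ∧
    (∀ (m e : ℤ) a, 0 ≤ e → e ≤ 5 → a ∈ deg (12 * m + 4 * e) → SS.d1 h e a = 0 →
      ∃ (c : Fin 3 → R) (f : R), (∀ l, c l ∈ deg (4 * m)) ∧ f ∈ deg (12 * m + 4 * e) ∧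
        a = Force.gen h (xt ι v H x) e c + SS.d1 h (e + 1) f) ∧
    ∀ (m e : ℤ) (c : Fin 3 → R) f, 0 ≤ e → e ≤ 3 → (∀ l, c l ∈ deg (4 * m)) →
      f ∈ deg (12 * m + 4 * e) → Force.gen h (xt ι v H x) e c = SS.d1 h (e + 1) f →
      ev (c 0) ∈ H.J ∧ (e = 1 ∨ e = 2 → ev (c 1) ∈ H.J ∧ ev (c 2) ∈ H.J)

/-- **The output of the block.** -/
def BR : Prop :=
  ∀ (R : Type) [CommRing R] (R₀ : Type) [CommRing R₀] [IsLocalRing R₀] (deg : ℤ → AddSubgroup R)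
    (ι : R₀ →+* R) (ev : R →+* R₀) (v : Rˣ) (g h : R ≃+* R) (G : Law R) (φ : InvSeries R)
    (σ : ℕ → R), GDat deg ι ev v g G φ → (∀ a, g (g (g a)) = h a) →
    (∀ n, σ n = PowerSeries.coeff n (ser3 g φ).val) →
    ∃ (O : Type) (_ : CommRing O) (red : R →+* O) (x : Fin 3 → R), Force.Tate deg h g σ red x ∧
      (∀ t a, a ∈ deg t → IsUnit (red a) → IsUnit a) ∧ IsUnit (σ 27) ∧ Nontrivial O

end Vale.Agent.P236Z.Tate
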