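import Vale.Agent.P236Z.Tate.Cmp

/-!
# P236, block TATE: the traces of the coefficients
-/

namespace Vale.Agent.P236Z.Tate

open Vale.Agent.P251.F Vale.Agent.P217 IsLocalRing MvPowerSeries Cmp

namespace Trs

section Gen

variable {B : Type} [CommRing B]

theorem act_twOf (γ : B ≃+* B) (f : InvSeries B) (k : ℕ) (r : B) :
    (twOf γ f).act (-(k : ℤ)) r = γ r * PowerSeries.coeff 1 f.val ^ k := by
  rw [Tw.act, twOf]
  simp only [inv_zpow', neg_neg, zpow_natCast, Units.val_pow_eq_pow_val, IsUnit.unit_spec]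

/-- the first nonlinear coefficient of the third power is a trace -/
theorem comp (γ : B ≃+* B) (f : InvSeries B) (I : Ideal B) {k : ℕ} (hk : 1 ≤ k)
    (hf : ∀ j, 2 ≤ j → j < k + 1 → γ (PowerSeries.coeff j f.val) ∈ I ∧
      γ (γ (PowerSeries.coeff j f.val)) ∈ I) :
    sc (ser3 γ f) (k + 1) - (twOf γ f).tr (-(k : ℤ)) (sc f (k + 1)) ∈ I := by
  set A1 := InvSeries.map (γ : B →+* B) f with hA1
  set A2 := InvSeries.map (γ : B →+* B) A1 with hA2
  have c1 : ∀ j, PowerSeries.coeff j A1.val = γ (PowerSeries.coeff j f.val) := fun j => by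
    rw [hA1, InvSeries.map_val, PowerSeries.coeff_map]; rfl
  have c2 : ∀ j, PowerSeries.coeff j A2.val = γ (γ (PowerSeries.coeff j f.val)) := fun j => by
    rw [hA2, InvSeries.map_val, PowerSeries.coeff_map, c1]; rfl
  have k1 : ∀ n, 2 ≤ n → n ≤ k + 1 → PowerSeries.coeff n (A2 * A1).val -
      (PowerSeries.coeff 1 A2.val * PowerSeries.coeff n A1.val +
        PowerSeries.coeff 1 A1.val ^ n * PowerSeries.coeff n A2.val) ∈ I := fun n a b =>
    coeff_mul_mem A1 I a fun j c d => c2 j ▸ (hf j c (by omega)).2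
  have k2 := coeff_mul_mem (f := A2 * A1) f I (n := k + 1) (by omega) fun j a b => by
    have := add_mem (k1 j a b.le) (add_mem
      (Ideal.mul_mem_left I (PowerSeries.coeff 1 A2.val) (hf j a b).1)
      (Ideal.mul_mem_left I (PowerSeries.coeff 1 A1.val ^ j) (hf j a b).2))
    rwa [← c2, ← c1, sub_add_cancel] at this
  have k3 := k1 (k + 1) (by omega) le_rfl
  have e : ser3 γ f = A2 * A1 * f := rfl
  have e1 : PowerSeries.coeff 1 (ser3 γ f).val = γ (γ (PowerSeries.coeff 1 f.val)) *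
      γ (PowerSeries.coeff 1 f.val) * PowerSeries.coeff 1 f.val := by
    rw [e, coeff_one_mul, coeff_one_mul, c1, c2]
  rw [← Ideal.unit_mul_mem_iff_mem I (ser3 γ f).isUnit, mul_sub, ← Ht.coeff_eq_sc, e1, Tw.tr,
    act_twOf, act_twOf, map_mul, map_pow]
  rw [coeff_one_mul, ← e, c1, c2, Ht.coeff_eq_sc f (k + 1)] at k2
  rw [c1, c1, c2, c2, Ht.coeff_eq_sc f (k + 1), map_mul, map_mul] at k3
  have := add_mem k2 (Ideal.mul_mem_left I (PowerSeries.coeff 1 f.val ^ (k + 1)) k3)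
  refine (congrArg (· ∈ I) ?_).mp this
  ring

theorem sc_one {n : ℕ} (hn : n ≠ 1) : sc (1 : InvSeries B) n = 0 := by
  have : PowerSeries.coeff n (1 : InvSeries B).val = 0 := by
    rw [InvSeries.one_val, PowerSeries.coeff_X, if_neg hn]
  rw [sc, this, mul_zero]

theorem g_mem_iff (A : Tw B) (I : Ideal B) (d : ℤ) (r : B) : A.act d r ∈ I ↔ A.g r ∈ I :=
  Ideal.mul_unit_mem_iff_mem I (Units.isUnit _)

theorem stable (A : Tw B) {S : Set B} (hS : ∀ s ∈ S, A.g s ∈ Ideal.span S) {r : B}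
    (hr : r ∈ Ideal.span S) : A.g r ∈ Ideal.span S := by
  have : Ideal.span S ≤ (Ideal.span S).comap (A.g : B →+* B) := Ideal.span_le.2 hS
  exact this hr

theorem act_act_mem (A : Tw B) {I : Ideal B} {d : ℤ} {r : B} (h0 : A.tr d r ∈ I) (h1 : r ∈ I)
    (h2 : A.act d r ∈ I) : A.g (A.act d r) ∈ I := by
  rw [← g_mem_iff A I d]
  have := sub_mem (sub_mem h0 h1) h2
  rwa [Tw.tr, show ∀ a b c : B, a + b + c - a - b = c from fun a b c => by ring] at this

end Gen

variable {R : Type} [CommRing R] [IsLocalRing R]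

theorem coeff_mem (h3 : (3 : R) ∈ maximalIdeal R) {F : Law R} (hN : Nrm F) {δ : R →+* R}
    {l : InvSeries R} (h : l • F = F.map δ) (I : Ideal R) {N : ℕ} (hN' : N ≤ 27)
    (a3 : sc l 3 ∈ I) (a9 : 9 < N → sc l 9 ∈ I) :
    ∀ j, 2 ≤ j → j < N → PowerSeries.coeff j l.val ∈ I := by
  intro j
  induction j using Nat.strong_induction_on with
  | _ j ih =>
    intro a b
    by_cases e3 : j = 3
    · rw [e3, Ht.coeff_eq_sc]
      exact Ideal.mul_mem_left _ _ a3
    by_cases e9 : j = 9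
    · rw [e9, Ht.coeff_eq_sc]
      exact Ideal.mul_mem_left _ _ (a9 (e9 ▸ b))
    obtain ⟨i, i0, i1, i2, i3⟩ := hN j a (by omega) e3 e9 (by omega)
    have key := cmp_mem h I (fun m c d => ih m d c (by omega)) i0 i1 i3 (by
      rw [Law.map_ps, coeff_map]
      exact (congrArg δ i3).trans (map_zero δ))
    exact (Ideal.mul_unit_mem_iff_mem I (isUnit_natCast h3 i2)).1 key

end Trs

open Trs

theorem trs : TRS := by
  intro R _ _ h3 F γ f h
  have hl := Cmp.ser3_smul h.act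
  have key : ∀ (I : Ideal R) (k : ℕ), 1 ≤ k → (∀ r ∈ I, (twOf γ f).cube.g r ∈ I) →
      (∀ j, 2 ≤ j → j < k + 1 → PowerSeries.coeff j (ser3 γ f).val ∈ I) →
      (twOf γ f).cube.tr (-(k : ℤ)) (sc (ser3 γ f) (k + 1)) ∈ I := fun I k hk hI hc => by
    have := comp (γ.trans (γ.trans γ)) (ser3 γ f) I hk fun j a b =>
      ⟨hI _ (hc j a b), hI _ (hI _ (hc j a b))⟩
    rwa [h.ordf, sc_one (by omega), zero_sub, neg_mem_iff, twOf_ser3] at this
  have t3 : (twOf γ f).cube.tr (-2) (sc (ser3 γ f) 3) = 0 :=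
    key ⊥ 2 one_le_two (fun r hr => by rw [Ideal.mem_bot.1 hr, map_zero]; exact zero_mem _)
      fun j a b => coeff_two h3 hl h.a11 j a b
  refine ⟨fun d r => ?_, ?_, t3, fun hN => ?_⟩
  · have ht : (twOf γ f).cube.cube.t = 1 := by
      have := Ht.coeff_one_ser3 (γ.trans (γ.trans γ)) (ser3 γ f)
      rw [h.ordf, twOf_ser3, InvSeries.one_val, PowerSeries.coeff_one_X, mul_one] at this
      exact Units.ext this
    rw [← Tw.cube_act, Tw.act, ht, one_zpow, Units.val_one, mul_one]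
    exact (pow_nine γ r).symm.trans (h.ord r)
  · refine sub_eq_zero.1 (comp γ f ⊥ one_le_two fun j a b => ?_)
    rw [coeff_two h3 h.act h.a11 j a b, map_zero, map_zero]
    exact ⟨zero_mem _, zero_mem _⟩
  set H := (twOf γ f).cube with hH
  set s3 := sc (ser3 γ f) 3
  set s9 := sc (ser3 γ f) 9
  have t9 : H.tr (-8) s9 ∈ Ideal.span {s3, H.act (-2) s3} := by
    have m1 : s3 ∈ Ideal.span {s3, H.act (-2) s3} := Ideal.subset_span (by simp)
    have m2 : H.act (-2) s3 ∈ Ideal.span {s3, H.act (-2) s3} := Ideal.subset_span (by simp)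
    refine key _ 8 (by norm_num) (fun r => stable H ?_)
      (coeff_mem h3 hN hl _ (by norm_num) m1 fun h => absurd h (by norm_num))
    rintro s (rfl | rfl)
    · exact (g_mem_iff H _ _ _).1 m2
    · exact act_act_mem H (t3 ▸ zero_mem _) m1 m2
  refine ⟨t9, ?_⟩
  have m : ∀ s ∈ ({s3, H.act (-2) s3, s9, H.act (-8) s9} : Set R),
      s ∈ Ideal.span {s3, H.act (-2) s3, s9, H.act (-8) s9} := fun s hs => Ideal.subset_span hs
  refine key _ 26 (by norm_num) (fun r => stable H ?_)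
    (coeff_mem h3 hN hl _ (by norm_num) (m s3 (by simp)) fun _ => m s9 (by simp))
  rintro s (rfl | rfl | rfl | rfl)
  · exact (g_mem_iff H _ (-2) _).1 (m _ (by simp))
  · exact act_act_mem H (t3 ▸ zero_mem _) (m _ (by simp)) (m _ (by simp))
  · exact (g_mem_iff H _ (-8) _).1 (m _ (by simp))
  · refine act_act_mem H (Ideal.span_mono ?_ t9) (m _ (by simp)) (m _ (by simp))
    rintro s (rfl | rfl) <;> simp

end Vale.Agent.P236Z.Tate
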